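import Vale.Agent.Lib.P346.FQ.FinalFQ
import Vale.Agent.Lib.P346.Final2

/-! Change of coefficients, and the growth of `s_K(n)` for all finite fields `K`. -/

namespace Vale.P346

open MvPolynomial Finset Filter Topology

namespace Circuit

variable {R R' V : Type} (φ : R → R') (C : Circuit R V)

/-- Apply a map to all the coefficients of a circuit. -/
def mapCoeff : Circuit R' V where
  G0 := C.G0
  G1 := C.G1
  G2 := C.G2
  G3 := C.G3
  G4 := C.G4
  leaf := fun i => Sum.map id φ (C.leaf i)
  in1 := C.in1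
  c1 := fun g i => φ (C.c1 g i)
  m2 := C.m2
  in3 := C.in3
  c3 := fun g i => φ (C.c3 g i)
  m4 := C.m4
  in5 := C.in5
  c5 := fun i => φ (C.c5 i)

lemma mapCoeff_size : (C.mapCoeff φ).size = C.size := rfl

lemma mapCoeff_deg0 (i : C.G0) : (C.mapCoeff φ).deg0 i = C.deg0 i := by
  change Sum.elim (fun _ => 1) (fun _ => 0) (Sum.map id φ (C.leaf i)) = _
  unfold deg0
  rcases C.leaf i with a | r <;> rfl

lemma mapCoeff_homogeneous (h : C.Homogeneous) : (C.mapCoeff φ).Homogeneous := by
  obtain ⟨d1, d3, d5, h1, h3, h5⟩ := h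
  exact ⟨d1, d3, d5, fun g i hi => (mapCoeff_deg0 φ C i).trans (h1 g i hi), h3, h5⟩

end Circuit

lemma mapCoeff_out {R R' V : Type} [CommRing R] [CommRing R'] (φ : R →+* R') (C : Circuit R V) :
    (C.mapCoeff φ).out = MvPolynomial.map φ C.out := by
  have h0 : ∀ i, (C.mapCoeff φ).val0 i = MvPolynomial.map φ (C.val0 i) := by
    intro i
    change Sum.elim (fun v => X v) (fun r => MvPolynomial.C r) (Sum.map id φ (C.leaf i)) = _
    unfold Circuit.val0
    rcases C.leaf i with a | r
    · simp
    · simp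
  have h1 : ∀ g, (C.mapCoeff φ).val1 g = MvPolynomial.map φ (C.val1 g) := by
    intro g
    change ∑ i ∈ C.in1 g, MvPolynomial.C (φ (C.c1 g i)) * (C.mapCoeff φ).val0 i = _
    unfold Circuit.val1
    rw [map_sum]
    exact Finset.sum_congr rfl (fun i _ =>
      (congrArg (fun z => MvPolynomial.C (φ (C.c1 g i)) * z) (h0 i)).trans
        (by rw [map_mul, map_C]))
  have h2 : ∀ g, (C.mapCoeff φ).val2 g = MvPolynomial.map φ (C.val2 g) := by
    intro g
    change ∏ i, (C.mapCoeff φ).val1 i ^ C.m2 g i = _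
    unfold Circuit.val2
    rw [map_prod]
    exact Finset.prod_congr rfl (fun i _ =>
      (congrArg (fun z => z ^ C.m2 g i) (h1 i)).trans (by rw [map_pow]))
  have h3 : ∀ g, (C.mapCoeff φ).val3 g = MvPolynomial.map φ (C.val3 g) := by
    intro g
    change ∑ i ∈ C.in3 g, MvPolynomial.C (φ (C.c3 g i)) * (C.mapCoeff φ).val2 i = _
    unfold Circuit.val3
    rw [map_sum]
    exact Finset.sum_congr rfl (fun i _ =>
      (congrArg (fun z => MvPolynomial.C (φ (C.c3 g i)) * z) (h2 i)).trans
        (by rw [map_mul, map_C]))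
  have h4 : ∀ g, (C.mapCoeff φ).val4 g = MvPolynomial.map φ (C.val4 g) := by
    intro g
    change ∏ i, (C.mapCoeff φ).val3 i ^ C.m4 g i = _
    unfold Circuit.val4
    rw [map_prod]
    exact Finset.prod_congr rfl (fun i _ =>
      (congrArg (fun z => z ^ C.m4 g i) (h3 i)).trans (by rw [map_pow]))
  change ∑ i ∈ C.in5, MvPolynomial.C (φ (C.c5 i)) * (C.mapCoeff φ).val4 i = _
  unfold Circuit.out
  rw [map_sum]
  exact Finset.sum_congr rfl (fun i _ =>
    (congrArg (fun z => MvPolynomial.C (φ (C.c5 i)) * z) (h4 i)).trans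
      (by rw [map_mul, map_C]))

lemma map_IMM {R R' : Type} [CommRing R] [CommRing R'] (φ : R →+* R') (w d : ℕ) :
    MvPolynomial.map φ (IMM R w d) = IMM R' w d := by
  unfold IMM
  rw [map_sum]
  refine Finset.sum_congr rfl (fun i _ => ?_)
  rw [map_prod]
  exact Finset.prod_congr rfl (fun t _ => by rw [map_X])

/-- The lower bound for the number of product gates, for every finite field. -/
theorem lower_every (q : ℕ) : ∃ c : ℝ, 0 < c ∧ ∃ n0 : ℕ,
    ∀ (K : Type) [Field K] [Fintype K], Fintype.card K = q →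
      ∀ (R : Type) [CommRing R], (R →+* K) → ∀ n ≥ n0, ∀ C : Circuit R (Var n n),
        C.Homogeneous → C.out = IMM R n n →
          (2 : ℝ) ^ (c * √(n : ℝ)) ≤ (Fintype.card C.G2 : ℝ) + Fintype.card C.G4 := by
  rcases Nat.lt_or_ge q 3 with hlt | hge
  · refine ⟨1 / 250, by norm_num, 200000, ?_⟩
    intro K _ _ hK R _ φ n hn C hC hout
    have h2 : Fintype.card K = 2 := by
      have : 1 < Fintype.card K := Fintype.one_lt_card
      omega
    have e : ZMod 2 ≃+* K := ZMod.ringEquivOfPrime K Nat.prime_two h2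
    have h3 := lower_real ((e.symm : K →+* ZMod 2).comp φ) n hn C hout
    have h4 : 1 / 250 * √(n : ℝ) = √(n : ℝ) / 250 := by ring
    rw [h4]
    exact h3
  · obtain ⟨c, hc, n0, h⟩ := FQ.lower_all q hge
    refine ⟨c, hc, n0, ?_⟩
    intro K _ _ hK R _ φ n hn C hC hout
    have h1 := h K hK n hn (C.mapCoeff φ) (C.mapCoeff_homogeneous φ hC)
      (by rw [mapCoeff_out, hout, map_IMM])
    exact h1

/-- The lower bound for `s_R(n)` for every commutative ring `R` with a homomorphism to a finite
field with `q` elements. -/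
theorem s_lower_every (q : ℕ) : ∃ c : ℝ, 0 < c ∧ ∃ n0 : ℕ,
    ∀ (K : Type) [Field K] [Fintype K], Fintype.card K = q →
      ∀ (R : Type) [CommRing R], (R →+* K) → ∀ n ≥ n0,
        (2 : ℝ) ^ (c * √(n : ℝ)) ≤ (s R n : ℝ) := by
  obtain ⟨c, hc, n0, h⟩ := lower_every q
  refine ⟨c, hc, max n0 2, ?_⟩
  intro K _ _ hK R _ φ n hn
  have hn0 : n0 ≤ n := le_trans (le_max_left _ _) hn
  have hn2 : 2 ≤ n := le_trans (le_max_right _ _) hn
  have hne : {k | ∃ C : Circuit R (Var n n), C.Homogeneous ∧ C.out = IMM R n n ∧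
      C.size = k}.Nonempty := by
    obtain ⟨C, h1, h2, _⟩ := upper_bound R n hn2
    exact ⟨C.size, C, h1, h2, rfl⟩
  obtain ⟨C, h1, h2, h3⟩ := Nat.sInf_mem hne
  have h4 : s R n = C.size := h3.symm
  rw [h4]
  refine (h K hK R φ n hn0 C h1 h2).trans ?_
  have : Fintype.card C.G2 + Fintype.card C.G4 ≤ C.size := by
    unfold Circuit.size
    omega
  exact_mod_cast this

/-- `log log s_R(n) / log n → 1/2` -/
theorem growth_every (R : Type) [CommRing R] (c : ℝ) (hc : 0 < c) (n0 : ℕ)
    (hlower : ∀ n ≥ n0, (2 : ℝ) ^ (c * √(n : ℝ)) ≤ (s R n : ℝ)) :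
    Tendsto (fun n : ℕ => Real.log (Real.log (s R n)) / Real.log n) atTop (𝓝 (1 / 2)) := by
  have hlog : Tendsto (fun n : ℕ => Real.log (n : ℝ)) atTop atTop :=
    Real.tendsto_log_atTop.comp tendsto_natCast_atTop_atTop
  have hlow : Tendsto (fun n : ℕ => 1 / 2 + Real.log (c * Real.log 2) / Real.log n) atTop
      (𝓝 (1 / 2)) := by
    have h1 : Tendsto (fun n : ℕ => Real.log (c * Real.log 2) / Real.log n) atTop (𝓝 0) :=
      tendsto_const_nhds.div_atTop hlog
    simpa using tendsto_const_nhds.add h1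
  have hup : Tendsto (fun n : ℕ => 1 / 2 + (Real.log 2 / Real.log n +
      Real.log (Real.log n) / Real.log n)) atTop (𝓝 (1 / 2)) := by
    have h1 : Tendsto (fun n : ℕ => Real.log 2 / Real.log n) atTop (𝓝 0) :=
      tendsto_const_nhds.div_atTop hlog
    have h2 : Tendsto (fun x : ℝ => Real.log x / x) atTop (𝓝 0) := by
      have := Real.isLittleO_log_id_atTop.tendsto_div_nhds_zero
      simpa using this
    have h3 : Tendsto (fun n : ℕ => Real.log (Real.log n) / Real.log n) atTop (𝓝 0) :=
      h2.comp hlog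
    simpa using tendsto_const_nhds.add (h1.add h3)
  refine tendsto_of_tendsto_of_tendsto_of_le_of_le' hlow hup ?_ ?_
  · filter_upwards [eventually_ge_atTop (max n0 2)] with n hn
    have hn0 : n0 ≤ n := le_trans (le_max_left _ _) hn
    have hn2 : 2 ≤ n := le_trans (le_max_right _ _) hn
    have hn' : (2 : ℝ) ≤ n := by exact_mod_cast hn2
    have hnpos : (0 : ℝ) < n := by linarith
    have hlogn : 0 < Real.log n := Real.log_pos (by linarith)
    have hlog2 : 0 < Real.log 2 := Real.log_pos (by norm_num)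
    have h1 := hlower n hn0
    have h2 : c * √(n : ℝ) * Real.log 2 ≤ Real.log (s R n) := by
      rw [← Real.log_rpow (by norm_num)]
      exact Real.log_le_log (by positivity) h1
    have hsq : 0 < √(n : ℝ) := Real.sqrt_pos.mpr hnpos
    have h3 : Real.log (c * √(n : ℝ) * Real.log 2) ≤ Real.log (Real.log (s R n)) :=
      Real.log_le_log (by positivity) h2
    have h4 : Real.log (c * √(n : ℝ) * Real.log 2)
        = 1 / 2 * Real.log n + Real.log (c * Real.log 2) := by
      have : c * √(n : ℝ) * Real.log 2 = √(n : ℝ) * (c * Real.log 2) := by ring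
      rw [this, Real.log_mul hsq.ne' (by positivity), Real.log_sqrt hnpos.le]
      ring
    rw [le_div_iff₀ hlogn]
    calc (1 / 2 + Real.log (c * Real.log 2) / Real.log n) * Real.log n
        = 1 / 2 * Real.log n + Real.log (c * Real.log 2) := by field_simp
      _ ≤ _ := by rw [← h4]; exact h3
  · filter_upwards [eventually_ge_atTop (max n0 64)] with n hn
    have hn0 : n0 ≤ n := le_trans (le_max_left _ _) hn
    have hn64 : 64 ≤ n := le_trans (le_max_right _ _) hn
    have hn' : (64 : ℝ) ≤ n := by exact_mod_cast hn64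
    have hnpos : (0 : ℝ) < n := by linarith
    have hlogn : 0 < Real.log n := Real.log_pos (by linarith)
    have hlog2 : 0 < Real.log 2 := Real.log_pos (by norm_num)
    have hsq : 0 < √(n : ℝ) := Real.sqrt_pos.mpr hnpos
    have hsq8 : 8 ≤ √(n : ℝ) := by
      apply Real.le_sqrt_of_sq_le
      linarith
    have h1' : (1 : ℝ) < s R n := by
      refine lt_of_lt_of_le ?_ (hlower n hn0)
      exact Real.one_lt_rpow (by norm_num) (by positivity)
    have h2 : Real.log (s R n) ≤ (√(n : ℝ) + 8) * Real.log n := by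
      rw [← Real.log_rpow hnpos]
      exact Real.log_le_log (by linarith) (s_upper R n (by omega))
    have h3 : Real.log (s R n) ≤ 2 * √(n : ℝ) * Real.log n := by
      refine h2.trans (mul_le_mul_of_nonneg_right (by linarith) hlogn.le)
    have h4 : Real.log (Real.log (s R n)) ≤ Real.log (2 * √(n : ℝ) * Real.log n) :=
      Real.log_le_log (Real.log_pos h1') h3
    have h5 : Real.log (2 * √(n : ℝ) * Real.log n)
        = 1 / 2 * Real.log n + (Real.log 2 + Real.log (Real.log n)) := by
      rw [Real.log_mul (by positivity) hlogn.ne', Real.log_mul (by norm_num) hsq.ne',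
        Real.log_sqrt hnpos.le]
      ring
    rw [div_le_iff₀ hlogn]
    calc Real.log (Real.log (s R n)) ≤ 1 / 2 * Real.log n + (Real.log 2 + Real.log (Real.log n)) := by
          rw [← h5]; exact h4
      _ = (1 / 2 + (Real.log 2 / Real.log n + Real.log (Real.log n) / Real.log n)) *
          Real.log n := by field_simp

end Vale.P346
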