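import Vale.Agent.Lib.P346.FQ.VBasic
import Vale.Agent.Lib.P346.Abp

/-! A short and narrow matrix product computing a given function of the number of nonzero
coordinates, on a window. -/

namespace Vale.P346.FQ

open Finset

lemma choose_pred_gen {A : Type} [CommRing A] (s j : ℕ) :
    (((s).choose j : ℕ) : A)
      = ∑ i ∈ range (j + 1), (-1) ^ (j - i) * (((s + 1).choose i : ℕ) : A) := by
  induction j with
  | zero => simp
  | succ j ih =>
    rw [Finset.sum_range_succ]
    have h1 : ∑ i ∈ range (j + 1), (-1 : A) ^ (j + 1 - i) * (((s + 1).choose i : ℕ) : A)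
        = - ∑ i ∈ range (j + 1), (-1) ^ (j - i) * (((s + 1).choose i : ℕ) : A) := by
      rw [← Finset.sum_neg_distrib]
      refine Finset.sum_congr rfl (fun i hi => ?_)
      rw [Finset.mem_range] at hi
      have h2 : j + 1 - i = (j - i) + 1 := by omega
      rw [h2, pow_succ]
      ring
    rw [h1, ← ih, Nat.choose_succ_succ]
    push_cast
    simp

/-- interpolation on a window over any commutative ring -/
theorem window_interp_gen {A : Type} [CommRing A] (r s0 : ℕ) (f : ℕ → A) :
    ∃ a : ℕ → A, ∀ s, s0 ≤ s → s ≤ s0 + r →
      f s = ∑ j ∈ range (r + 1), ((s.choose j : ℕ) : A) * a j := by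
  induction s0 generalizing f with
  | zero =>
    induction r with
    | zero =>
      refine ⟨fun _ => f 0, fun s _ hs => ?_⟩
      have : s = 0 := by omega
      subst this
      simp
    | succ r ih =>
      obtain ⟨a, ha⟩ := ih
      refine ⟨fun j => if j = r + 1 then
        f (r + 1) - ∑ j ∈ range (r + 1), (((r + 1).choose j : ℕ) : A) * a j else a j,
        fun s _ hs => ?_⟩
      rw [Finset.sum_range_succ]
      have h1 : ∑ j ∈ range (r + 1), ((s.choose j : ℕ) : A) *
          (if j = r + 1 then f (r + 1) - ∑ j ∈ range (r + 1), (((r + 1).choose j : ℕ) : A) * a j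
            else a j) = ∑ j ∈ range (r + 1), ((s.choose j : ℕ) : A) * a j := by
        refine Finset.sum_congr rfl (fun j hj => ?_)
        rw [Finset.mem_range] at hj
        rw [if_neg (by omega)]
      rw [h1]
      simp only [↓reduceIte]
      rcases Nat.lt_or_ge r s with hlt | hge
      · have : s = r + 1 := by omega
        subst this
        simp
      · rw [Nat.choose_eq_zero_of_lt (show s < r + 1 by omega)]
        simpa using ha s (by omega) (by omega)
  | succ s0 ih =>
    obtain ⟨a, ha⟩ := ih (fun s => f (s + 1))
    refine ⟨fun i => ∑ j ∈ range (r + 1), if i ≤ j then (-1) ^ (j - i) * a j else 0,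
      fun s hs0 hs => ?_⟩
    obtain ⟨s', rfl⟩ : ∃ s', s = s' + 1 := ⟨s - 1, by omega⟩
    rw [ha s' (by omega) (by omega)]
    have h1 : ∀ j ∈ range (r + 1), ((s'.choose j : ℕ) : A) * a j
        = ∑ i ∈ range (r + 1), (((s' + 1).choose i : ℕ) : A)
          * (if i ≤ j then (-1) ^ (j - i) * a j else 0) := by
      intro j hj
      rw [Finset.mem_range] at hj
      rw [choose_pred_gen, Finset.sum_mul]
      have h2 : ∑ i ∈ range (r + 1), (((s' + 1).choose i : ℕ) : A)
          * (if i ≤ j then (-1) ^ (j - i) * a j else 0)
          = ∑ i ∈ range (j + 1), (((s' + 1).choose i : ℕ) : A)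
            * (if i ≤ j then (-1) ^ (j - i) * a j else 0) := by
        symm
        refine Finset.sum_subset (Finset.range_subset_range.mpr (by omega)) (fun i _ hi => ?_)
        rw [Finset.mem_range] at hi
        rw [if_neg (by omega), mul_zero]
      rw [h2]
      refine Finset.sum_congr rfl (fun i hi => ?_)
      rw [Finset.mem_range] at hi
      rw [if_pos (by omega)]
      ring
    rw [Finset.sum_congr rfl h1, Finset.sum_comm]
    refine Finset.sum_congr rfl (fun i _ => ?_)
    rw [Finset.mul_sum]

section block

variable {K : Type} [Field K] {p : ℕ}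

/-- coordinate function, `0` outside -/
def crd (K : Type) [Field K] (p i : ℕ) : (Fin p → K) → K :=
  fun x => if h : i < p then x ⟨i, h⟩ else 0

/-- transition matrix with coordinate functions -/
def tM (c : K) : Matrix (St p) (St p) ((Fin p → K) → K) :=
  Matrix.of fun s s' => match s, s' with
    | none, none => 1
    | none, some _ => 0
    | some _, none => fun _ => c
    | some u, some u' => if u.val < u'.val then crd K p (u'.val - 1) else 0

/-- diagonal matrix of the coordinate functions -/
def dM (K : Type) [Field K] (p : ℕ) : Matrix (St p) (St p) ((Fin p → K) → K) :=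
  Matrix.diagonal fun s => match s with
    | none => 1
    | some u => if u.val = 0 then 1 else crd K p (u.val - 1)

lemma crd_mem (i : ℕ) : crd K p i ∈ V K (Fin p) 1 := by
  unfold crd
  by_cases h : i < p
  · simp only [h, dite_true]
    exact V_coord _
  · simp only [h, dite_false]
    exact (V K (Fin p) 1).zero_mem

lemma tM_mem (c : K) (s s' : St p) : tM c s s' ∈ V K (Fin p) 1 := by
  rcases s with _ | u <;> rcases s' with _ | u'
  · exact V_one 1
  · exact (V K (Fin p) 1).zero_mem
  · exact V_const 1 c
  · simp only [tM, Matrix.of_apply]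
    split_ifs
    · exact crd_mem _
    · exact (V K (Fin p) 1).zero_mem

lemma dM_mem (s s' : St p) : dM K p s s' ∈ V K (Fin p) 1 := by
  by_cases h : s = s'
  · subst h
    rw [dM, Matrix.diagonal_apply_eq]
    rcases s with _ | u
    · exact V_one 1
    · simp only
      split_ifs
      · exact V_one 1
      · exact crd_mem _
  · rw [dM, Matrix.diagonal_apply_ne _ h]
    exact (V K (Fin p) 1).zero_mem

lemma inMat_mem (s s' : St p) : inMat ((Fin p → K) → K) p s s' ∈ V K (Fin p) 1 := by
  simp only [inMat, Matrix.of_apply]
  split_ifs
  · exact V_one 1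
  · exact (V K (Fin p) 1).zero_mem

lemma outMat_mem (s s' : St p) : outMat ((Fin p → K) → K) p 1 s s' ∈ V K (Fin p) 1 := by
  simp only [outMat, Matrix.of_apply]
  split_ifs
  · exact V_one 1
  · exact (V K (Fin p) 1).zero_mem

/-- evaluation of a matrix of functions at a point -/
noncomputable def evM (x : Fin p → K) :
    Matrix (St p) (St p) ((Fin p → K) → K) →+* Matrix (St p) (St p) K :=
  (Pi.evalRingHom (fun _ : Fin p → K => K) x).mapMatrix

lemma evM_apply (x : Fin p → K) (M : Matrix (St p) (St p) ((Fin p → K) → K)) (s s' : St p) :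
    evM x M s s' = M s s' x := rfl

open Classical in
/-- the indicator of nonzero coordinates -/
noncomputable def bar (x : Fin p → K) : Fin p → ZMod 2 := fun j => if x j = 0 then 0 else 1

lemma evM_step [Fintype K] (hq : 2 ≤ Fintype.card K) (x : Fin p → K) (c : K) :
    evM x (tM c) * (evM x (dM K p)) ^ (Fintype.card K - 2) = trMat c (bar x) := by
  have hd : evM x (dM K p) = Matrix.diagonal fun s : St p => match s with
      | none => (1 : K)
      | some u => if u.val = 0 then 1 else crd K p (u.val - 1) x := by
    ext s s'
    rw [evM_apply]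
    by_cases h : s = s'
    · subst h
      rw [dM, Matrix.diagonal_apply_eq, Matrix.diagonal_apply_eq]
      rcases s with _ | u
      · rfl
      · simp only
        split_ifs <;> rfl
    · rw [dM, Matrix.diagonal_apply_ne _ h, Matrix.diagonal_apply_ne _ h]
      rfl
  rw [hd, Matrix.diagonal_pow]
  ext s s'
  rw [Matrix.mul_diagonal, evM_apply, Pi.pow_apply]
  rcases s with _ | u <;> rcases s' with _ | u'
  · simp [tM, trMat]
  · simp [tM, trMat]
  · simp [tM, trMat]
  · simp only [tM, trMat, Matrix.of_apply]
    by_cases h : u.val < u'.val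
    · rw [if_pos h, if_pos h, if_neg (by omega)]
      have hlt : u'.val - 1 < p := by have := u'.isLt; omega
      have h1 : crd K p (u'.val - 1) x = x ⟨u'.val - 1, hlt⟩ := by
        simp [crd, hlt]
      have h2 : Fintype.card K - 1 = (Fintype.card K - 2) + 1 := by omega
      rw [h1, ← pow_succ', ← h2]
      unfold ext0 bar
      rw [dif_pos hlt]
      by_cases h0 : x ⟨u'.val - 1, hlt⟩ = 0
      · rw [if_pos h0, h0, zero_pow (by omega)]
        simp
      · rw [if_neg h0, FiniteField.pow_card_sub_one_eq_one _ h0]
        simp [ZMod.val_one]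
    · rw [if_neg h, if_neg h]
      simp

lemma wt_bar (x : Fin p → K) : wt (bar x) = nz x := by
  classical
  unfold wt nz bar
  rw [Finset.card_filter]
  refine Finset.sum_congr (by congr) (fun i _ => ?_)
  by_cases h : x i = 0
  · simp [h]
  · simp [h, ZMod.val_one]

end block

theorem exists_block {K : Type} [Field K] [Fintype K] (hq : 2 ≤ Fintype.card K) (F : ℕ → K)
    (p s0 r : ℕ) :
    ∃ f : (Fin p → K) → K, (∀ x, s0 ≤ nz x → nz x ≤ s0 + r → f x = F (nz x)) ∧
      ∃ L : List (Matrix (St p) (St p) ((Fin p → K) → K)),
        L.length = 2 + (r + 1) * (Fintype.card K - 1) ∧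
        (∀ M ∈ L, ∀ s s', M s s' ∈ V K (Fin p) 1) ∧ HubRow L.prod f := by
  obtain ⟨a, ha⟩ := window_interp_gen r s0 F
  refine ⟨fun x => ∑ t ∈ range (r + 1), (((nz x).choose t : ℕ) : K) * a t,
    fun x h1 h2 => (ha _ h1 h2).symm, ?_⟩
  set blk : List (Matrix (St p) (St p) ((Fin p → K) → K)) := (List.range (r + 1)).flatMap
    (fun t => tM (a t) :: List.replicate (Fintype.card K - 2) (dM K p)) with hblk
  refine ⟨inMat _ p :: (blk ++ [outMat _ p 1]), ?_, ?_, ?_⟩
  · rw [List.length_cons, List.length_append, hblk, List.length_flatMap]
    simp only [List.length_cons, List.length_replicate, List.map_const', List.length_range,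
      List.sum_replicate, List.length_nil, smul_eq_mul]
    have h2 : Fintype.card K - 1 = (Fintype.card K - 2) + 1 := by omega
    rw [h2]
    ring
  · intro M hM s s'
    rcases List.mem_cons.1 hM with rfl | hM
    · exact inMat_mem s s'
    rcases List.mem_append.1 hM with hM | hM
    · rw [hblk] at hM
      obtain ⟨t, _, hM⟩ := List.mem_flatMap.1 hM
      rcases List.mem_cons.1 hM with rfl | hM
      · exact tM_mem _ _ _
      · rw [List.eq_of_mem_replicate hM]
        exact dM_mem _ _
    · rw [List.mem_singleton.1 hM]
      exact outMat_mem s s'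
  · have hev : ∀ x : Fin p → K, evM x (inMat _ p :: (blk ++ [outMat _ p 1])).prod
        = (fullBlock a (bar x) (r + 1)).prod := by
      intro x
      have hin : evM x (inMat _ p) = inMat K p := by
        ext s s'
        rw [evM_apply]
        simp only [inMat, Matrix.of_apply]
        split_ifs <;> rfl
      have hout : evM x (outMat _ p 1) = outMat K p 1 := by
        ext s s'
        rw [evM_apply]
        simp only [outMat, Matrix.of_apply]
        split_ifs <;> rfl
      have hb : evM x blk.prod = (blockList a (bar x) (r + 1)).prod := by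
        rw [hblk, blockList]
        generalize List.range (r + 1) = l
        induction l with
        | nil => simp
        | cons t l ih =>
          rw [List.flatMap_cons, List.prod_append, map_mul, ih, List.map_cons, List.prod_cons,
            List.prod_cons, List.prod_replicate, map_mul, map_pow, evM_step hq]
      rw [List.prod_cons, List.prod_append, List.prod_singleton, map_mul, map_mul, hin, hb, hout,
        fullBlock, List.prod_cons, List.prod_append, List.prod_singleton]
    constructor
    · funext x
      have h1 := (hubRow_fullBlock a (bar x) (r + 1)).1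
      rw [← hev x, evM_apply, wt_bar] at h1
      exact h1
    · intro q
      funext x
      have h1 := (hubRow_fullBlock a (bar x) (r + 1)).2 q
      rw [← hev x, evM_apply] at h1
      exact h1

end Vale.P346.FQ
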