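import Vale.Agent.Lib.P346.FQ.VBasic

/-! Independent affine functions are equidistributed; few of them vanish only rarely. -/

namespace Vale.P346.FQ

open MvPolynomial Finset

/-- a surjective additive map equidistributes -/
theorem card_comp_surjective {V W : Type} [AddGroup V] [AddGroup W] [Fintype V] [Fintype W]
    [DecidableEq V] [DecidableEq W] (f : V →+ W) (hf : Function.Surjective f) (P : W → Prop)
    [DecidablePred P] :
    Fintype.card W * (univ.filter (fun x : V => P (f x))).card =
      (univ.filter P).card * Fintype.card V := by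
  set κ := (univ.filter (fun x : V => f x = 0)).card with hκ
  have h1 : ∀ z : W, (univ.filter (fun x : V => f x = z)).card = κ := fun z =>
    AddMonoidHom.card_fiber_eq_of_mem_range f (hf z) (hf 0)
  have h2 : Fintype.card V = Fintype.card W * κ := by
    have := Finset.card_eq_sum_card_fiberwise (f := f) (s := (univ : Finset V))
      (t := (univ : Finset W)) (fun _ _ => Finset.mem_coe.mpr (mem_univ _))
    rw [Finset.card_univ] at this
    rw [this, Finset.sum_congr rfl fun z _ => h1 z, Finset.sum_const, Finset.card_univ,
      smul_eq_mul]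
  have h3 : (univ.filter (fun x : V => P (f x))).card = (univ.filter P).card * κ := by
    have := Finset.card_eq_sum_card_fiberwise (f := f)
      (s := univ.filter (fun x : V => P (f x))) (t := univ.filter P)
      (fun x hx => by
        simp only [Finset.coe_filter, Finset.mem_univ, true_and] at hx ⊢
        exact hx)
    rw [this]
    rw [Finset.sum_congr rfl (g := fun _ => κ), Finset.sum_const, smul_eq_mul]
    intro z hz
    rw [← h1 z, Finset.filter_filter]
    congr 1
    ext x
    simp only [Finset.mem_filter, Finset.mem_univ, true_and] at hz ⊢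
    constructor
    · exact fun h => h.2
    · exact fun h => ⟨by rw [h]; exact hz, h⟩
  rw [h3, h2]
  ring

theorem card_few_zeros {K ι : Type} [Field K] [Fintype K] [DecidableEq K] [Fintype ι]
    [DecidableEq ι] {τ : ℕ} (l : Fin τ → ι → K) (hl : LinearIndependent K l) (c : Fin τ → K)
    (k : ℕ) :
    (2 * Fintype.card K) ^ τ *
      (univ.filter (fun x : ι → K =>
        (univ.filter (fun r : Fin τ => c r + ∑ i, l r i * x i = 0)).card ≤ k)).card
      ≤ 2 ^ k * (2 * Fintype.card K - 1) ^ τ * Fintype.card K ^ Fintype.card ι := by
  set q := Fintype.card K with hq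
  have hsurj : Function.Surjective (Matrix.mulVecLin (Matrix.of l)) := by
    rw [← LinearMap.range_eq_top]
    apply Submodule.eq_top_of_finrank_eq
    have h1 : (Matrix.of l).rank = Fintype.card (Fin τ) := LinearIndependent.rank_matrix hl
    rw [Module.finrank_fintype_fun_eq_card, ← h1]
    rfl
  have h1 := card_comp_surjective (Matrix.mulVecLin (Matrix.of l)).toAddMonoidHom hsurj
    (fun z : Fin τ → K => (univ.filter (fun r : Fin τ => c r + z r = 0)).card ≤ k)
  have e1 : ∀ x : ι → K, ∀ r, (Matrix.mulVecLin (Matrix.of l)).toAddMonoidHom x r =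
      ∑ i, l r i * x i := by
    intro x r
    simp [Matrix.mulVec, dotProduct]
  simp only [e1, Fintype.card_fun, Fintype.card_fin] at h1
  rw [← hq] at h1
  have h2 : 2 ^ τ * (univ.filter (fun z : Fin τ → K =>
      (univ.filter (fun r : Fin τ => c r + z r = 0)).card ≤ k)).card ≤
      2 ^ k * (2 * q - 1) ^ τ := by
    have h3 : ∀ z : Fin τ → K, (univ.filter (fun r : Fin τ => c r + z r = 0)).card ≤ k →
        2 ^ τ ≤ 2 ^ k * ∏ r, (if c r + z r = 0 then 1 else 2) := by
      intro z hz
      have e2 : ∏ r, (if c r + z r = 0 then 1 else 2) =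
          2 ^ (univ.filter (fun r : Fin τ => ¬ (c r + z r = 0))).card := by
        rw [Finset.prod_ite]
        simp
      rw [e2, ← pow_add]
      refine Nat.pow_le_pow_right (by norm_num) ?_
      have := Finset.card_filter_add_card_filter_not (s := (univ : Finset (Fin τ)))
        (fun r : Fin τ => c r + z r = 0)
      rw [Finset.card_univ, Fintype.card_fin] at this
      omega
    have h4 : ∑ z : Fin τ → K, ∏ r, (if c r + z r = 0 then 1 else 2) = (2 * q - 1) ^ τ := by
      have e3 := Finset.prod_univ_sum (fun _ : Fin τ => (univ : Finset K))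
        (fun r a => if c r + a = 0 then 1 else 2)
      rw [Fintype.piFinset_univ] at e3
      rw [← e3]
      have e4 : ∀ r : Fin τ, ∑ a : K, (if c r + a = 0 then 1 else 2) = 2 * q - 1 := by
        intro r
        have e5 : ∑ a : K, (if c r + a = 0 then 1 else 2) + 1 = 2 * q := by
          rw [← Finset.add_sum_erase _ _ (Finset.mem_univ (-c r))]
          have e6 : ∑ a ∈ univ.erase (-c r), (if c r + a = 0 then 1 else 2) =
              2 * (q - 1) := by
            rw [Finset.sum_congr rfl (g := fun _ => 2), Finset.sum_const,
              Finset.card_erase_of_mem (Finset.mem_univ _), Finset.card_univ, ← hq, smul_eq_mul,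
              mul_comm]
            intro a ha
            rw [if_neg]
            intro h
            exact Finset.ne_of_mem_erase ha (eq_neg_of_add_eq_zero_right h)
          rw [e6]
          have : 1 ≤ q := Fintype.card_pos
          simp
          omega
        omega
      rw [Finset.prod_congr rfl fun r _ => e4 r, Finset.prod_const, Finset.card_univ,
        Fintype.card_fin]
    calc 2 ^ τ * (univ.filter (fun z : Fin τ → K =>
        (univ.filter (fun r : Fin τ => c r + z r = 0)).card ≤ k)).card
        = ∑ z ∈ univ.filter (fun z : Fin τ → K =>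
            (univ.filter (fun r : Fin τ => c r + z r = 0)).card ≤ k), 2 ^ τ := by
          rw [Finset.sum_const, smul_eq_mul, mul_comm]
      _ ≤ ∑ z ∈ univ.filter (fun z : Fin τ → K =>
            (univ.filter (fun r : Fin τ => c r + z r = 0)).card ≤ k),
              2 ^ k * ∏ r, (if c r + z r = 0 then 1 else 2) :=
          Finset.sum_le_sum fun z hz => h3 z (Finset.mem_filter.mp hz).2
      _ ≤ ∑ z : Fin τ → K, 2 ^ k * ∏ r, (if c r + z r = 0 then 1 else 2) :=
          Finset.sum_le_sum_of_subset (Finset.filter_subset _ _)
      _ = 2 ^ k * (2 * q - 1) ^ τ := by rw [← Finset.mul_sum, h4]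
  calc (2 * q) ^ τ * (univ.filter (fun x : ι → K =>
        (univ.filter (fun r : Fin τ => c r + ∑ i, l r i * x i = 0)).card ≤ k)).card
      = 2 ^ τ * (q ^ τ * (univ.filter (fun x : ι → K =>
        (univ.filter (fun r : Fin τ => c r + ∑ i, l r i * x i = 0)).card ≤ k)).card) := by
        rw [mul_pow]; ring
    _ = 2 ^ τ * (univ.filter (fun z : Fin τ → K =>
        (univ.filter (fun r : Fin τ => c r + z r = 0)).card ≤ k)).card * q ^ Fintype.card ι := by
        rw [h1, mul_assoc]
    _ ≤ _ := Nat.mul_le_mul_right _ h2

end Vale.P346.FQ
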