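import Vale.Agent.Lib.P346.FQ.Forms
import Vale.Agent.Lib.P346.FQ.Equi

/-! Approximation of a product of affine forms. -/

namespace Vale.P346.FQ

open MvPolynomial Finset

/-- no coefficients in degrees smaller than `n` -/
def LowDeg {K Y : Type} [CommSemiring K] (n : ℕ) (Q : MvPolynomial Y K) : Prop :=
  ∀ α : Y →₀ ℕ, α.degree < n → Q.coeff α = 0

lemma LowDeg.mul {K Y : Type} [CommSemiring K] {n m : ℕ} {Q R : MvPolynomial Y K}
    (hQ : LowDeg n Q) (hR : LowDeg m R) : LowDeg (n + m) (Q * R) := by
  classical
  intro α hα
  rw [coeff_mul]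
  refine Finset.sum_eq_zero (fun β hβ => ?_)
  have hβ' := Finset.HasAntidiagonal.mem_antidiagonal.mp hβ
  have hdeg : β.1.degree + β.2.degree = α.degree := by
    rw [← hβ', map_add]
  by_cases h : β.1.degree < n
  · rw [hQ β.1 h, zero_mul]
  · rw [hR β.2 (by omega), mul_zero]

lemma LowDeg_prod {K Y I : Type} [CommSemiring K] (s : Finset I) (n : I → ℕ)
    (Q : I → MvPolynomial Y K) (hQ : ∀ j ∈ s, LowDeg (n j) (Q j)) :
    LowDeg (∑ j ∈ s, n j) (∏ j ∈ s, Q j) := by
  classical
  induction s using Finset.induction_on with
  | empty =>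
    intro α hα
    rw [Finset.sum_empty] at hα
    omega
  | insert a s ha ih =>
    rw [Finset.sum_insert ha, Finset.prod_insert ha]
    exact (hQ a (Finset.mem_insert_self a s)).mul
      (ih (fun b hb => hQ b (Finset.mem_insert_of_mem hb)))

lemma LowDeg.pow {K Y : Type} [CommSemiring K] {Q : MvPolynomial Y K}
    (hQ : LowDeg 1 Q) {m : ℕ} (hm : m ≠ 0) : LowDeg 1 (Q ^ m) := by
  obtain ⟨m, rfl⟩ := Nat.exists_eq_succ_of_ne_zero hm
  rw [pow_succ']
  have h0 : LowDeg 0 (Q ^ m) := fun α hα => absurd hα (Nat.not_lt_zero _)
  exact hQ.mul h0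

theorem bottom {K ι Y I : Type} [Field K] [Fintype K] [Fintype ι] [Fintype Y] [Fintype I]
    (m : I → ℕ) (P : I → MvPolynomial Y ((ι → K) → K)) (hP : ∀ j, AffLin (P j)) (τ k : ℕ) :
    XDeg ((Fintype.card K - 1) * τ) (∏ j, P j ^ m j) ∨
    ∃ E : Finset (ι → K), (∀ x, x ∉ E → AgreeAt k x (∏ j, P j ^ m j) 0) ∧
      (2 * Fintype.card K) ^ τ * E.card
        ≤ 2 ^ k * (2 * Fintype.card K - 1) ^ τ * Fintype.card K ^ Fintype.card ι := by
  classical
  choose a b ha hab using hP
  choose c l hl using fun j => V_affine (ha j)
  set S : Finset I := univ.filter (fun j => m j ≠ 0) with hS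
  let ev : (ι → K) → MvPolynomial Y ((ι → K) → K) →+* MvPolynomial Y K := fun x =>
    MvPolynomial.map (Pi.evalRingHom (fun _ : ι → K => K) x)
  have hev : ∀ (x : ι → K) (Q : MvPolynomial Y ((ι → K) → K)) (α : Y →₀ ℕ),
      coeff α (ev x Q) = coeff α Q x := by
    intro x Q α
    exact coeff_map _ _ _
  have hevP : ∀ x j, ev x (P j) = C (a j x) + ∑ y, C (b j y) * X y := by
    intro x j
    rw [hab j]
    simp only [ev, map_add, map_sum, map_mul, map_C, map_X]
    rfl
  rcases rank_alternative (K := K) S l τ with ⟨g, hgS, hgl⟩ | ⟨ρ, hρ, t, ht⟩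
  · right
    have hginj : Function.Injective g := by
      intro r r' h
      apply hgl.injective
      show l (g r) = l (g r')
      rw [h]
    refine ⟨univ.filter (fun x : ι → K =>
        (univ.filter (fun r : Fin τ => c (g r) + ∑ i, l (g r) i * x i = 0)).card ≤ k), ?_,
        card_few_zeros (fun r => l (g r)) hgl (fun r => c (g r)) k⟩
    intro x hx
    rw [Finset.mem_filter] at hx
    have hx' : k < (univ.filter (fun r : Fin τ => c (g r) + ∑ i, l (g r) i * x i = 0)).card := by
      by_contra hcon
      exact hx ⟨Finset.mem_univ x, not_lt.1 hcon⟩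
    set Z : Finset I := (univ.filter (fun r : Fin τ => c (g r) + ∑ i, l (g r) i * x i = 0)).image g
      with hZ
    have hZc : k < Z.card := by
      rw [hZ, Finset.card_image_of_injective _ hginj]
      exact hx'
    have hlow : LowDeg Z.card (∏ j, ev x (P j) ^ m j) := by
      have h := LowDeg_prod (univ : Finset I) (fun j => if j ∈ Z then 1 else 0)
        (fun j => ev x (P j) ^ m j) (by
          intro j _
          by_cases hj : j ∈ Z
          · rw [if_pos hj]
            rw [hZ, Finset.mem_image] at hj
            obtain ⟨r, hr, rfl⟩ := hj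
            rw [Finset.mem_filter] at hr
            have hm : m (g r) ≠ 0 := by
              have := hgS r
              rw [hS, Finset.mem_filter] at this
              exact this.2
            refine LowDeg.pow ?_ hm
            intro α hα
            have hα0 : α = 0 := by
              have : α.degree = 0 := by omega
              exact (Finsupp.degree_eq_zero_iff α).1 this
            rw [hevP, hl, hr.2, hα0, C_0, zero_add, coeff_sum]
            refine Finset.sum_eq_zero (fun y _ => ?_)
            rw [coeff_C_mul]
            simp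
          · rw [if_neg hj]
            exact fun α hα => absurd hα (Nat.not_lt_zero _))
      rwa [Finset.sum_boole, Finset.filter_mem_eq_inter, Finset.univ_inter, Nat.cast_id] at h
    intro α hα
    rw [← hev, map_prod]
    simp only [map_pow]
    rw [hlow α (by omega)]
    simp
  · left
    intro α
    have hmono : (Fintype.card K - 1) * ρ ≤ (Fintype.card K - 1) * τ :=
      Nat.mul_le_mul_left _ hρ.le
    apply V_mono hmono
    refine mem_V_of_forms (fun r x => ∑ i, t r i * x i) ?_ _ ?_
    · intro r
      refine ⟨∑ i, C (t r i) * X i, ?_, fun x => by simp⟩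
      refine totalDegree_finsetSum_le (fun i _ => ?_)
      refine (totalDegree_mul _ _).trans ?_
      simp
    · intro x x' hxx
      rw [← hev, ← hev, map_prod, map_prod]
      congr 1
      refine Finset.prod_congr rfl (fun j _ => ?_)
      rw [map_pow, map_pow]
      by_cases hm : m j = 0
      · rw [hm, pow_zero, pow_zero]
      · congr 1
        rw [hevP, hevP, hl, hl]
        congr 3
        have hj : l j ∈ Submodule.span K (Set.range t) := ht j (by
          rw [hS, Finset.mem_filter]
          exact ⟨Finset.mem_univ j, hm⟩)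
        refine Submodule.span_induction (p := fun v _ => ∑ i, v i * x i = ∑ i, v i * x' i)
          ?_ ?_ ?_ ?_ hj
        · rintro _ ⟨r, rfl⟩
          exact hxx r
        · simp
        · intro u v _ _ hu hv
          simp only [Pi.add_apply, add_mul, Finset.sum_add_distrib, hu, hv]
        · intro d u _ hu
          simp only [Pi.smul_apply, smul_eq_mul, mul_assoc, ← Finset.mul_sum, hu]

end Vale.P346.FQ
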