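import Vale.Agent.Lib.P346.FQ.Defs

/-! Chebyshev's inequality for the number of nonzero coordinates. -/

namespace Vale.P346.FQ

open Finset

theorem nz_eq_sum {K ι : Type} [Field K] [DecidableEq K] [Fintype ι] (x : ι → K) :
    nz x = ∑ i, if x i = 0 then 0 else 1 := by
  unfold nz
  rw [Finset.card_filter]
  refine Finset.sum_congr rfl (fun i _ => ?_)
  by_cases h : x i = 0 <;> simp [h]

theorem sum_indicator {K : Type} [Field K] [Fintype K] [DecidableEq K] (α β : ℤ) :
    ∑ a : K, (if a = 0 then α else β) = α + ((Fintype.card K : ℤ) - 1) * β := by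
  rw [← Finset.add_sum_erase _ _ (mem_univ (0 : K)), if_pos rfl]
  have h : ∑ a ∈ univ.erase (0 : K), (if a = 0 then α else β) = ∑ _a ∈ univ.erase (0 : K), β :=
    Finset.sum_congr rfl (fun a ha => if_neg (Finset.ne_of_mem_erase ha))
  rw [h, Finset.sum_const, Finset.card_erase_of_mem (mem_univ _), Finset.card_univ, nsmul_eq_mul,
    Nat.cast_sub Fintype.card_pos]
  simp

theorem second_moment {K : Type} [Field K] [Fintype K] [DecidableEq K] (p : ℕ) :
    ∑ x : Fin p → K, ((Fintype.card K : ℤ) * (nz x : ℤ) - ((Fintype.card K : ℤ) - 1) * p) ^ 2 =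
      (p : ℤ) * ((Fintype.card K : ℤ) - 1) * (Fintype.card K : ℤ) ^ p := by
  set q : ℤ := (Fintype.card K : ℤ) with hq
  induction p with
  | zero => simp [nz_eq_sum]
  | succ p ih =>
    rw [← (Fin.consEquiv (fun _ : Fin (p + 1) => K)).sum_comp, Fintype.sum_prod_type]
    have hw : ∀ (a : K) (y : Fin p → K),
        (nz ((Fin.consEquiv (fun _ : Fin (p + 1) => K)) (a, y)) : ℤ) =
          (if a = 0 then 0 else 1) + nz y := by
      intro a y
      rw [nz_eq_sum, nz_eq_sum]
      simp [Fin.consEquiv, Fin.sum_univ_succ]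
    have h1 : ∀ (a : K) (y : Fin p → K),
        (q * (nz ((Fin.consEquiv (fun _ : Fin (p + 1) => K)) (a, y)) : ℤ) -
          (q - 1) * ((p + 1 : ℕ) : ℤ)) ^ 2 =
        (if a = 0 then (q - 1) ^ 2 else 1) +
          (if a = 0 then -(2 * (q - 1)) else 2) * (q * (nz y : ℤ) - (q - 1) * p) +
          (q * (nz y : ℤ) - (q - 1) * p) ^ 2 := by
      intro a y
      rw [hw]
      push_cast
      split_ifs <;> ring
    simp only [h1]
    simp only [Finset.sum_add_distrib, ← Finset.mul_sum, ← Finset.sum_mul, Finset.sum_const]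
    rw [ih]
    have h2 : ∑ a : K, (if a = 0 then -(2 * (q - 1)) else 2) = 0 := by
      rw [sum_indicator]
      ring
    have h3 : ∑ a : K, (if a = 0 then (q - 1) ^ 2 else (1 : ℤ)) = q * (q - 1) := by
      rw [sum_indicator]
      ring
    rw [h2]
    have h4 : ∑ a : K, (Finset.card (univ : Finset (Fin p → K))) •
        (if a = 0 then (q - 1) ^ 2 else (1 : ℤ)) = q ^ p * (q * (q - 1)) := by
      rw [← Finset.smul_sum, h3, nsmul_eq_mul, Finset.card_univ, Fintype.card_fun,
        Fintype.card_fin]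
      push_cast
      rfl
    rw [h4, nsmul_eq_mul, Finset.card_univ]
    push_cast
    rw [← hq]
    ring

theorem window_card {K : Type} [Field K] [Fintype K] [DecidableEq K] (p R : ℕ) :
    (univ.filter (fun x : Fin p → K =>
      ¬ (p * (Fintype.card K - 1) / Fintype.card K - R ≤ nz x ∧
        nz x ≤ (p * (Fintype.card K - 1) / Fintype.card K - R) + (2 * R + 1)))).card * R ^ 2
      ≤ p * Fintype.card K ^ p := by
  set q : ℕ := Fintype.card K with hq
  have hq2 : 2 ≤ q := Fintype.one_lt_card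
  set F : ℕ := p * (q - 1) / q with hF
  have hF1 : q * F ≤ p * (q - 1) := Nat.mul_div_le _ _
  have hF2 : p * (q - 1) < q * (F + 1) := by
    have := Nat.lt_mul_div_succ (p * (q - 1)) (show 0 < q by omega)
    simpa [hF] using this
  have hF1' : (q : ℤ) * F ≤ p * ((q : ℤ) - 1) := by
    have : ((q * F : ℕ) : ℤ) ≤ ((p * (q - 1) : ℕ) : ℤ) := by exact_mod_cast hF1
    push_cast [Nat.cast_sub (show 1 ≤ q by omega)] at this
    exact this
  have hF2' : (p : ℤ) * ((q : ℤ) - 1) < q * (F + 1) := by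
    have : ((p * (q - 1) : ℕ) : ℤ) < ((q * (F + 1) : ℕ) : ℤ) := by exact_mod_cast hF2
    push_cast [Nat.cast_sub (show 1 ≤ q by omega)] at this
    exact this
  set bad := univ.filter (fun x : Fin p → K =>
      ¬ (F - R ≤ nz x ∧ nz x ≤ (F - R) + (2 * R + 1))) with hbad
  have hq0 : (0 : ℤ) < q := by exact_mod_cast (show 0 < q by omega)
  have h1 : ∀ x ∈ bad, ((q : ℤ) * R) ^ 2 ≤
      ((q : ℤ) * (nz x : ℤ) - ((q : ℤ) - 1) * p) ^ 2 := by
    intro x hx
    have hx' := (Finset.mem_filter.mp hx).2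
    have hR0 : (0 : ℤ) ≤ (q : ℤ) * R := by positivity
    rw [not_and_or] at hx'
    rcases hx' with h | h
    · have h' : nz x + R + 1 ≤ F := by omega
      have h'' : (q : ℤ) * ((nz x : ℤ) + R + 1) ≤ q * F :=
        mul_le_mul_of_nonneg_left (by exact_mod_cast h') hq0.le
      rw [sq_le_sq, abs_of_nonneg hR0, le_abs]
      right
      nlinarith
    · have h' : F + R + 1 ≤ nz x := by omega
      have h'' : (q : ℤ) * ((F : ℤ) + R + 1) ≤ q * (nz x : ℤ) :=
        mul_le_mul_of_nonneg_left (by exact_mod_cast h') hq0.le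
      rw [sq_le_sq, abs_of_nonneg hR0, le_abs]
      left
      nlinarith
  have h2 : (bad.card : ℤ) * ((q : ℤ) * R) ^ 2 ≤ p * ((q : ℤ) - 1) * (q : ℤ) ^ p := by
    rw [← second_moment (K := K) p]
    calc (bad.card : ℤ) * ((q : ℤ) * R) ^ 2 = ∑ _x ∈ bad, ((q : ℤ) * R) ^ 2 := by
          rw [Finset.sum_const, nsmul_eq_mul]
      _ ≤ ∑ x ∈ bad, ((q : ℤ) * (nz x : ℤ) - ((q : ℤ) - 1) * p) ^ 2 := Finset.sum_le_sum h1
      _ ≤ ∑ x : Fin p → K, ((q : ℤ) * (nz x : ℤ) - ((q : ℤ) - 1) * p) ^ 2 :=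
          Finset.sum_le_sum_of_subset_of_nonneg (Finset.subset_univ _) (fun _ _ _ => sq_nonneg _)
  have h3 : (q : ℤ) ^ 2 * ((bad.card : ℤ) * R ^ 2) ≤ (q : ℤ) ^ 2 * (p * (q : ℤ) ^ p) := by
    have h4 : (p : ℤ) * ((q : ℤ) - 1) * (q : ℤ) ^ p ≤ (q : ℤ) ^ 2 * (p * (q : ℤ) ^ p) := by
      have h5 : (0 : ℤ) ≤ p * (q : ℤ) ^ p := by positivity
      have h6 : ((q : ℤ) - 1) ≤ (q : ℤ) ^ 2 := by nlinarith
      calc (p : ℤ) * ((q : ℤ) - 1) * (q : ℤ) ^ p = ((q : ℤ) - 1) * (p * (q : ℤ) ^ p) := by ring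
        _ ≤ (q : ℤ) ^ 2 * (p * (q : ℤ) ^ p) := mul_le_mul_of_nonneg_right h6 h5
    calc (q : ℤ) ^ 2 * ((bad.card : ℤ) * R ^ 2) = (bad.card : ℤ) * ((q : ℤ) * R) ^ 2 := by ring
      _ ≤ _ := h2
      _ ≤ _ := h4
  have h7 : (bad.card : ℤ) * R ^ 2 ≤ p * (q : ℤ) ^ p :=
    le_of_mul_le_mul_left h3 (by positivity)
  exact_mod_cast h7

theorem card_row {K : Type} [Fintype K] [DecidableEq K] (u p : ℕ) (π : Fin u)
    (P : (Fin p → K) → Prop) [DecidablePred P] :
    (univ.filter (fun x : Fin u × Fin p → K => P (fun j => x (π, j)))).card =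
      (univ.filter P).card * Fintype.card K ^ ((u - 1) * p) := by
  have h1 : (univ.filter (fun x : Fin u × Fin p → K => P (fun j => x (π, j)))).card =
      (Fintype.piFinset (fun i : Fin u => if i = π then univ.filter P else
        (univ : Finset (Fin p → K)))).card := by
    refine Finset.card_bij' (fun x _ i j => x (i, j)) (fun y _ ij => y ij.1 ij.2) ?_ ?_ ?_ ?_
    · intro x hx
      rw [Fintype.mem_piFinset]
      intro i
      split_ifs with h
      · rw [h]
        simpa using hx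
      · exact mem_univ _
    · intro y hy
      rw [Fintype.mem_piFinset] at hy
      have := hy π
      rw [if_pos rfl] at this
      simpa using this
    · intro x _
      rfl
    · intro y _
      rfl
  rw [h1, Fintype.card_piFinset, ← Finset.mul_prod_erase univ _ (mem_univ π), if_pos rfl]
  congr 1
  have h2 : ∀ i ∈ univ.erase π, (if i = π then univ.filter P else
      (univ : Finset (Fin p → K))).card = Fintype.card K ^ p := by
    intro i hi
    rw [if_neg (Finset.ne_of_mem_erase hi), Finset.card_univ, Fintype.card_fun, Fintype.card_fin]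
  rw [Finset.prod_congr rfl h2, Finset.prod_const, Finset.card_erase_of_mem (mem_univ _),
    Finset.card_univ, Fintype.card_fin, ← pow_mul, Nat.mul_comm]

theorem window_card_union {K : Type} [Field K] [Fintype K] [DecidableEq K] (u p R : ℕ) :
    (univ.filter (fun x : Fin u × Fin p → K => ∃ π : Fin u,
      ¬ (p * (Fintype.card K - 1) / Fintype.card K - R ≤ nz (fun j : Fin p => x (π, j)) ∧
        nz (fun j : Fin p => x (π, j))
          ≤ (p * (Fintype.card K - 1) / Fintype.card K - R) + (2 * R + 1)))).card * R ^ 2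
      ≤ u * p * Fintype.card K ^ (u * p) := by
  set W : (Fin p → K) → Prop := fun x =>
      ¬ (p * (Fintype.card K - 1) / Fintype.card K - R ≤ nz x ∧
        nz x ≤ (p * (Fintype.card K - 1) / Fintype.card K - R) + (2 * R + 1)) with hW
  have hsub : univ.filter (fun x : Fin u × Fin p → K => ∃ π : Fin u, W (fun j => x (π, j))) ⊆
      univ.biUnion (fun π : Fin u =>
        univ.filter (fun x : Fin u × Fin p → K => W (fun j => x (π, j)))) := by
    intro x hx
    rw [mem_filter] at hx
    obtain ⟨π, hπ⟩ := hx.2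
    rw [mem_biUnion]
    exact ⟨π, mem_univ _, by rw [mem_filter]; exact ⟨mem_univ _, hπ⟩⟩
  have h1 := (Finset.card_le_card hsub).trans Finset.card_biUnion_le
  have h2 : ∀ π : Fin u, (univ.filter (fun x : Fin u × Fin p → K =>
      W (fun j => x (π, j)))).card * R ^ 2 ≤ p * Fintype.card K ^ (u * p) := by
    intro π
    rw [card_row u p π W]
    have h3 := window_card (K := K) p R
    have hu : 1 ≤ u := by
      have := π.2
      omega
    have h4 : p * Fintype.card K ^ (u * p) =
        (p * Fintype.card K ^ p) * Fintype.card K ^ ((u - 1) * p) := by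
      rw [mul_assoc, ← pow_add]
      congr 2
      obtain ⟨v, rfl⟩ := Nat.exists_eq_add_of_le hu
      simp
      ring
    rw [h4, mul_right_comm]
    exact Nat.mul_le_mul_right _ h3
  calc _ ≤ (∑ π : Fin u, (univ.filter (fun x : Fin u × Fin p → K =>
        W (fun j => x (π, j)))).card) * R ^ 2 := Nat.mul_le_mul_right _ h1
    _ = ∑ π : Fin u, (univ.filter (fun x : Fin u × Fin p → K =>
        W (fun j => x (π, j)))).card * R ^ 2 := by rw [Finset.sum_mul]
    _ ≤ ∑ _π : Fin u, p * Fintype.card K ^ (u * p) := Finset.sum_le_sum (fun π _ => h2 π)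
    _ = u * p * Fintype.card K ^ (u * p) := by
        rw [Finset.sum_const, Finset.card_univ, Fintype.card_fin, smul_eq_mul]
        ring

end Vale.P346.FQ
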