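import Vale.Agent.Lib.P346.FQ.VBasic

/-! Coefficients of a product of linear forms in disjoint sets of variables. -/

namespace Vale.P346.FQ

open Finset MvPolynomial

theorem prod_X_mul_C {A Γ : Type} [CommRing A] {k : ℕ} (g : Fin k → Γ → A) (c : Fin k → Γ) :
    (∏ i : Fin k, X (i, c i) * C (g i (c i)) : MvPolynomial (Fin k × Γ) A) =
      monomial (∑ i : Fin k, Finsupp.single (i, c i) 1) (∏ i, g i (c i)) := by
  rw [Finset.prod_mul_distrib, ← map_prod, monomial_sum_index, mul_comm]
  rfl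

theorem sum_single_injective {Γ : Type} {k : ℕ} (a c : Fin k → Γ)
    (h : (∑ i : Fin k, (Finsupp.single (i, c i) 1 : Fin k × Γ →₀ ℕ)) =
      ∑ i : Fin k, Finsupp.single (i, a i) 1) : c = a := by
  classical
  funext j
  have h1 := DFunLike.congr_fun h (j, c j)
  rw [Finsupp.finsetSum_apply, Finsupp.finsetSum_apply] at h1
  simp only [Finsupp.single_apply, Prod.mk.injEq] at h1
  by_contra hne
  have h2 : ∑ i : Fin k, (if i = j ∧ a i = c j then 1 else 0 : ℕ) = 0 := by
    refine Finset.sum_eq_zero fun i _ => ?_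
    rw [if_neg]
    rintro ⟨rfl, h3⟩
    exact hne h3.symm
  have h3 : (1 : ℕ) ≤ ∑ i : Fin k, (if i = j ∧ c i = c j then 1 else 0 : ℕ) := by
    calc (1 : ℕ) = if j = j ∧ c j = c j then 1 else 0 := by simp
      _ ≤ _ := Finset.single_le_sum (f := fun i => (if i = j ∧ c i = c j then 1 else 0 : ℕ))
        (fun i _ => Nat.zero_le _) (Finset.mem_univ j)
  omega

theorem coeff_prod_forms {A Γ : Type} [CommRing A] {k : ℕ} [Fintype Γ] [DecidableEq Γ]
    (g : Fin k → Γ → A) (a : Fin k → Γ) :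
    (∏ i : Fin k, ∑ c : Γ, X (i, c) * C (g i c) : MvPolynomial (Fin k × Γ) A).coeff
      (∑ i : Fin k, Finsupp.single (i, a i) 1) = ∏ i, g i (a i) := by
  rw [Finset.prod_univ_sum, MvPolynomial.coeff_sum, Finset.sum_eq_single a]
  · rw [prod_X_mul_C, coeff_monomial, if_pos rfl]
  · intro c _ hc
    rw [prod_X_mul_C, coeff_monomial, if_neg]
    exact fun h => hc (sum_single_injective a c h)
  · intro h
    exact absurd (by simp) h

theorem degree_sum_single {Γ : Type} {k : ℕ} (a : Fin k → Γ) :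
    (∑ i : Fin k, (Finsupp.single (i, a i) 1 : Fin k × Γ →₀ ℕ)).degree = k := by
  rw [map_sum]
  simp

end Vale.P346.FQ
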