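import Vale.Agent.Lib.P346.Defs

/-! Circuits over a finite field `K`: basic definitions. `V K ι d` is the space of functions on
`K^ι` given by polynomials of degree at most `d`. -/

namespace Vale.P346.FQ

open MvPolynomial Finset

/-- Functions on `K^ι` given by polynomials of total degree at most `d`. -/
def V (K ι : Type) [Field K] (d : ℕ) : Submodule K ((ι → K) → K) where
  carrier := {f | ∃ p : MvPolynomial ι K, p.totalDegree ≤ d ∧ ∀ x, eval x p = f x}
  add_mem' := by
    rintro f g ⟨p, hp, hf⟩ ⟨r, hr, hg⟩
    exact ⟨p + r, (totalDegree_add p r).trans (max_le hp hr), fun x => by simp [hf, hg]⟩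
  zero_mem' := ⟨0, by simp, fun x => by simp⟩
  smul_mem' := by
    rintro c f ⟨p, hp, hf⟩
    exact ⟨c • p, (totalDegree_smul_le c p).trans hp, fun x => by simp [hf, smul_eval]⟩

section

variable {K ι Y : Type} [Field K]

/-- All coefficients of `P`, a polynomial in the variables `Y` whose coefficients are functions on
`K^ι`, have degree at most `d`. -/
def XDeg (d : ℕ) (P : MvPolynomial Y ((ι → K) → K)) : Prop := ∀ α, P.coeff α ∈ V K ι d

/-- `P = a(x) + ∑ b_y y` with `a` affine and `b_y` constants. -/
def AffLin [Fintype Y] (P : MvPolynomial Y ((ι → K) → K)) : Prop :=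
  ∃ (a : (ι → K) → K) (b : Y → K), a ∈ V K ι 1 ∧
    P = C a + ∑ y, C (fun _ => b y) * X y

/-- At the point `x` the coefficients of `P` and `Q` of degree at most `k` agree. -/
def AgreeAt (k : ℕ) (x : ι → K) (P Q : MvPolynomial Y ((ι → K) → K)) : Prop :=
  ∀ α : Y →₀ ℕ, α.degree ≤ k → P.coeff α x = Q.coeff α x

/-- number of nonzero coordinates -/
noncomputable def nz [Fintype ι] (x : ι → K) : ℕ := by
  classical exact (univ.filter (fun i => x i ≠ 0)).card

/-- degree of an exponent vector -/
def dg {q : ℕ} [Fintype ι] (J : ι → Fin q) : ℕ := ∑ i, (J i : ℕ)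

/-- `J` has more entries equal to `0` than entries equal to `q - 1`. -/
def Good {q : ℕ} [Fintype ι] (J : ι → Fin q) : Prop :=
  (univ.filter (fun i => (J i : ℕ) = q - 1)).card < (univ.filter (fun i => (J i : ℕ) = 0)).card

instance {q : ℕ} [Fintype ι] (J : ι → Fin q) : Decidable (Good J) := by
  unfold Good; infer_instance

/-- number of exponent vectors of degree at most `d` -/
def cntLe (ι : Type) [Fintype ι] [DecidableEq ι] (q d : ℕ) : ℕ :=
  (univ.filter (fun J : ι → Fin q => dg J ≤ d)).card

/-- number of subsets of size at most `k` of a set of size `D` -/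
def subLe (D k : ℕ) : ℕ := ∑ i ∈ range (k + 1), D.choose i

end

end Vale.P346.FQ
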