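import Mathlib

/-! Gaussian elimination adapted to a weight. -/

namespace Vale.P346.FQ

open Finset

theorem elim {K Idx : Type} [Field K] [Fintype Idx] (w : Idx → ℕ) (W : Submodule K (Idx → K)) :
    ∃ (S : Finset Idx) (v : Idx → Idx → K), Module.finrank K W ≤ S.card ∧
      (∀ J ∈ S, v J ∈ W) ∧ (∀ J ∈ S, ∀ J', v J J' ≠ 0 → w J' ≤ w J) ∧
      LinearIndependent K (fun J : S => v J) := by
  classical
  let e := Fintype.equivFin Idx
  let n := Fintype.card Idx
  let rk : Idx → ℕ := fun J => n * w J + (e J : ℕ)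
  have hmod : ∀ J, rk J % n = (e J : ℕ) := fun J => by
    change (n * w J + (e J : ℕ)) % n = (e J : ℕ)
    rw [Nat.mul_add_mod]
    exact Nat.mod_eq_of_lt (e J).2
  have rk_inj : Function.Injective rk := by
    intro J J' h
    apply e.injective
    apply Fin.ext
    rw [← hmod J, ← hmod J', h]
  have rk_w : ∀ J J', rk J' ≤ rk J → w J' ≤ w J := by
    intro J J' h
    by_contra hc
    push Not at hc
    have h1 : n * (w J + 1) ≤ n * w J' := Nat.mul_le_mul_left n hc
    have h2 : (e J : ℕ) < n := (e J).2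
    have h3 : n * w J' + (e J' : ℕ) ≤ n * w J + (e J : ℕ) := h
    rw [Nat.mul_add] at h1
    omega
  let P : Idx → (Idx → K) → Prop := fun J v => v ∈ W ∧ v J ≠ 0 ∧ ∀ J', rk J < rk J' → v J' = 0
  let S : Finset Idx := univ.filter (fun J => ∃ v, P J v)
  let v : Idx → Idx → K := fun J => if h : ∃ v, P J v then h.choose else 0
  have hv : ∀ J ∈ S, P J (v J) := by
    intro J hJ
    have hJ' : ∃ v, P J v := (mem_filter.mp hJ).2
    change P J (if h : ∃ v, P J v then h.choose else 0)
    rw [dif_pos hJ']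
    exact hJ'.choose_spec
  -- a nonzero element of W has a top index in S
  have htop : ∀ x ∈ W, x ≠ 0 → ∃ J ∈ S, x J ≠ 0 := by
    intro x hx hx0
    have hne : (univ.filter (fun J => x J ≠ 0)).Nonempty := by
      by_contra hc
      rw [not_nonempty_iff_eq_empty] at hc
      apply hx0
      funext J
      by_contra hJ
      have : J ∈ univ.filter (fun J => x J ≠ 0) := mem_filter.mpr ⟨mem_univ _, hJ⟩
      rw [hc] at this
      simp at this
    obtain ⟨J, hJ, hmax⟩ := exists_max_image _ rk hne
    refine ⟨J, mem_filter.mpr ⟨mem_univ _, x, hx, (mem_filter.mp hJ).2, ?_⟩, (mem_filter.mp hJ).2⟩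
    intro J' hJ'
    by_contra hc
    exact absurd (hmax J' (mem_filter.mpr ⟨mem_univ _, hc⟩)) (not_le.mpr hJ')
  refine ⟨S, v, ?_, fun J hJ => (hv J hJ).1, ?_, ?_⟩
  · let R : W →ₗ[K] (S → K) :=
      { toFun := fun x J => (x : Idx → K) J
        map_add' := fun _ _ => rfl
        map_smul' := fun _ _ => rfl }
    have hR : Function.Injective R := by
      rw [← LinearMap.ker_eq_bot, LinearMap.ker_eq_bot']
      intro x hx
      by_contra hx0
      obtain ⟨J, hJ, hJx⟩ := htop x x.2 (fun h => hx0 (Subtype.ext h))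
      exact hJx (congrFun hx ⟨J, hJ⟩)
    have h := LinearMap.finrank_le_finrank_of_injective hR
    rwa [Module.finrank_fintype_fun_eq_card, Fintype.card_coe] at h
  · intro J hJ J' hJ'
    apply rk_w
    by_contra hc
    exact hJ' ((hv J hJ).2.2 J' (not_le.mp hc))
  · rw [Fintype.linearIndependent_iff]
    intro u hu
    by_contra hc
    push Not at hc
    obtain ⟨J0, hJ0⟩ := hc
    have hne : (univ.filter (fun J : S => u J ≠ 0)).Nonempty := ⟨J0, by simp [hJ0]⟩
    obtain ⟨J, hJ, hmax⟩ := exists_max_image _ (fun J : S => rk J) hne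
    have huJ : u J ≠ 0 := (mem_filter.mp hJ).2
    have h1 := congrFun hu (J : Idx)
    rw [Finset.sum_apply, Finset.sum_eq_single J] at h1
    · have h2 : u J * v J J = 0 := h1
      rcases mul_eq_zero.mp h2 with h | h
      · exact huJ h
      · exact (hv J J.2).2.1 h
    · intro J' _ hne'
      change u J' * v J' J = 0
      by_cases h0 : u J' = 0
      · rw [h0, zero_mul]
      · have hle : rk J' ≤ rk J := hmax J' (mem_filter.mpr ⟨mem_univ _, h0⟩)
        have hlt : rk J' < rk J := lt_of_le_of_ne hle (fun h => hne' (Subtype.ext (rk_inj h)))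
        rw [(hv J' J'.2).2.2 J hlt, mul_zero]
    · intro h
      exact absurd (mem_univ _) h

end Vale.P346.FQ
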