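import Vale.Agent.Lib.P346.FQ.LowerFQ

/-! The lower bound over every finite field with at least three elements. -/

namespace Vale.P346.FQ

open MvPolynomial Finset Filter Topology

/-- choice of the constant `b₁` -/
lemma exists_b1 (q : ℕ) (hq3 : 3 ≤ q) : ∃ b1 : ℕ, 1 ≤ b1 ∧
    Real.exp 1 * ((2 * 16 ^ b1 * c1 q ^ 2 : ℕ) : ℝ) ≤ (17 / 10 : ℝ) ^ (6 * b1) ∧
    15 * b1 * ch q * (q - 1) ≤ 4 ^ b1 * c1 q := by
  obtain ⟨N1, hN1⟩ := pow_unbounded_of_one_lt (2 * Real.exp 1 * (c1 q : ℝ) ^ 2)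
    (by norm_num : (1 : ℝ) < 3 / 2)
  obtain ⟨N2, hN2⟩ := pow_unbounded_of_one_lt (15 * ch q * (q - 1))
    (by norm_num : (1 : ℕ) < 2)
  set b1 := max (max N1 N2) 1 with hb1
  have hN1' : N1 ≤ b1 := le_trans (le_max_left _ _) (le_max_left _ _)
  have hN2' : N2 ≤ b1 := le_trans (le_max_right _ _) (le_max_left _ _)
  refine ⟨b1, le_max_right _ _, ?_, ?_⟩
  · have h1 : 2 * Real.exp 1 * (c1 q : ℝ) ^ 2 ≤ (3 / 2) ^ b1 :=
      hN1.le.trans (pow_le_pow_right₀ (by norm_num) hN1')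
    push_cast
    calc Real.exp 1 * (2 * 16 ^ b1 * (c1 q : ℝ) ^ 2)
        = (2 * Real.exp 1 * (c1 q : ℝ) ^ 2) * 16 ^ b1 := by ring
      _ ≤ (3 / 2) ^ b1 * 16 ^ b1 := mul_le_mul_of_nonneg_right h1 (by positivity)
      _ = 24 ^ b1 := by
          rw [← mul_pow]
          norm_num
      _ ≤ ((17 / 10 : ℝ) ^ 6) ^ b1 := pow_le_pow_left₀ (by norm_num) (by norm_num) _
      _ = _ := by rw [← pow_mul]
  · have h1 : 15 * ch q * (q - 1) ≤ 2 ^ b1 :=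
      hN2.le.trans (Nat.pow_le_pow_right (by norm_num) hN2')
    have h2 : b1 ≤ 2 ^ b1 := Nat.lt_two_pow_self.le
    have h3 : 1 ≤ c1 q := c1_pos hq3
    calc 15 * b1 * ch q * (q - 1) = b1 * (15 * ch q * (q - 1)) := by ring
      _ ≤ 2 ^ b1 * 2 ^ b1 := Nat.mul_le_mul h2 h1
      _ = 4 ^ b1 * 1 := by
          rw [← mul_pow]
          norm_num
      _ ≤ 4 ^ b1 * c1 q := Nat.mul_le_mul_left _ h3

lemma ch_pos (q : ℕ) : 1 ≤ ch q := by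
  unfold ch
  exact Nat.succ_le_of_lt (by positivity)

lemma length_bound (q b1 t : ℕ) (hq3 : 3 ≤ q) (hb1 : 1 ≤ b1) (ht : 1 ≤ t)
    (h : 15 * b1 * ch q * (q - 1) ≤ 4 ^ b1 * c1 q) :
    (2 ^ b1 * t) * (2 + (6 * b1) * (4 ^ b1 *
      (2 + ((2 * ((c1 q * (2 ^ b1 * t)) * ch q) + 1) + 1) * (q - 1))))
      ≤ 2 * 64 ^ b1 * c1 q ^ 2 * t ^ 2 := by
  set R := (c1 q * (2 ^ b1 * t)) * ch q with hR
  have hc1 : 1 ≤ c1 q := c1_pos hq3
  have hch := ch_pos q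
  have hQ : 2 ≤ q - 1 := by omega
  have hR2 : 2 ≤ R := by
    have h1 : 2 ≤ c1 q := by
      unfold c1
      have := ct_pos hq3
      calc 2 ≤ 800 * 1 * 1 := by norm_num
        _ ≤ 800 * (q - 1) * ct q := Nat.mul_le_mul (Nat.mul_le_mul le_rfl (by omega)) this
    have h2 : 1 ≤ 2 ^ b1 * t := Nat.mul_pos (by positivity) ht
    calc 2 = 2 * 1 * 1 := by norm_num
      _ ≤ c1 q * (2 ^ b1 * t) * ch q := Nat.mul_le_mul (Nat.mul_le_mul h1 h2) hch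
  have h1 : 2 + ((2 * R + 1) + 1) * (q - 1) ≤ 4 * (R * (q - 1)) := by
    have h2 : 2 ≤ R * (q - 1) := le_trans (by norm_num) (Nat.mul_le_mul hR2 hQ)
    have h3 : 2 * (q - 1) ≤ R * (q - 1) := Nat.mul_le_mul_right _ hR2
    have h4 : ((2 * R + 1) + 1) * (q - 1) = 2 * (R * (q - 1)) + 2 * (q - 1) := by ring
    omega
  have h5 : 2 + (6 * b1) * (4 ^ b1 * (2 + ((2 * R + 1) + 1) * (q - 1)))
      ≤ 30 * b1 * 4 ^ b1 * (R * (q - 1)) := by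
    have h6 : 2 ≤ (6 * b1) * (4 ^ b1 * (R * (q - 1))) := by
      have h7 : 1 ≤ 4 ^ b1 := Nat.one_le_pow _ _ (by norm_num)
      calc 2 ≤ (6 * 1) * (1 * (2 * 2)) := by norm_num
        _ ≤ (6 * b1) * (4 ^ b1 * (R * (q - 1))) :=
          Nat.mul_le_mul (Nat.mul_le_mul_left _ hb1) (Nat.mul_le_mul h7 (Nat.mul_le_mul hR2 hQ))
    calc 2 + (6 * b1) * (4 ^ b1 * (2 + ((2 * R + 1) + 1) * (q - 1)))
        ≤ (6 * b1) * (4 ^ b1 * (R * (q - 1))) + (6 * b1) * (4 ^ b1 * (4 * (R * (q - 1)))) :=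
          Nat.add_le_add h6 (Nat.mul_le_mul_left _ (Nat.mul_le_mul_left _ h1))
      _ = 30 * b1 * 4 ^ b1 * (R * (q - 1)) := by ring
  calc (2 ^ b1 * t) * (2 + (6 * b1) * (4 ^ b1 * (2 + ((2 * R + 1) + 1) * (q - 1))))
      ≤ (2 ^ b1 * t) * (30 * b1 * 4 ^ b1 * (R * (q - 1))) := Nat.mul_le_mul_left _ h5
    _ = 2 * (2 ^ b1 * 2 ^ b1 * 4 ^ b1) * c1 q * t ^ 2 * (15 * b1 * ch q * (q - 1)) := by
        rw [hR]; ring
    _ ≤ 2 * (2 ^ b1 * 2 ^ b1 * 4 ^ b1) * c1 q * t ^ 2 * (4 ^ b1 * c1 q) :=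
        Nat.mul_le_mul_left _ h
    _ = 2 * 64 ^ b1 * c1 q ^ 2 * t ^ 2 := by
        have : (64 : ℕ) ^ b1 = 2 ^ b1 * 2 ^ b1 * 4 ^ b1 * 4 ^ b1 := by
          rw [← mul_pow, ← mul_pow, ← mul_pow]
          norm_num
        rw [this]
        ring

lemma width_bound (q b1 t : ℕ) (hq3 : 3 ≤ q) (ht : 1 ≤ t) :
    2 ^ (6 * b1) * ((c1 q * t) ^ 2 + 2) ≤ 2 * 64 ^ b1 * c1 q ^ 2 * t ^ 2 := by
  have h1 : 2 ≤ c1 q := by
    unfold c1
    have := ct_pos hq3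
    calc 2 ≤ 800 * 1 * 1 := by norm_num
      _ ≤ 800 * (q - 1) * ct q := Nat.mul_le_mul (Nat.mul_le_mul le_rfl (by omega)) this
  have h2 : 2 ≤ (c1 q * t) ^ 2 := by
    have h3 : 2 ≤ c1 q * t := le_trans (by norm_num) (Nat.mul_le_mul h1 ht)
    nlinarith
  have h3 : (2 : ℕ) ^ (6 * b1) = 64 ^ b1 := by
    rw [pow_mul]
    norm_num
  rw [h3]
  calc 64 ^ b1 * ((c1 q * t) ^ 2 + 2) ≤ 64 ^ b1 * ((c1 q * t) ^ 2 + (c1 q * t) ^ 2) :=
        Nat.mul_le_mul_left _ (by omega)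
    _ = _ := by ring

lemma depth_bound (q b1 t n : ℕ) (hq3 : 3 ≤ q) (hb1 : 1 ≤ b1) (ht : 1 ≤ t)
    (hn : n < 2 * 64 ^ b1 * c1 q ^ 2 * (t + 1) ^ 2) :
    n / ((q - 1) * (ct q * ((2 ^ b1 * t) * (6 * b1)))) + 1
      ≤ (2 * 16 ^ b1 * c1 q ^ 2) * (2 ^ b1 * t) := by
  set k := 2 ^ b1 * t with hk
  have hkpos : 0 < k := Nat.mul_pos (by positivity) ht
  have hc1 : 1 ≤ c1 q := c1_pos hq3
  have hct : 1 ≤ ct q := ct_pos hq3
  have h1 : 12 * k ≤ (q - 1) * (ct q * (k * (6 * b1))) := by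
    calc 12 * k = 2 * (1 * (k * (6 * 1))) := by ring
      _ ≤ (q - 1) * (ct q * (k * (6 * b1))) :=
        Nat.mul_le_mul (by omega) (Nat.mul_le_mul hct (Nat.mul_le_mul_left _
          (Nat.mul_le_mul_left _ hb1)))
  have h2 : n / ((q - 1) * (ct q * (k * (6 * b1)))) ≤ n / (12 * k) :=
    Nat.div_le_div_left h1 (by omega)
  have h3 : n < 8 * 16 ^ b1 * c1 q ^ 2 * k ^ 2 := by
    have h4 : (t + 1) ^ 2 ≤ 4 * t ^ 2 := by nlinarith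
    have h5 : (64 : ℕ) ^ b1 = 16 ^ b1 * 2 ^ b1 * 2 ^ b1 := by
      rw [← mul_pow, ← mul_pow]
      norm_num
    calc n < 2 * 64 ^ b1 * c1 q ^ 2 * (t + 1) ^ 2 := hn
      _ ≤ 2 * 64 ^ b1 * c1 q ^ 2 * (4 * t ^ 2) := Nat.mul_le_mul_left _ h4
      _ = 8 * 16 ^ b1 * c1 q ^ 2 * k ^ 2 := by
          rw [h5, hk]
          ring
  have h6 : n / (12 * k) < 16 ^ b1 * c1 q ^ 2 * k := by
    rw [Nat.div_lt_iff_lt_mul (by omega)]
    calc n < 8 * 16 ^ b1 * c1 q ^ 2 * k ^ 2 := h3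
      _ ≤ 12 * 16 ^ b1 * c1 q ^ 2 * k ^ 2 := by
          refine Nat.mul_le_mul_right _ (Nat.mul_le_mul_right _ (Nat.mul_le_mul_right _ (by norm_num)))
      _ = 16 ^ b1 * c1 q ^ 2 * k * (12 * k) := by ring
  have h7 : 16 ^ b1 * c1 q ^ 2 * k ≤ (2 * 16 ^ b1 * c1 q ^ 2) * k := by
    calc 16 ^ b1 * c1 q ^ 2 * k ≤ 2 * (16 ^ b1 * c1 q ^ 2 * k) := by omega
      _ = _ := by ring
  omega

/-- growth of the final bound -/
lemma growth (A : ℝ) : ∃ k0 : ℕ, ∀ k ≥ k0, A * (k : ℝ) ^ 3 ≤ √2 ^ k := by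
  have h1 := tendsto_pow_const_div_const_pow_of_one_lt 3
    (by rw [← Real.sqrt_one]; exact Real.sqrt_lt_sqrt (by norm_num) (by norm_num) : (1 : ℝ) < √2)
  have h2 := h1.const_mul A
  rw [mul_zero] at h2
  have h3 := h2.eventually (gt_mem_nhds (zero_lt_one))
  obtain ⟨k0, hk0⟩ := Filter.eventually_atTop.mp h3
  refine ⟨k0, fun k hk => ?_⟩
  have h4 := hk0 k hk
  have h5 : (0 : ℝ) < √2 ^ k := by positivity
  rw [← mul_div_assoc, div_lt_one h5] at h4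
  exact h4.le

theorem lower_all (q : ℕ) (hq3 : 3 ≤ q) : ∃ c : ℝ, 0 < c ∧ ∃ n0 : ℕ,
    ∀ (K : Type) [Field K] [Fintype K], Fintype.card K = q → ∀ n ≥ n0,
      ∀ C : Circuit K (Var n n), C.Homogeneous → C.out = IMM K n n →
        (2 : ℝ) ^ (c * √(n : ℝ)) ≤ (Fintype.card C.G2 : ℝ) + Fintype.card C.G4 := by
  obtain ⟨b1, hb1, hbA, hbB⟩ := exists_b1 q hq3
  set K3 := 2 * 64 ^ b1 * c1 q ^ 2 with hK3
  have hc1 : 1 ≤ c1 q := c1_pos hq3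
  have hK3pos : 0 < K3 := by rw [hK3]; positivity
  have hK3R : (0 : ℝ) < K3 := by exact_mod_cast hK3pos
  set A : ℝ := 2 * (((q : ℝ) - 1) * (6 * b1 * (c1 q : ℝ) ^ 2) + 1) with hA
  have hqR : (3 : ℝ) ≤ q := by exact_mod_cast hq3
  have hApos : 0 < A := by
    have : 0 < (q : ℝ) - 1 := by linarith
    rw [hA]
    positivity
  obtain ⟨k0, hk0⟩ := growth A
  refine ⟨1 / (4 * √(K3 : ℝ)), by positivity, K3 * (k0 + 1) ^ 2, ?_⟩
  intro K _ _ hqc n hn C hC hout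
  -- the parameter t
  set t := Nat.sqrt (n / K3) with ht
  have ht1 : K3 * t ^ 2 ≤ n := by
    have h1 : t * t ≤ n / K3 := Nat.sqrt_le _
    calc K3 * t ^ 2 = K3 * (t * t) := by rw [sq]
      _ ≤ K3 * (n / K3) := Nat.mul_le_mul_left _ h1
      _ ≤ n := Nat.mul_div_le _ _
  have ht2 : n < K3 * (t + 1) ^ 2 := by
    have h1 : n / K3 < (t + 1) * (t + 1) := Nat.lt_succ_sqrt _
    rw [Nat.div_lt_iff_lt_mul hK3pos] at h1
    calc n < (t + 1) * (t + 1) * K3 := h1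
      _ = _ := by ring
  have ht3 : k0 + 1 ≤ t := by
    rw [ht]
    refine Nat.le_sqrt.mpr ?_
    rw [Nat.le_div_iff_mul_le hK3pos]
    calc (k0 + 1) * (k0 + 1) * K3 = K3 * (k0 + 1) ^ 2 := by ring
      _ ≤ n := hn
  have htpos : 1 ≤ t := by omega
  set k := 2 ^ b1 * t with hk
  have hkt : t ≤ k := by
    rw [hk]
    calc t = 1 * t := (one_mul t).symm
      _ ≤ 2 ^ b1 * t := Nat.mul_le_mul_right _ (Nat.one_le_pow _ _ (by norm_num))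
  have hkpos : 0 < k := by omega
  have hup : 4 ^ b1 * (c1 q * t) ^ 2 = (c1 q * k) ^ 2 := by
    rw [hk]
    have : (4 : ℕ) ^ b1 = 2 ^ b1 * 2 ^ b1 := by
      rw [← mul_pow]
      norm_num
    rw [this]
    ring
  have hmain := lower_core_fq q hqc hq3 (n := n) (k := k) (b := 6 * b1) (u := 4 ^ b1)
    (p := (c1 q * t) ^ 2) (w := c1 q * k) hkpos (by omega) rfl hup
    ((width_bound q b1 t hq3 htpos).trans ht1) ((length_bound q b1 t hq3 hb1 htpos hbB).trans ht1)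
    (2 * 16 ^ b1 * c1 q ^ 2) (Nat.succ_le_of_lt (by positivity))
    (depth_bound q b1 t n hq3 hb1 htpos ht2) hbA C hC hout
  set B := k * (6 * b1) with hB
  set S : ℝ := (Fintype.card C.G2 : ℝ) + Fintype.card C.G4 with hS
  have hS0 : 0 ≤ S := by positivity
  have hBpos : 1 ≤ B := Nat.mul_pos hkpos (by omega)
  -- the number N
  have hN : (((q - 1) * (B * (c1 q * k) ^ 2) + 1 : ℕ) : ℝ) ≤ A / 2 * (k : ℝ) ^ 3 := by
    have hk1 : (1 : ℝ) ≤ k := by exact_mod_cast hkpos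
    have hk3 : (1 : ℝ) ≤ (k : ℝ) ^ 3 := one_le_pow₀ hk1
    rw [hA, hB]
    push_cast
    rw [cast_pred hq3]
    nlinarith
  have h1 : (49 / 25 : ℝ) ^ B ≤ (1 / 2) * (49 / 25) ^ B + A / 2 * (k : ℝ) ^ 3 * (S * (43 / 25) ^ B) := by
    have h2 : (1 / 10 : ℝ) ^ B ≤ (1 / 2) * (49 / 25) ^ B := by
      have h3 : (1 / 10 : ℝ) ^ B ≤ 1 / 10 := by
        calc (1 / 10 : ℝ) ^ B ≤ (1 / 10) ^ 1 :=
              pow_le_pow_of_le_one (by norm_num) (by norm_num) hBpos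
          _ = 1 / 10 := pow_one _
      have h4 : (1 : ℝ) ≤ (49 / 25) ^ B := one_le_pow₀ (by norm_num)
      linarith
    have h5 : (((q - 1) * (B * (c1 q * k) ^ 2) + 1 : ℕ) : ℝ) * (S * (43 / 25) ^ B)
        ≤ A / 2 * (k : ℝ) ^ 3 * (S * (43 / 25) ^ B) :=
      mul_le_mul_of_nonneg_right hN (by positivity)
    linarith
  have h2 : (49 / 43 : ℝ) ^ B ≤ A * (k : ℝ) ^ 3 * S := by
    have h3 : (49 / 25 : ℝ) ^ B ≤ A * (k : ℝ) ^ 3 * S * (43 / 25) ^ B := by linarith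
    have h4 : (49 / 43 : ℝ) ^ B = (49 / 25) ^ B / (43 / 25) ^ B := by
      rw [← div_pow]
      norm_num
    rw [h4, div_le_iff₀ (by positivity)]
    exact h3
  have h3 : (2 : ℝ) ^ k ≤ (49 / 43) ^ B := by
    have h4 : (2 : ℝ) ≤ (49 / 43) ^ (6 * b1) := by
      calc (2 : ℝ) ≤ (49 / 43) ^ 6 := by norm_num
        _ ≤ (49 / 43) ^ (6 * b1) := pow_le_pow_right₀ (by norm_num) (by omega)
    calc (2 : ℝ) ^ k ≤ ((49 / 43) ^ (6 * b1)) ^ k := pow_le_pow_left₀ (by norm_num) h4 k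
      _ = (49 / 43) ^ B := by rw [hB, ← pow_mul, mul_comm k]
  have h4 : (2 : ℝ) ^ k = √2 ^ k * √2 ^ k := by
    rw [← mul_pow, Real.mul_self_sqrt (by norm_num)]
  have h5 : √2 ^ k ≤ S := by
    have h6 := hk0 k (by omega)
    have h7 : √2 ^ k * √2 ^ k ≤ √2 ^ k * S := by
      rw [← h4]
      calc (2 : ℝ) ^ k ≤ A * (k : ℝ) ^ 3 * S := h3.trans h2
        _ ≤ √2 ^ k * S := mul_le_mul_of_nonneg_right h6 hS0
    exact le_of_mul_le_mul_left h7 (by positivity)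
  refine le_trans ?_ h5
  have h6 : √2 ^ k = (2 : ℝ) ^ ((k : ℝ) / 2) := by
    rw [Real.sqrt_eq_rpow, ← Real.rpow_natCast, ← Real.rpow_mul (by norm_num)]
    congr 1
    ring
  rw [h6]
  refine Real.rpow_le_rpow_of_exponent_le (by norm_num) ?_
  have h7 : √(n : ℝ) ≤ √(K3 : ℝ) * (2 * k) := by
    have h8 : (n : ℝ) ≤ K3 * (2 * k) ^ 2 := by
      have h9 : n ≤ K3 * (2 * k) ^ 2 :=
        ht2.le.trans (Nat.mul_le_mul_left _ (Nat.pow_le_pow_left (by omega) 2))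
      exact_mod_cast h9
    calc √(n : ℝ) ≤ √(K3 * (2 * k) ^ 2) := Real.sqrt_le_sqrt h8
      _ = √(K3 : ℝ) * (2 * k) := by
          rw [Real.sqrt_mul hK3R.le, Real.sqrt_sq (by positivity)]
  have h8 : 0 < √(K3 : ℝ) := Real.sqrt_pos.mpr hK3R
  rw [div_mul_eq_mul_div, one_mul, div_le_iff₀ (by positivity)]
  calc √(n : ℝ) ≤ √(K3 : ℝ) * (2 * k) := h7
    _ = (k : ℝ) / 2 * (4 * √(K3 : ℝ)) := by ring

end Vale.P346.FQ
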