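import Vale.Agent.Lib.P346.Defs

/-! The formal degree of a homogeneous circuit computing `IMM_{n,n}` is `n`. -/

namespace Vale.P346.FQ

open MvPolynomial Finset

theorem imm_homogeneous (K : Type) [CommRing K] (w d : ℕ) : (IMM K w d).IsHomogeneous d := by
  unfold IMM
  refine IsHomogeneous.sum _ _ _ fun i _ => ?_
  have h := IsHomogeneous.prod (R := K) (univ : Finset (Fin d))
    (fun t => X ((t, i t.castSucc, i t.succ) : Var w d)) (fun _ => 1)
    (fun t _ => isHomogeneous_X K _)
  simpa using h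

theorem imm_ne_zero (K : Type) [Field K] {n : ℕ} (hn : 0 < n) : IMM K n n ≠ 0 := by
  intro h
  classical
  have h1 := congrArg (eval (fun v : Var n n =>
    if (v.2.1 : ℕ) = 0 ∧ (v.2.2 : ℕ) = 0 then (1 : K) else 0)) h
  rw [IMM, map_sum, map_zero] at h1
  rw [Finset.sum_eq_single (fun _ => (⟨0, hn⟩ : Fin n))] at h1
  · simp at h1
  · intro i hi hne
    rw [map_prod]
    simp only [eval_X]
    have : ∃ t : Fin n, ¬ ((i t.castSucc : ℕ) = 0 ∧ (i t.succ : ℕ) = 0) := by
      by_contra hcon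
      push Not at hcon
      apply hne
      funext t
      apply Fin.ext
      show (i t : ℕ) = 0
      rcases Fin.eq_castSucc_or_eq_last t with ⟨t', rfl⟩ | rfl
      · exact (hcon t').1
      · exact (Finset.mem_filter.1 hi).2.2
    obtain ⟨t, ht⟩ := this
    exact Finset.prod_eq_zero (Finset.mem_univ t) (if_neg ht)
  · intro hcon
    exact absurd (Finset.mem_filter.2 ⟨Finset.mem_univ _, rfl, rfl⟩) hcon

theorem formal_deg {K : Type} [Field K] {n : ℕ} (hn : 0 < n) (C : Circuit K (Var n n))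
    (hC : C.Homogeneous) (hout : C.out = IMM K n n) :
    ∃ (d1 : C.G1 → ℕ) (d3 : C.G3 → ℕ),
      (∀ g, ∀ i ∈ C.in1 g, C.deg0 i = d1 g) ∧
      (∀ g, ∀ i ∈ C.in3 g, ∑ j, C.m2 i j * d1 j = d3 g) ∧
      (∀ i ∈ C.in5, ∑ j, C.m4 i j * d3 j = n) := by
  obtain ⟨d1, d3, d5, h1, h3, h5⟩ := hC
  refine ⟨d1, d3, h1, h3, ?_⟩
  have hc : ∀ (r : K) (p : MvPolynomial (Var n n) K) (d : ℕ), p.IsHomogeneous d →
      (MvPolynomial.C r * p).IsHomogeneous d := by
    intro r p d hp
    have := (isHomogeneous_C (Var n n) r).mul hp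
    rwa [zero_add] at this
  have v0 : ∀ i, (C.val0 i).IsHomogeneous (C.deg0 i) := by
    intro i
    unfold Circuit.val0 Circuit.deg0
    cases C.leaf i with
    | inl v => exact isHomogeneous_X K v
    | inr r => exact isHomogeneous_C _ r
  have v1 : ∀ g, (C.val1 g).IsHomogeneous (d1 g) := by
    intro g
    unfold Circuit.val1
    refine IsHomogeneous.sum _ _ _ fun i hi => hc _ _ _ ?_
    rw [← h1 g i hi]
    exact v0 i
  have v2 : ∀ g, (C.val2 g).IsHomogeneous (∑ j, C.m2 g j * d1 j) := by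
    intro g
    unfold Circuit.val2
    refine IsHomogeneous.prod _ _ _ fun j _ => ?_
    rw [mul_comm]
    exact (v1 j).pow _
  have v3 : ∀ g, (C.val3 g).IsHomogeneous (d3 g) := by
    intro g
    unfold Circuit.val3
    refine IsHomogeneous.sum _ _ _ fun i hi => hc _ _ _ ?_
    rw [← h3 g i hi]
    exact v2 i
  have v4 : ∀ g, (C.val4 g).IsHomogeneous (∑ j, C.m4 g j * d3 j) := by
    intro g
    unfold Circuit.val4
    refine IsHomogeneous.prod _ _ _ fun j _ => ?_
    rw [mul_comm]
    exact (v3 j).pow _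
  have v5 : C.out.IsHomogeneous d5 := by
    unfold Circuit.out
    refine IsHomogeneous.sum _ _ _ fun i hi => hc _ _ _ ?_
    rw [← h5 i hi]
    exact v4 i
  rw [hout] at v5
  have hd : d5 = n := v5.inj_right (imm_homogeneous K n n) (imm_ne_zero K hn)
  intro i hi
  rw [h5 i hi, hd]

end Vale.P346.FQ
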