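import Vale.Agent.Lib.P346.FQ.VBasic

/-! A function of `ρ` affine functions has degree at most `(q - 1) ρ`. -/

namespace Vale.P346.FQ

open MvPolynomial Finset

theorem mem_V_of_forms {K ι : Type} [Field K] [Fintype K] [Fintype ι] {ρ : ℕ}
    (t : Fin ρ → (ι → K) → K) (ht : ∀ r, t r ∈ V K ι 1) (f : (ι → K) → K)
    (hf : ∀ x x' : ι → K, (∀ r, t r x = t r x') → f x = f x') :
    f ∈ V K ι ((Fintype.card K - 1) * ρ) := by
  classical
  have hq : Fintype.card K - 1 ≠ 0 := by
    have := Fintype.one_lt_card (α := K)
    omega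
  let F : (Fin ρ → K) → K := fun y => if h : ∃ x, ∀ r, t r x = y r then f h.choose else 0
  have hF : ∀ x, F (fun r => t r x) = f x := by
    intro x
    have h : ∃ x', ∀ r, t r x' = t r x := ⟨x, fun _ => rfl⟩
    change (if h : ∃ x', ∀ r, t r x' = t r x then f h.choose else 0) = f x
    rw [dif_pos h]
    exact hf _ _ h.choose_spec
  let G : (Fin ρ → K) → (ι → K) → K := fun y =>
    ∏ r : Fin ρ, (1 - (t r - fun _ => y r) ^ (Fintype.card K - 1))
  have hG : ∀ y, G y ∈ V K ι ((Fintype.card K - 1) * ρ) := by
    intro y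
    have h1 := V_prod (K := K) (ι := ι) (univ : Finset (Fin ρ)) (fun _ => Fintype.card K - 1)
      (fun r => 1 - (t r - fun _ => y r) ^ (Fintype.card K - 1)) (fun r _ => by
        have h2 : (t r - fun _ => y r) ∈ V K ι 1 :=
          (V K ι 1).sub_mem (ht r) (V_const 1 (y r))
        have h3 := V_pow (Fintype.card K - 1) h2
        rw [mul_one] at h3
        exact (V K ι _).sub_mem (V_one _) h3)
    have h4 : ∑ _r ∈ (univ : Finset (Fin ρ)), (Fintype.card K - 1) =
        (Fintype.card K - 1) * ρ := by
      rw [Finset.sum_const, Finset.card_univ, Fintype.card_fin, smul_eq_mul, mul_comm]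
    rw [h4] at h1
    exact h1
  have hval : ∀ y x, G y x = if (fun r => t r x) = y then 1 else 0 := by
    intro y x
    change (∏ r : Fin ρ, (1 - (t r - fun _ => y r) ^ (Fintype.card K - 1)) :
      (ι → K) → K) x = _
    rw [Finset.prod_apply]
    split_ifs with h
    · refine Finset.prod_eq_one fun r _ => ?_
      have h1 : t r x = y r := congrFun h r
      simp [h1, hq]
    · obtain ⟨r, hr⟩ : ∃ r, t r x ≠ y r := by
        by_contra hcon
        push Not at hcon
        exact h (funext hcon)
      refine Finset.prod_eq_zero (Finset.mem_univ r) ?_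
      have h1 : (t r x - y r) ^ (Fintype.card K - 1) = 1 :=
        FiniteField.pow_card_sub_one_eq_one _ (sub_ne_zero.2 hr)
      simp [h1]
  have hsum : f = ∑ y : Fin ρ → K, fun x => F y * G y x := by
    funext x
    rw [Finset.sum_apply]
    have h1 : ∀ y, F y * G y x = if (fun r => t r x) = y then F y else 0 := by
      intro y
      rw [hval]
      split_ifs <;> simp
    simp only [h1]
    rw [Finset.sum_ite_eq, if_pos (Finset.mem_univ _), hF]
  rw [hsum]
  exact Submodule.sum_mem _ fun y _ => V_smul (F y) (hG y)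

/-- Either `τ` of the vectors `l j`, `j ∈ S`, are linearly independent, or they all lie in the
span of fewer than `τ` vectors. -/
theorem rank_alternative {K E I : Type} [Field K] [AddCommGroup E] [Module K E]
    [FiniteDimensional K E] (S : Finset I) (l : I → E) (τ : ℕ) :
    (∃ g : Fin τ → I, (∀ r, g r ∈ S) ∧ LinearIndependent K (fun r => l (g r))) ∨
    (∃ ρ < τ, ∃ t : Fin ρ → E, ∀ j ∈ S, l j ∈ Submodule.span K (Set.range t)) := by
  classical
  obtain ⟨b, hbs, hspan, hli⟩ := exists_linearIndependent K (l '' (S : Set I))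
  have hfin : b.Finite := (S.finite_toSet.image l).subset hbs
  have : Fintype b := hfin.fintype
  rcases le_or_gt τ (Fintype.card b) with h | h
  · left
    have h1 : Fintype.card (Fin τ) ≤ Fintype.card b := by
      rw [Fintype.card_fin]
      exact h
    obtain ⟨e⟩ := Function.Embedding.nonempty_of_card_le h1
    have h2 : ∀ r : Fin τ, ∃ j ∈ S, l j = (e r : E) := by
      intro r
      obtain ⟨j, hj, hj'⟩ := hbs (e r).2
      exact ⟨j, hj, hj'⟩
    choose g hg hg' using h2
    refine ⟨g, hg, ?_⟩
    have h3 : (fun r => l (g r)) = (Subtype.val : b → E) ∘ e := by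
      funext r
      exact hg' r
    rw [h3]
    exact hli.comp e e.injective
  · right
    refine ⟨Fintype.card b, h, fun i => ((Fintype.equivFin b).symm i : E), ?_⟩
    intro j hj
    have h1 : l j ∈ Submodule.span K (l '' (S : Set I)) :=
      Submodule.subset_span ⟨j, hj, rfl⟩
    rw [← hspan] at h1
    refine Submodule.span_mono ?_ h1
    intro x hx
    refine ⟨Fintype.equivFin b ⟨x, hx⟩, ?_⟩
    simp

end Vale.P346.FQ
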