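import Vale.Agent.Lib.P346.FQ.Defs

/-! Generating functions: bounds on `1 + z + ⋯ + z^{q-1}` and the mass of the good exponents. -/

namespace Vale.P346.FQ

open Finset

/-- `1 + z + ⋯ + z^{q-1}` -/
noncomputable def gp (q : ℕ) (z : ℝ) : ℝ := ∑ j ∈ range q, z ^ j

theorem exp_pair (q j : ℕ) (hj : j < q) (s : ℝ) :
    Real.exp (-s) ^ j + Real.exp (-s) ^ (q - 1 - j) =
      2 * (Real.exp (-(s * ((q : ℝ) - 1) / 2)) * Real.cosh (s * ((j : ℝ) - ((q : ℝ) - 1) / 2))) := by
  have h1 : ((q - 1 - j : ℕ) : ℝ) = (q : ℝ) - 1 - j := by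
    rw [Nat.sub_sub, Nat.cast_sub (by omega)]
    push_cast
    ring
  rw [← Real.exp_nat_mul, ← Real.exp_nat_mul, Real.cosh_eq, h1]
  have e1 : Real.exp (j * -s) = Real.exp (-(s * ((q : ℝ) - 1) / 2)) *
      Real.exp (-(s * ((j : ℝ) - ((q : ℝ) - 1) / 2))) := by
    rw [← Real.exp_add]
    congr 1
    ring
  have e2 : Real.exp (((q : ℝ) - 1 - j) * -s) = Real.exp (-(s * ((q : ℝ) - 1) / 2)) *
      Real.exp (s * ((j : ℝ) - ((q : ℝ) - 1) / 2)) := by
    rw [← Real.exp_add]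
    congr 1
    ring
  rw [e1, e2]
  ring

theorem gp_eq (q : ℕ) (s : ℝ) : gp q (Real.exp (-s)) =
    ∑ j ∈ range q, Real.exp (-(s * ((q : ℝ) - 1) / 2)) *
      Real.cosh (s * ((j : ℝ) - ((q : ℝ) - 1) / 2)) := by
  have h1 : gp q (Real.exp (-s)) = ∑ j ∈ range q, Real.exp (-s) ^ (q - 1 - j) :=
    (Finset.sum_range_reflect (fun j => Real.exp (-s) ^ j) q).symm
  have h2 : gp q (Real.exp (-s)) + gp q (Real.exp (-s)) =
      2 * ∑ j ∈ range q, Real.exp (-(s * ((q : ℝ) - 1) / 2)) *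
        Real.cosh (s * ((j : ℝ) - ((q : ℝ) - 1) / 2)) := by
    nth_rw 2 [h1]
    unfold gp
    rw [← sum_add_distrib, mul_sum]
    exact sum_congr rfl fun j hj => exp_pair q j (mem_range.1 hj) s
  linarith

theorem gp_lower (q : ℕ) (hq : 1 ≤ q) (s : ℝ) :
    (q : ℝ) * Real.exp (-(s * ((q : ℝ) - 1) / 2)) ≤ gp q (Real.exp (-s)) := by
  rw [gp_eq]
  calc (q : ℝ) * Real.exp (-(s * ((q : ℝ) - 1) / 2))
      = ∑ j ∈ range q, Real.exp (-(s * ((q : ℝ) - 1) / 2)) := by
        rw [sum_const, card_range, nsmul_eq_mul]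
    _ ≤ _ := sum_le_sum fun j _ =>
        le_mul_of_one_le_right (Real.exp_pos _).le (Real.one_le_cosh _)

theorem gp_upper (q : ℕ) (hq : 1 ≤ q) (s : ℝ) :
    gp q (Real.exp (-s))
      ≤ (q : ℝ) * Real.exp (-(s * ((q : ℝ) - 1) / 2)) * Real.exp (s ^ 2 * ((q : ℝ) - 1) ^ 2 / 8) := by
  rw [gp_eq]
  have h1 : ∀ j ∈ range q, Real.exp (-(s * ((q : ℝ) - 1) / 2)) *
      Real.cosh (s * ((j : ℝ) - ((q : ℝ) - 1) / 2)) ≤
      Real.exp (-(s * ((q : ℝ) - 1) / 2)) * Real.exp (s ^ 2 * ((q : ℝ) - 1) ^ 2 / 8) := by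
    intro j hj
    rw [mem_range] at hj
    refine mul_le_mul_of_nonneg_left ?_ (Real.exp_pos _).le
    refine (Real.cosh_le_exp_half_sq _).trans (Real.exp_le_exp.2 ?_)
    have hj0 : (0 : ℝ) ≤ j := Nat.cast_nonneg j
    have hj1 : (j : ℝ) ≤ (q : ℝ) - 1 := by
      have : ((j + 1 : ℕ) : ℝ) ≤ (q : ℝ) := by exact_mod_cast hj
      push_cast at this
      linarith
    have h2 : ((j : ℝ) - ((q : ℝ) - 1) / 2) ^ 2 ≤ (((q : ℝ) - 1) / 2) ^ 2 := by
      apply sq_le_sq'
      · linarith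
      · linarith
    calc (s * ((j : ℝ) - ((q : ℝ) - 1) / 2)) ^ 2 / 2
        = s ^ 2 / 2 * ((j : ℝ) - ((q : ℝ) - 1) / 2) ^ 2 := by ring
      _ ≤ s ^ 2 / 2 * (((q : ℝ) - 1) / 2) ^ 2 := mul_le_mul_of_nonneg_left h2 (by positivity)
      _ = s ^ 2 * ((q : ℝ) - 1) ^ 2 / 8 := by ring
  refine (sum_le_sum h1).trans (le_of_eq ?_)
  rw [sum_const, card_range, nsmul_eq_mul, mul_assoc]

theorem sum_prod_all {κ : Type} [Fintype κ] [DecidableEq κ] (q : ℕ) (a : ℕ → ℝ) :
    ∑ J : κ → Fin q, ∏ i, a (J i) = (∑ j ∈ range q, a j) ^ Fintype.card κ := by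
  rw [← Fin.sum_univ_eq_sum_range, ← Finset.card_univ, ← Finset.prod_const,
    Finset.prod_univ_sum, Fintype.piFinset_univ]

/-- the generating function of all exponent vectors -/
theorem sum_all {κ : Type} [Fintype κ] [DecidableEq κ] (q : ℕ) (z : ℝ) :
    ∑ J : κ → Fin q, z ^ dg J = gp q z ^ Fintype.card κ := by
  unfold gp
  rw [← sum_prod_all]
  refine sum_congr rfl fun J _ => ?_
  unfold dg
  rw [Finset.prod_pow_eq_pow_sum]

/-- the mass of the exponent vectors that are not good -/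
theorem mass_not_good {κ : Type} [Fintype κ] [DecidableEq κ] (q : ℕ) (hq : 3 ≤ q) (w : ℝ)
    (hw : 0 < w) (hw1 : w ≤ 1) (z : ℝ) (hz : 0 < z) (hzw : z ^ (q - 1) = w ^ 2) :
    ∑ J ∈ univ.filter (fun J : κ → Fin q => ¬ Good J), z ^ dg J
      ≤ (gp q z - (1 - w) ^ 2) ^ Fintype.card κ := by
  obtain ⟨a, ha⟩ : ∃ a : ℕ → ℝ, a = fun j => z ^ j * ((if j = 0 then w else 1) *
    (if j = q - 1 then w⁻¹ else 1)) := ⟨_, rfl⟩
  have ha0 : ∀ j, 0 ≤ a j := by
    intro j
    rw [ha]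
    positivity
  have hsum : ∑ j ∈ range q, a j = gp q z - (1 - w) ^ 2 := by
    have h1 : ∀ j ∈ range q, z ^ j - a j = (if j = 0 then 1 - w else 0) +
        (if j = q - 1 then w ^ 2 - w else 0) := by
      intro j _
      rw [ha]
      by_cases h0 : j = 0
      · subst h0
        have h2 : ¬ (0 = q - 1) := by omega
        simp [h2]
      · by_cases h3 : j = q - 1
        · subst h3
          simp only [h0, if_false, if_true]
          rw [hzw]
          field_simp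
          ring
        · simp [h0, h3]
    have h2 := sum_congr rfl h1
    rw [sum_sub_distrib, sum_add_distrib, sum_ite_eq', sum_ite_eq',
      if_pos (mem_range.2 (by omega)), if_pos (mem_range.2 (by omega))] at h2
    unfold gp
    linarith
  rw [← hsum, ← sum_prod_all]
  calc ∑ J ∈ univ.filter (fun J : κ → Fin q => ¬ Good J), z ^ dg J
      ≤ ∑ J ∈ univ.filter (fun J : κ → Fin q => ¬ Good J), ∏ i, a (J i) := by
        refine sum_le_sum fun J hJ => ?_
        rw [mem_filter] at hJ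
        have hgood := hJ.2
        unfold Good at hgood
        rw [not_lt] at hgood
        have h1 : ∏ i, a (J i) = z ^ dg J *
            (w ^ (univ.filter (fun i => (J i : ℕ) = 0)).card *
              w⁻¹ ^ (univ.filter (fun i => (J i : ℕ) = q - 1)).card) := by
          rw [ha]
          simp only
          rw [prod_mul_distrib, prod_mul_distrib, prod_pow_eq_pow_sum, prod_ite, prod_ite]
          simp only [prod_const, one_pow, mul_one]
          rfl
        rw [h1]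
        refine le_mul_of_one_le_right (by positivity) ?_
        rw [inv_pow]
        have h2 : 0 < w ^ (univ.filter (fun i => (J i : ℕ) = q - 1)).card := by positivity
        rw [← div_eq_mul_inv, one_le_div h2]
        exact pow_le_pow_of_le_one hw.le hw1 hgood
    _ ≤ ∑ J : κ → Fin q, ∏ i, a (J i) := by
        refine sum_le_sum_of_subset_of_nonneg (filter_subset _ _) fun J _ _ => ?_
        exact prod_nonneg fun i _ => ha0 _

/-- the mass of a set of exponent vectors of given size -/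
theorem mass_le {κ : Type} [Fintype κ] [DecidableEq κ] (q : ℕ) (z : ℝ) (hz : 0 < z)
    (S : Finset (κ → Fin q)) :
    (∑ J ∈ S, z ^ dg J) ^ 2 ≤ S.card * gp q (z ^ 2) ^ Fintype.card κ := by
  refine sq_sum_le_card_mul_sum_sq.trans ?_
  refine mul_le_mul_of_nonneg_left ?_ (Nat.cast_nonneg _)
  rw [← sum_all]
  calc ∑ J ∈ S, (z ^ dg J) ^ 2 = ∑ J ∈ S, (z ^ 2) ^ dg J := by
        refine sum_congr rfl fun J _ => ?_
        rw [← pow_mul, ← pow_mul, mul_comm]
    _ ≤ ∑ J : κ → Fin q, (z ^ 2) ^ dg J :=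
        sum_le_sum_of_subset_of_nonneg (subset_univ _) fun J _ _ => by positivity

end Vale.P346.FQ
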