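import Vale.Agent.Lib.P346.FQ.VBasic

/-! The dimension of the space of functions of degree at most `d`. -/

namespace Vale.P346.FQ

open MvPolynomial Finset

/-- On a finite field every power is equal, as a function, to a power with exponent `< q`. -/
theorem vdim_exists_red (K : Type) [Field K] [Fintype K] (n : ℕ) :
    ∃ r : ℕ, r < Fintype.card K ∧ r ≤ n ∧ ∀ x : K, x ^ n = x ^ r := by
  have hq : 1 < Fintype.card K := Fintype.one_lt_card
  induction n using Nat.strong_induction_on with
  | _ n ih =>
    by_cases hn : n < Fintype.card K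
    · exact ⟨n, hn, le_rfl, fun _ => rfl⟩
    · push Not at hn
      obtain ⟨r, hr, hrn, hx⟩ := ih (n - Fintype.card K + 1) (by omega)
      refine ⟨r, hr, by omega, fun x => ?_⟩
      rw [← hx x]
      have h1 : n = (n - Fintype.card K) + Fintype.card K := by omega
      conv_lhs => rw [h1, pow_add, FiniteField.pow_card]
      rw [pow_succ]

theorem finrank_V_le (K ι : Type) [Field K] [Fintype K] [Fintype ι] [DecidableEq ι] (d : ℕ) :
    Module.finrank K (V K ι d) ≤ cntLe ι (Fintype.card K) d := by
  classical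
  set B : Finset (ι → Fin (Fintype.card K)) :=
    univ.filter (fun J : ι → Fin (Fintype.card K) => dg J ≤ d) with hB
  set φ : (ι → Fin (Fintype.card K)) → ((ι → K) → K) :=
    fun J x => ∏ i, x i ^ (J i : ℕ) with hφ
  have hle : V K ι d ≤ Submodule.span K ((B.image φ : Finset ((ι → K) → K)) :
      Set ((ι → K) → K)) := by
    rintro f ⟨p, hp, hf⟩
    have hf' : f = ∑ s ∈ p.support, p.coeff s • (fun x : ι → K => ∏ i, x i ^ (s i)) := by
      funext x
      rw [← hf x, eval_eq', Finset.sum_apply]
      rfl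
    rw [hf']
    refine Submodule.sum_mem _ fun s hs => Submodule.smul_mem _ _ ?_
    apply Submodule.subset_span
    choose r hr hrn hx using vdim_exists_red K
    set J : ι → Fin (Fintype.card K) := fun i => ⟨r (s i), hr (s i)⟩ with hJ
    rw [Finset.coe_image]
    refine ⟨J, ?_, ?_⟩
    · rw [Finset.mem_coe, hB, Finset.mem_filter]
      refine ⟨Finset.mem_univ _, ?_⟩
      have hdeg : (s.sum fun _ e => e) ≤ d := (le_totalDegree hs).trans hp
      rw [Finsupp.sum_fintype _ _ (by simp)] at hdeg
      refine le_trans ?_ hdeg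
      unfold dg
      exact Finset.sum_le_sum fun i _ => hrn (s i)
    · funext x
      simp only [hφ, hJ]
      exact Finset.prod_congr rfl fun i _ => (hx (s i) (x i)).symm
  calc Module.finrank K (V K ι d)
      ≤ Module.finrank K (Submodule.span K ((B.image φ : Finset ((ι → K) → K)) :
          Set ((ι → K) → K))) := Submodule.finrank_mono hle
    _ ≤ (B.image φ).card := finrank_span_finset_le_card _
    _ ≤ B.card := Finset.card_image_le
    _ = cntLe ι (Fintype.card K) d := rfl

theorem cntLe_le (ι : Type) [Fintype ι] [DecidableEq ι] (q d : ℕ) (z : ℝ) (hz : 0 < z)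
    (hz1 : z ≤ 1) :
    (cntLe ι q d : ℝ) * z ^ d ≤ (∑ j ∈ range q, z ^ j) ^ Fintype.card ι := by
  have h1 : (cntLe ι q d : ℝ) * z ^ d =
      ∑ _J ∈ univ.filter (fun J : ι → Fin q => dg J ≤ d), z ^ d := by
    rw [Finset.sum_const, nsmul_eq_mul]
    rfl
  have h2 : ∑ _J ∈ univ.filter (fun J : ι → Fin q => dg J ≤ d), z ^ d ≤
      ∑ J ∈ univ.filter (fun J : ι → Fin q => dg J ≤ d), z ^ dg J := by
    refine Finset.sum_le_sum fun J hJ => ?_
    rw [Finset.mem_filter] at hJ
    exact pow_le_pow_of_le_one hz.le hz1 hJ.2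
  have h3 : ∑ J ∈ univ.filter (fun J : ι → Fin q => dg J ≤ d), z ^ dg J ≤
      ∑ J : ι → Fin q, z ^ dg J :=
    Finset.sum_le_sum_of_subset_of_nonneg (Finset.filter_subset _ _) fun J _ _ =>
      (pow_pos hz _).le
  have h4 : ∑ J : ι → Fin q, z ^ dg J = (∑ j ∈ range q, z ^ j) ^ Fintype.card ι := by
    have h5 := Finset.prod_univ_sum (fun _ : ι => (univ : Finset (Fin q)))
      (fun (_ : ι) (j : Fin q) => z ^ (j : ℕ))
    rw [Fintype.piFinset_univ] at h5
    have h6 : ∀ J : ι → Fin q, z ^ dg J = ∏ i, z ^ (J i : ℕ) := fun J => by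
      unfold dg
      rw [Finset.prod_pow_eq_pow_sum]
    simp only [h6]
    rw [← h5, Finset.prod_const, Finset.card_univ]
    congr 1
    exact Fin.sum_univ_eq_sum_range (fun j => z ^ j) q
  rw [h1]
  exact (h2.trans h3).trans (le_of_eq h4)

end Vale.P346.FQ
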