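import Vale.Agent.Lib.P346.FQ.GenFun
import Vale.Agent.Lib.P346.FQ.VDim

/-! From the star inequality to an inequality between generating functions. -/

namespace Vale.P346.FQ

open Finset

theorem gen_total {κ T : Type} [Fintype κ] [Fintype T] [DecidableEq T] (q : ℕ)
    (S : Finset (κ → Fin q)) (z : ℝ) :
    ∑ a : T → Bool × S, z ^ (∑ t, dg (a t).2.1) = (2 * ∑ J ∈ S, z ^ dg J) ^ Fintype.card T := by
  have h1 : ∀ a : T → Bool × S, z ^ (∑ t, dg (a t).2.1) = ∏ t, z ^ dg (a t).2.1 := fun a =>
    (Finset.prod_pow_eq_pow_sum _ _ _).symm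
  simp only [h1]
  have h2 := Finset.prod_univ_sum (fun _ : T => (univ : Finset (Bool × S)))
    (fun _ b => z ^ dg b.2.1)
  rw [Fintype.piFinset_univ] at h2
  rw [← h2, Finset.prod_const, Finset.card_univ]
  congr 1
  rw [Fintype.sum_prod_type]
  simp only [Fintype.sum_bool]
  rw [← two_mul, ← Finset.sum_coe_sort S]

theorem dg_le {κ : Type} [Fintype κ] (q : ℕ) (J : κ → Fin q) :
    dg J ≤ (q - 1) * Fintype.card κ := by
  unfold dg
  calc ∑ i, (J i : ℕ) ≤ ∑ _i : κ, (q - 1) :=
        Finset.sum_le_sum (fun i _ => Nat.le_sub_one_of_lt (J i).2)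
    _ = (q - 1) * Fintype.card κ := by
        rw [Finset.sum_const, Finset.card_univ, smul_eq_mul, Nat.mul_comm]

theorem gen_ineq {κ T : Type} [Fintype κ] [DecidableEq κ] [Fintype T] [DecidableEq T] (q : ℕ)
    (hq : 1 ≤ q) (S : Finset (κ → Fin q)) (z : ℝ) (hz : 0 < z) (hz1 : z ≤ 1) (L0 s : ℕ)
    (e M : ℝ) (he : 0 ≤ e) (hM : 0 ≤ M)
    (hstar : ∀ ℓ : ℕ, ((univ.filter (fun a : T → Bool × S =>
      ∑ t, dg (a t).2.1 ≤ ℓ)).card : ℝ) ≤ e + M * cntLe (T × κ) q (ℓ + s)) :
    (2 * ∑ J ∈ S, z ^ dg J) ^ Fintype.card T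
      ≤ (2 * gp q (z ^ 2) ^ Fintype.card κ) ^ Fintype.card T / z ^ L0
        + (((q - 1) * (Fintype.card T * Fintype.card κ) + 1 : ℕ) : ℝ) *
          (z ^ L0 * e + M * gp q z ^ (Fintype.card T * Fintype.card κ) / z ^ s) := by
  have hgp0 : ∀ w : ℝ, 0 ≤ w → 0 ≤ gp q w := fun w hw =>
    Finset.sum_nonneg (fun j _ => pow_nonneg hw j)
  set dega : (T → Bool × S) → ℕ := fun a => ∑ t, dg (a t).2.1 with hdega
  rw [← gen_total q S z]
  rw [← Finset.sum_filter_add_sum_filter_not univ (fun a : T → Bool × S => dega a < L0)]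
  refine add_le_add ?_ ?_
  · -- small degrees
    have h1 : ∀ a ∈ univ.filter (fun a : T → Bool × S => dega a < L0),
        z ^ dega a ≤ (z ^ 2) ^ dega a / z ^ L0 := by
      intro a ha
      have ha' := (mem_filter.1 ha).2
      rw [le_div_iff₀ (pow_pos hz _), ← pow_mul, two_mul, pow_add]
      exact mul_le_mul_of_nonneg_left (pow_le_pow_of_le_one hz.le hz1 ha'.le)
        (pow_pos hz _).le
    refine (Finset.sum_le_sum h1).trans ?_
    rw [← Finset.sum_div]
    refine div_le_div_of_nonneg_right ?_ (pow_pos hz _).le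
    have h2 : ∑ a ∈ univ.filter (fun a : T → Bool × S => dega a < L0), (z ^ 2) ^ dega a ≤
        ∑ a : T → Bool × S, (z ^ 2) ^ dega a :=
      Finset.sum_le_sum_of_subset_of_nonneg (Finset.filter_subset _ _)
        (fun _ _ _ => pow_nonneg (sq_nonneg z) _)
    refine h2.trans ?_
    rw [gen_total q S (z ^ 2)]
    have h3 : (0 : ℝ) ≤ ∑ J ∈ S, (z ^ 2) ^ dg J :=
      Finset.sum_nonneg (fun _ _ => pow_nonneg (sq_nonneg z) _)
    refine pow_le_pow_left₀ (by linarith) ?_ _
    refine mul_le_mul_of_nonneg_left ?_ (by norm_num)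
    rw [← sum_all]
    exact Finset.sum_le_sum_of_subset_of_nonneg (Finset.subset_univ _)
      (fun _ _ _ => pow_nonneg (sq_nonneg z) _)
  · -- large degrees
    set D := (q - 1) * (Fintype.card T * Fintype.card κ) with hD
    have hmaps : ∀ a ∈ univ.filter (fun a : T → Bool × S => ¬ dega a < L0),
        dega a ∈ range (D + 1) := by
      intro a _
      rw [mem_range, Nat.lt_succ_iff]
      calc dega a ≤ ∑ _t : T, (q - 1) * Fintype.card κ :=
            Finset.sum_le_sum (fun t _ => dg_le q _)
        _ = D := by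
            rw [Finset.sum_const, Finset.card_univ, smul_eq_mul, hD]
            ring
    rw [← Finset.sum_fiberwise_of_maps_to hmaps (fun a => z ^ dega a)]
    have hb0 : 0 ≤ z ^ L0 * e + M * gp q z ^ (Fintype.card T * Fintype.card κ) / z ^ s := by
      have h1 := hgp0 z hz.le
      positivity
    have hkey : ∀ d ∈ range (D + 1),
        ∑ a ∈ (univ.filter (fun a : T → Bool × S => ¬ dega a < L0)).filter
          (fun a => dega a = d), z ^ dega a ≤
        z ^ L0 * e + M * gp q z ^ (Fintype.card T * Fintype.card κ) / z ^ s := by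
      intro d _
      by_cases hd : d < L0
      · have hempty : (univ.filter (fun a : T → Bool × S => ¬ dega a < L0)).filter
            (fun a => dega a = d) = ∅ := by
          rw [Finset.filter_eq_empty_iff]
          intro a ha hda
          have ha' := (mem_filter.1 ha).2
          omega
        rw [hempty, Finset.sum_empty]
        exact hb0
      · push Not at hd
        have h1 : ∑ a ∈ (univ.filter (fun a : T → Bool × S => ¬ dega a < L0)).filter
            (fun a => dega a = d), z ^ dega a =
            (((univ.filter (fun a : T → Bool × S => ¬ dega a < L0)).filter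
            (fun a => dega a = d)).card : ℝ) * z ^ d := by
          rw [Finset.sum_congr rfl (fun a ha => by rw [(mem_filter.1 ha).2]), Finset.sum_const,
            nsmul_eq_mul]
        have h2 : (((univ.filter (fun a : T → Bool × S => ¬ dega a < L0)).filter
            (fun a => dega a = d)).card : ℝ) ≤
            ((univ.filter (fun a : T → Bool × S => dega a ≤ d)).card : ℝ) := by
          refine Nat.cast_le.2 (Finset.card_le_card ?_)
          intro a ha
          rw [mem_filter] at ha ⊢
          exact ⟨mem_univ _, ha.2.le⟩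
        have h3 := cntLe_le (T × κ) q (d + s) z hz hz1
        have h4 : (∑ j ∈ range q, z ^ j) ^ Fintype.card (T × κ) =
            gp q z ^ (Fintype.card T * Fintype.card κ) := by
          rw [Fintype.card_prod]
          rfl
        rw [h4, pow_add, ← mul_assoc] at h3
        have hzs : 0 < z ^ s := pow_pos hz _
        have hzd : 0 < z ^ d := pow_pos hz _
        have h5 : (cntLe (T × κ) q (d + s) : ℝ) * z ^ d ≤
            gp q z ^ (Fintype.card T * Fintype.card κ) / z ^ s := by
          rw [le_div_iff₀ hzs]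
          exact h3
        rw [h1]
        calc (((univ.filter (fun a : T → Bool × S => ¬ dega a < L0)).filter
            (fun a => dega a = d)).card : ℝ) * z ^ d
            ≤ (e + M * cntLe (T × κ) q (d + s)) * z ^ d :=
              mul_le_mul_of_nonneg_right (h2.trans (hstar d)) hzd.le
          _ = z ^ d * e + M * (cntLe (T × κ) q (d + s) * z ^ d) := by ring
          _ ≤ z ^ L0 * e + M * (gp q z ^ (Fintype.card T * Fintype.card κ) / z ^ s) :=
              add_le_add (mul_le_mul_of_nonneg_right (pow_le_pow_of_le_one hz.le hz1 hd) he)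
                (mul_le_mul_of_nonneg_left h5 hM)
          _ = _ := by rw [mul_div_assoc]
    refine (Finset.sum_le_sum hkey).trans ?_
    rw [Finset.sum_const, Finset.card_range, nsmul_eq_mul]

end Vale.P346.FQ
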