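import Vale.Agent.Lib.P346.FQ.VBasic

/-! Grouping the factors of a product of low total degree. -/

namespace Vale.P346.FQ

open MvPolynomial Finset

/-- A partial grouping: `G` has degrees `D`, each at most `2 T`, of total at most `S`, and
product `R`. -/
def GroupInv {K ι Y : Type} [Field K] (T k S : ℕ) (R : MvPolynomial Y ((ι → K) → K)) : Prop :=
  ∃ (G : Fin k → MvPolynomial Y ((ι → K) → K)) (D : Fin k → ℕ),
    (∀ i, XDeg (D i) (G i)) ∧ (∀ i, D i ≤ 2 * T) ∧ ∑ i, D i ≤ S ∧ R = ∏ i, G i

lemma GroupInv.mul {K ι Y : Type} [Field K] {T N S : ℕ} (hT : 0 < T)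
    {R : MvPolynomial Y ((ι → K) → K)} (h : GroupInv T (N / T + 1) S R) (hS : S ≤ N)
    {P : MvPolynomial Y ((ι → K) → K)} {d : ℕ} (hP : XDeg d P) (hd : d ≤ T) :
    GroupInv T (N / T + 1) (S + d) (P * R) := by
  classical
  obtain ⟨G, D, hG, hD, hsum, hR⟩ := h
  obtain ⟨i, hi⟩ : ∃ i, D i ≤ T := by
    by_contra hcon
    push Not at hcon
    have h1 : ∑ _i : Fin (N / T + 1), T ≤ ∑ i, D i :=
      Finset.sum_le_sum fun i _ => (hcon i).le
    rw [Finset.sum_const, Finset.card_univ, Fintype.card_fin, smul_eq_mul, mul_comm] at h1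
    have h2 : N < T * (N / T + 1) := Nat.lt_mul_div_succ N hT
    omega
  refine ⟨Function.update G i (P * G i), Function.update D i (d + D i), ?_, ?_, ?_, ?_⟩
  · intro j
    by_cases hj : j = i
    · subst hj
      rw [Function.update_self, Function.update_self]
      exact hP.mul (hG j)
    · rw [Function.update_of_ne hj, Function.update_of_ne hj]
      exact hG j
  · intro j
    by_cases hj : j = i
    · subst hj
      rw [Function.update_self]
      omega
    · rw [Function.update_of_ne hj]
      exact hD j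
  · rw [Finset.sum_update_of_mem (Finset.mem_univ i)]
    have h1 := Finset.add_sum_erase Finset.univ D (Finset.mem_univ i)
    rw [Finset.sdiff_singleton_eq_erase]
    omega
  · rw [Finset.prod_update_of_mem (Finset.mem_univ i), hR, Finset.sdiff_singleton_eq_erase,
      mul_assoc, Finset.mul_prod_erase Finset.univ G (Finset.mem_univ i)]

lemma GroupInv.mul_pow {K ι Y : Type} [Field K] {T N S : ℕ} (hT : 0 < T)
    {R : MvPolynomial Y ((ι → K) → K)} (h : GroupInv T (N / T + 1) S R)
    {P : MvPolynomial Y ((ι → K) → K)} {d : ℕ} (hP : XDeg d P) (hd : d ≤ T) (m : ℕ)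
    (hS : S + m * d ≤ N) :
    GroupInv T (N / T + 1) (S + m * d) (P ^ m * R) := by
  induction m with
  | zero => simpa using h
  | succ m ih =>
    have h1 : S + m * d ≤ N := by
      rw [Nat.succ_mul] at hS
      omega
    have h2 := (ih h1).mul hT h1 hP hd
    rw [pow_succ', mul_assoc, Nat.succ_mul, ← add_assoc]
    exact h2

theorem group {K ι Y I : Type} [Field K] [Fintype I] (T N : ℕ) (hT : 0 < T)
    (m e : I → ℕ) (Q : I → MvPolynomial Y ((ι → K) → K))
    (hQ : ∀ j, XDeg (e j) (Q j)) (he : ∀ j, e j ≤ T) (hN : ∑ j, m j * e j ≤ N) :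
    ∃ G : Fin (N / T + 1) → MvPolynomial Y ((ι → K) → K),
      (∀ i, XDeg (2 * T) (G i)) ∧ ∏ j, Q j ^ m j = ∏ i, G i := by
  classical
  have key : ∀ s : Finset I, ∑ j ∈ s, m j * e j ≤ N →
      GroupInv T (N / T + 1) (∑ j ∈ s, m j * e j) (∏ j ∈ s, Q j ^ m j) := by
    intro s
    induction s using Finset.induction_on with
    | empty =>
      intro _
      exact ⟨fun _ => 1, fun _ => 0, fun _ => XDeg_one 0, fun _ => Nat.zero_le _, by simp,
        by simp⟩
    | insert a s ha ih =>
      intro hs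
      rw [Finset.sum_insert ha] at hs ⊢
      rw [Finset.prod_insert ha, add_comm (m a * e a)]
      exact (ih (by omega)).mul_pow hT (hQ a) (he a) (m a) (by omega)
  obtain ⟨G, D, hG, hD, _, hR⟩ := key Finset.univ hN
  exact ⟨G, fun i => (hG i).mono (hD i), hR⟩

end Vale.P346.FQ
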