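import Vale.Agent.Lib.P346.FQ.Defs

/-! The number of small subsets. -/

namespace Vale.P346.FQ

open Finset

theorem subLe_le (D k Λ : ℕ) (h : D ≤ Λ * k) (hΛ : 1 ≤ Λ) :
    (subLe D k : ℝ) ≤ (Real.exp 1 * Λ) ^ k := by
  have hΛ1 : (1 : ℝ) ≤ Λ := by exact_mod_cast hΛ
  have h1 : (subLe D k : ℝ) ≤ ∑ i ∈ range (k + 1), (Λ : ℝ) ^ k * ((k : ℝ) ^ i / i.factorial) := by
    unfold subLe
    push_cast
    refine Finset.sum_le_sum fun i hi => ?_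
    rw [Finset.mem_range] at hi
    have h2 : ((D.choose i : ℕ) : ℝ) ≤ (D : ℝ) ^ i / i.factorial := Nat.choose_le_pow_div i D
    have h3 : (D : ℝ) ≤ Λ * k := by exact_mod_cast h
    have h4 : (D : ℝ) ^ i ≤ (Λ : ℝ) ^ k * (k : ℝ) ^ i := by
      calc (D : ℝ) ^ i ≤ (Λ * k : ℝ) ^ i := pow_le_pow_left₀ (Nat.cast_nonneg _) h3 i
        _ = (Λ : ℝ) ^ i * (k : ℝ) ^ i := mul_pow _ _ _
        _ ≤ (Λ : ℝ) ^ k * (k : ℝ) ^ i := mul_le_mul_of_nonneg_right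
            (pow_le_pow_right₀ hΛ1 (by omega)) (by positivity)
    calc ((D.choose i : ℕ) : ℝ) ≤ (D : ℝ) ^ i / i.factorial := h2
      _ ≤ ((Λ : ℝ) ^ k * (k : ℝ) ^ i) / i.factorial :=
          div_le_div_of_nonneg_right h4 (by positivity)
      _ = _ := by ring
  rw [← Finset.mul_sum] at h1
  have h5 : ∑ i ∈ range (k + 1), (k : ℝ) ^ i / i.factorial ≤ Real.exp k :=
    Real.sum_le_exp_of_nonneg (Nat.cast_nonneg k) (k + 1)
  calc (subLe D k : ℝ) ≤ (Λ : ℝ) ^ k * ∑ i ∈ range (k + 1), (k : ℝ) ^ i / i.factorial := h1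
    _ ≤ (Λ : ℝ) ^ k * Real.exp k := mul_le_mul_of_nonneg_left h5 (by positivity)
    _ = (Real.exp 1 * Λ) ^ k := by
        rw [mul_pow, ← Real.exp_nat_mul, mul_one, mul_comm]

end Vale.P346.FQ
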