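import Vale.Agent.Lib.P346.FQ.Mass
import Vale.Agent.Lib.P346.FQ.SubLe

/-! The main numerical inequality. -/

namespace Vale.P346.FQ

open Finset

/-- constants depending on `q` only -/
def ct (q : ℕ) : ℕ := 2 * q * (16 * (q - 1) ^ 2 + 3)

def c1 (q : ℕ) : ℕ := 800 * (q - 1) * ct q

def ch (q : ℕ) : ℕ := 100 * 3 ^ (4 * (q - 1) ^ 2)

lemma ct_pos {q : ℕ} (hq : 3 ≤ q) : 0 < ct q := by
  unfold ct
  have : 0 < q := by omega
  positivity

lemma c1_pos {q : ℕ} (hq : 3 ≤ q) : 0 < c1 q := by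
  unfold c1
  have h1 : 0 < q - 1 := by omega
  have h2 := ct_pos hq
  positivity

lemma cast_pred {q : ℕ} (hq : 3 ≤ q) : ((q - 1 : ℕ) : ℝ) = (q : ℝ) - 1 := by
  rw [Nat.cast_sub (by omega)]
  simp

/-- the threshold exponent -/
def L0 (q B w : ℕ) : ℕ := B * ((q - 1) * (w * w / 2 - 4 * (q - 1) * w))

lemma cast_L0 (q k w B : ℕ) (hq3 : 3 ≤ q) (hk : 0 < k) (hw : w = c1 q * k) :
    (L0 q B w : ℝ) = B * (((q : ℝ) - 1) * ((w : ℝ) ^ 2 / 2 - 4 * ((q : ℝ) - 1) * w)) := by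
  have hctpos := ct_pos hq3
  have h2 : 2 ∣ w * w := by
    refine Dvd.dvd.mul_right ?_ _
    rw [hw]
    unfold c1
    exact ⟨400 * (q - 1) * ct q * k, by ring⟩
  obtain ⟨c, hc⟩ := h2
  have h3 : 8 * (q - 1) ≤ w := by
    rw [hw]
    unfold c1
    calc 8 * (q - 1) = 8 * (q - 1) * 1 * 1 := by ring
      _ ≤ 800 * (q - 1) * ct q * k :=
        Nat.mul_le_mul (Nat.mul_le_mul (Nat.mul_le_mul_right _ (by norm_num)) hctpos) hk
  have h4 : 4 * (q - 1) * w ≤ w * w / 2 := by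
    rw [Nat.le_div_iff_mul_le (by norm_num)]
    calc 4 * (q - 1) * w * 2 = 8 * (q - 1) * w := by ring
      _ ≤ w * w := Nat.mul_le_mul_right _ h3
  have h5 : ((w * w / 2 : ℕ) : ℝ) = (w : ℝ) ^ 2 / 2 := by
    rw [hc, Nat.mul_div_cancel_left _ (by norm_num)]
    have : ((w * w : ℕ) : ℝ) = ((2 * c : ℕ) : ℝ) := by rw [hc]
    push_cast at this
    rw [sq, this]
    ring
  unfold L0
  rw [Nat.cast_mul, Nat.cast_mul, Nat.cast_sub h4, h5, cast_pred hq3, Nat.cast_mul, Nat.cast_mul,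
    cast_pred hq3]
  norm_num

/-- `e^{-4/w}` -/
noncomputable def zz (w : ℕ) : ℝ := Real.exp (-(4 / (w : ℝ)))

lemma zz_pos (w : ℕ) : 0 < zz w := Real.exp_pos _

lemma zz_le_one (w : ℕ) : zz w ≤ 1 := by
  unfold zz
  refine Real.exp_le_one_iff.mpr ?_
  have : 0 ≤ 4 / (w : ℝ) := by positivity
  linarith

lemma zz_pow_L0 (q k w B : ℕ) (hq3 : 3 ≤ q) (hk : 0 < k) (hw : w = c1 q * k) (hw0 : 0 < w) :
    zz w ^ L0 q B w = Real.exp (-(2 * B * w * ((q : ℝ) - 1)) + 16 * B * ((q : ℝ) - 1) ^ 2) := by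
  have hwR : (w : ℝ) ≠ 0 := by
    have : (0 : ℝ) < w := by exact_mod_cast hw0
    exact this.ne'
  unfold zz
  rw [← Real.exp_nat_mul, cast_L0 q k w B hq3 hk hw]
  congr 1
  field_simp
  ring

lemma gp_zz_low (q w : ℕ) (hq3 : 3 ≤ q) :
    (q : ℝ) * Real.exp (-(2 * ((q : ℝ) - 1) / w)) ≤ gp q (zz w) := by
  have h1 := gp_lower q (by omega) (4 / (w : ℝ))
  have h2 : -(4 / (w : ℝ) * ((q : ℝ) - 1) / 2) = -(2 * ((q : ℝ) - 1) / w) := by ring
  rw [h2] at h1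
  exact h1

lemma gam_low (q w B : ℕ) (hq3 : 3 ≤ q) (hw0 : 0 < w) :
    (q : ℝ) ^ (B * w ^ 2) * Real.exp (-(2 * B * w * ((q : ℝ) - 1))) ≤ gp q (zz w) ^ (B * w ^ 2) := by
  have hwR : (w : ℝ) ≠ 0 := by
    have : (0 : ℝ) < w := by exact_mod_cast hw0
    exact this.ne'
  have h1 : ((q : ℝ) * Real.exp (-(2 * ((q : ℝ) - 1) / w))) ^ (B * w ^ 2)
      ≤ gp q (zz w) ^ (B * w ^ 2) := pow_le_pow_left₀ (by positivity) (gp_zz_low q w hq3) _
  refine le_trans (le_of_eq ?_) h1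
  rw [mul_pow, ← Real.exp_nat_mul]
  congr 2
  push_cast
  field_simp

lemma gp_sq_le (q w : ℕ) (hq3 : 3 ≤ q) (hw0 : 0 < w) :
    gp q (zz w ^ 2) ≤ gp q (zz w) *
      Real.exp (-(2 * ((q : ℝ) - 1) / w) + 8 * ((q : ℝ) - 1) ^ 2 / (w : ℝ) ^ 2) := by
  have hwR : (w : ℝ) ≠ 0 := by
    have : (0 : ℝ) < w := by exact_mod_cast hw0
    exact this.ne'
  have h2 := gp_upper q (by omega) (2 * (4 / (w : ℝ)))
  have e1 : Real.exp (-(2 * (4 / (w : ℝ)))) = zz w ^ 2 := by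
    unfold zz
    rw [← Real.exp_nat_mul]
    congr 1
    push_cast
    ring
  rw [e1] at h2
  refine h2.trans ?_
  have e2 : Real.exp (-(2 * (4 / (w : ℝ)) * ((q : ℝ) - 1) / 2)) *
        Real.exp ((2 * (4 / (w : ℝ))) ^ 2 * ((q : ℝ) - 1) ^ 2 / 8)
      = Real.exp (-(2 * ((q : ℝ) - 1) / w)) *
        Real.exp (-(2 * ((q : ℝ) - 1) / w) + 8 * ((q : ℝ) - 1) ^ 2 / (w : ℝ) ^ 2) := by
    rw [← Real.exp_add, ← Real.exp_add]
    congr 1
    field_simp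
    ring
  rw [mul_assoc, e2, ← mul_assoc]
  exact mul_le_mul_of_nonneg_right (gp_zz_low q w hq3) (Real.exp_pos _).le

lemma term_one (q k w B : ℕ) (hq3 : 3 ≤ q) (hk : 0 < k) (hw : w = c1 q * k) (hw0 : 0 < w) :
    (2 * gp q (zz w ^ 2) ^ (w ^ 2)) ^ B / zz w ^ L0 q B w
      ≤ (1 / 10) ^ B * gp q (zz w) ^ (B * w ^ 2) := by
  have hwR : (w : ℝ) ≠ 0 := by
    have : (0 : ℝ) < w := by exact_mod_cast hw0
    exact this.ne'
  have hqR : (3 : ℝ) ≤ q := by exact_mod_cast hq3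
  set Q : ℝ := (q : ℝ) - 1 with hQ
  set Γ := gp q (zz w) ^ (B * w ^ 2) with hΓ
  have hG0 : 0 < gp q (zz w) := gp_pos q (by omega) _ (zz_pos w)
  have hΓ0 : 0 < Γ := by positivity
  have h1 := gp_sq_le q w hq3 hw0
  have h3 : (2 * gp q (zz w ^ 2) ^ (w ^ 2)) ^ B
      ≤ 2 ^ B * (Γ * Real.exp (-(2 * B * w * Q) + 8 * B * Q ^ 2)) := by
    have h0 : 0 ≤ gp q (zz w ^ 2) := (gp_pos q (by omega) _ (pow_pos (zz_pos w) 2)).le
    calc (2 * gp q (zz w ^ 2) ^ (w ^ 2)) ^ B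
        = 2 ^ B * gp q (zz w ^ 2) ^ (B * w ^ 2) := by
          rw [mul_pow, ← pow_mul, mul_comm (w ^ 2) B]
      _ ≤ 2 ^ B * (gp q (zz w) * Real.exp (-(2 * Q / w) + 8 * Q ^ 2 / (w : ℝ) ^ 2)) ^ (B * w ^ 2) :=
          mul_le_mul_of_nonneg_left (pow_le_pow_left₀ h0 h1 _) (by positivity)
      _ = _ := by
          rw [mul_pow, ← Real.exp_nat_mul]
          congr 3
          push_cast
          field_simp
  have h4 : Real.exp (-(2 * B * w * Q) + 8 * B * Q ^ 2)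
      = Real.exp (-(8 * B * Q ^ 2)) * zz w ^ L0 q B w := by
    rw [zz_pow_L0 q k w B hq3 hk hw hw0, ← Real.exp_add]
    congr 1
    ring
  have hZ0 : 0 < zz w ^ L0 q B w := pow_pos (zz_pos w) _
  rw [div_le_iff₀ hZ0]
  refine h3.trans ?_
  rw [h4]
  have h5 : Real.exp (-(8 * B * Q ^ 2)) ≤ (1 / 20) ^ B := by
    have h5 : -(8 * (B : ℝ) * Q ^ 2) ≤ (B : ℝ) * (-32) := by
      have h6 : (4 : ℝ) ≤ Q ^ 2 := by nlinarith
      have h7 : (0 : ℝ) ≤ B := by positivity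
      nlinarith
    calc Real.exp (-(8 * B * Q ^ 2)) ≤ Real.exp ((B : ℝ) * (-32)) :=
          Real.exp_le_exp.mpr h5
      _ = Real.exp (-32) ^ B := by rw [Real.exp_nat_mul]
      _ ≤ (1 / 20) ^ B := by
          refine pow_le_pow_left₀ (Real.exp_pos _).le ?_ _
          have h8 : (20 : ℝ) ≤ Real.exp 32 := by
            have := Real.add_one_le_exp (32 : ℝ)
            linarith
          rw [Real.exp_neg, inv_eq_one_div]
          exact one_div_le_one_div_of_le (by norm_num) h8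
  have h6 : (1 / 10 : ℝ) ^ B = 2 ^ B * (1 / 20) ^ B := by
    rw [← mul_pow]
    norm_num
  calc 2 ^ B * (Γ * (Real.exp (-(8 * B * Q ^ 2)) * zz w ^ L0 q B w))
      = (2 ^ B * Γ * zz w ^ L0 q B w) * Real.exp (-(8 * B * Q ^ 2)) := by ring
    _ ≤ (2 ^ B * Γ * zz w ^ L0 q B w) * (1 / 20) ^ B :=
        mul_le_mul_of_nonneg_left h5 (by positivity)
    _ = _ := by rw [h6]; ring

lemma term_two (q k b w B : ℕ) (hq3 : 3 ≤ q) (hk : 0 < k) (hb : 0 < b) (hB : B = k * b)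
    (hw : w = c1 q * k) (hw0 : 0 < w) (G2 : ℝ) (hG2 : 0 ≤ G2) :
    zz w ^ L0 q B w * (G2 * 2 ^ k * ((2 * q - 1) / (2 * q) : ℝ) ^ (ct q * B) *
      (q : ℝ) ^ (B * w ^ 2)) ≤ G2 * (43 / 25) ^ B * gp q (zz w) ^ (B * w ^ 2) := by
  have hqR : (3 : ℝ) ≤ q := by exact_mod_cast hq3
  set Q : ℝ := (q : ℝ) - 1 with hQ
  set Γ := gp q (zz w) ^ (B * w ^ 2) with hΓ
  have hG0 : 0 < gp q (zz w) := gp_pos q (by omega) _ (zz_pos w)
  have hΓ0 : 0 < Γ := by positivity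
  have h1 : ((2 * q - 1) / (2 * q) : ℝ) ^ (ct q * B) ≤ Real.exp (-(B * (16 * Q ^ 2 + 3))) := by
    have h2 : ((2 * q - 1) / (2 * q) : ℝ) ≤ Real.exp (-(1 / (2 * q))) := by
      have h3 := Real.add_one_le_exp (-(1 / (2 * (q : ℝ))))
      have h4 : ((2 * q - 1) / (2 * q) : ℝ) = -(1 / (2 * (q : ℝ))) + 1 := by
        field_simp
        ring
      rw [h4]
      exact h3
    have h5 : (0 : ℝ) ≤ (2 * q - 1) / (2 * q) := by
      apply div_nonneg <;> linarith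
    refine (pow_le_pow_left₀ h5 h2 _).trans (le_of_eq ?_)
    rw [← Real.exp_nat_mul]
    congr 1
    unfold ct
    push_cast
    rw [cast_pred hq3]
    field_simp
    ring
  have h6 : (2 : ℝ) ^ k * Real.exp (-(3 * B)) ≤ 1 := by
    have h7 : (2 : ℝ) ^ k ≤ Real.exp k := by
      have h8 : Real.exp (k : ℝ) = Real.exp 1 ^ k := by
        rw [← Real.exp_nat_mul, mul_one]
      rw [h8]
      refine pow_le_pow_left₀ (by norm_num) ?_ _
      have := Real.add_one_le_exp (1 : ℝ)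
      linarith
    have h9 : (k : ℝ) ≤ 3 * B := by
      have h10 : k ≤ 3 * B := by
        rw [hB]
        have := Nat.mul_le_mul_left k hb
        omega
      exact_mod_cast h10
    calc (2 : ℝ) ^ k * Real.exp (-(3 * B)) ≤ Real.exp k * Real.exp (-(3 * B)) :=
          mul_le_mul_of_nonneg_right h7 (Real.exp_pos _).le
      _ = Real.exp (k - 3 * B) := by
          rw [← Real.exp_add]
          congr 1
      _ ≤ 1 := Real.exp_le_one_iff.mpr (by linarith)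
  have h10 : (1 : ℝ) ≤ (43 / 25) ^ B := one_le_pow₀ (by norm_num)
  have hZ0 : 0 < zz w ^ L0 q B w := pow_pos (zz_pos w) _
  have h11 : zz w ^ L0 q B w * Real.exp (-(B * (16 * Q ^ 2 + 3)))
      = Real.exp (-(3 * B)) * Real.exp (-(2 * B * w * Q)) := by
    rw [zz_pow_L0 q k w B hq3 hk hw hw0, ← Real.exp_add, ← Real.exp_add]
    congr 1
    ring
  have h12 := gam_low q w B hq3 hw0
  calc zz w ^ L0 q B w * (G2 * 2 ^ k * ((2 * q - 1) / (2 * q) : ℝ) ^ (ct q * B) *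
        (q : ℝ) ^ (B * w ^ 2))
      = (zz w ^ L0 q B w * G2 * 2 ^ k * (q : ℝ) ^ (B * w ^ 2)) *
          ((2 * q - 1) / (2 * q) : ℝ) ^ (ct q * B) := by ring
    _ ≤ (zz w ^ L0 q B w * G2 * 2 ^ k * (q : ℝ) ^ (B * w ^ 2)) *
          Real.exp (-(B * (16 * Q ^ 2 + 3))) := mul_le_mul_of_nonneg_left h1 (by positivity)
    _ = (G2 * 2 ^ k * (q : ℝ) ^ (B * w ^ 2)) *
          (zz w ^ L0 q B w * Real.exp (-(B * (16 * Q ^ 2 + 3)))) := by ring
    _ = G2 * (2 ^ k * Real.exp (-(3 * B))) *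
          ((q : ℝ) ^ (B * w ^ 2) * Real.exp (-(2 * B * w * Q))) := by rw [h11]; ring
    _ ≤ G2 * 1 * Γ :=
        mul_le_mul (mul_le_mul_of_nonneg_left h6 hG2) h12 (by positivity) (by positivity)
    _ ≤ G2 * (43 / 25) ^ B * Γ :=
        mul_le_mul_of_nonneg_right (mul_le_mul_of_nonneg_left h10 hG2) hΓ0.le

lemma zz_pow_s (q k w B : ℕ) (hq3 : 3 ≤ q) (hk : 0 < k) (hw : w = c1 q * k) :
    zz w ^ (k * (2 * ((q - 1) * (ct q * B)))) = Real.exp (-(B / 100)) := by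
  have hqR : (3 : ℝ) ≤ q := by exact_mod_cast hq3
  unfold zz
  rw [← Real.exp_nat_mul]
  congr 1
  have h2 : (w : ℝ) = 800 * ((q : ℝ) - 1) * ct q * k := by
    rw [hw]
    unfold c1
    push_cast
    rw [cast_pred hq3]
  push_cast
  rw [cast_pred hq3, h2]
  have h3 : (ct q : ℝ) ≠ 0 := by
    have : (0 : ℝ) < ct q := by exact_mod_cast ct_pos hq3
    exact this.ne'
  have h4 : (k : ℝ) ≠ 0 := by
    have : (0 : ℝ) < k := by exact_mod_cast hk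
    exact this.ne'
  have h5 : (q : ℝ) - 1 ≠ 0 := by
    have : (0 : ℝ) < (q : ℝ) - 1 := by linarith
    exact this.ne'
  field_simp
  ring

lemma term_three (q k b w B Λ D : ℕ) (hq3 : 3 ≤ q) (hk : 0 < k) (hB : B = k * b)
    (hw : w = c1 q * k) (hΛ1 : 1 ≤ Λ) (hD : D ≤ Λ * k)
    (hΛ : Real.exp 1 * Λ ≤ (17 / 10 : ℝ) ^ b) (G4 : ℝ) (hG4 : 0 ≤ G4) :
    G4 * subLe D k * gp q (zz w) ^ (B * w ^ 2) / zz w ^ (k * (2 * ((q - 1) * (ct q * B))))
      ≤ G4 * (43 / 25) ^ B * gp q (zz w) ^ (B * w ^ 2) := by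
  set Γ := gp q (zz w) ^ (B * w ^ 2) with hΓ
  have hG0 : 0 < gp q (zz w) := gp_pos q (by omega) _ (zz_pos w)
  have hΓ0 : 0 < Γ := by positivity
  have h6 : (subLe D k : ℝ) ≤ (17 / 10) ^ B := by
    refine (subLe_le D k Λ hD hΛ1).trans ?_
    have h7 : (17 / 10 : ℝ) ^ B = ((17 / 10) ^ b) ^ k := by
      rw [hB, mul_comm k b, pow_mul]
    rw [h7]
    exact pow_le_pow_left₀ (by positivity) hΛ k
  have h8 : (17 / 10 : ℝ) ^ B * Real.exp (B / 100) ≤ (43 / 25) ^ B := by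
    have h9 : Real.exp ((B : ℝ) / 100) = Real.exp (1 / 100) ^ B := by
      rw [← Real.exp_nat_mul]
      congr 1
      ring
    rw [h9, ← mul_pow]
    refine pow_le_pow_left₀ (by positivity) ?_ _
    have h10 : Real.exp (1 / 100) ≤ 100 / 99 := by
      have h11 := Real.add_one_le_exp (-(1 / 100 : ℝ))
      rw [Real.exp_neg] at h11
      have h12 : (99 / 100 : ℝ) ≤ (Real.exp (1 / 100))⁻¹ := by linarith
      have h13 := inv_anti₀ (by norm_num) h12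
      rw [inv_inv] at h13
      linarith
    linarith
  rw [zz_pow_s q k w B hq3 hk hw, div_eq_mul_inv, ← Real.exp_neg, neg_neg]
  calc G4 * subLe D k * Γ * Real.exp (B / 100)
      = G4 * (subLe D k * Real.exp (B / 100)) * Γ := by ring
    _ ≤ G4 * ((17 / 10) ^ B * Real.exp (B / 100)) * Γ := by
        refine mul_le_mul_of_nonneg_right (mul_le_mul_of_nonneg_left
          (mul_le_mul_of_nonneg_right h6 (Real.exp_pos _).le) hG4) hΓ0.le
    _ ≤ _ := mul_le_mul_of_nonneg_right (mul_le_mul_of_nonneg_left h8 hG4) hΓ0.le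

/-- the real inequality at the end -/
lemma final_real (q k b w B Λ D : ℕ) (hq3 : 3 ≤ q) (hk : 0 < k) (hb : 0 < b) (hB : B = k * b)
    (hw : w = c1 q * k) (hΛ1 : 1 ≤ Λ) (hD : D ≤ Λ * k)
    (hΛ : Real.exp 1 * Λ ≤ (17 / 10 : ℝ) ^ b)
    (G2 G4 : ℝ) (hG2 : 0 ≤ G2) (hG4 : 0 ≤ G4) (σ N : ℝ) (hN : 0 ≤ N)
    (hσ : (49 / 50 : ℝ) * gp q (zz w) ^ (w ^ 2) ≤ σ)
    (hmain : (2 * σ) ^ B
      ≤ (2 * gp q (zz w ^ 2) ^ (w ^ 2)) ^ B / zz w ^ L0 q B w
        + N * (zz w ^ L0 q B w *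
            (G2 * 2 ^ k * ((2 * q - 1) / (2 * q) : ℝ) ^ (ct q * B) *
              (q : ℝ) ^ (B * w ^ 2)) +
            G4 * subLe D k * gp q (zz w) ^ (B * w ^ 2) /
              zz w ^ (k * (2 * ((q - 1) * (ct q * B)))))) :
    (49 / 25 : ℝ) ^ B ≤ (1 / 10) ^ B + N * ((G2 + G4) * (43 / 25) ^ B) := by
  have hw0 : 0 < w := by
    rw [hw]
    exact Nat.mul_pos (c1_pos hq3) hk
  set Γ := gp q (zz w) ^ (B * w ^ 2) with hΓ
  have hG0 : 0 < gp q (zz w) := gp_pos q (by omega) _ (zz_pos w)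
  have hΓ0 : 0 < Γ := by positivity
  have hT1 := term_one q k w B hq3 hk hw hw0
  have hT2 := term_two q k b w B hq3 hk hb hB hw hw0 G2 hG2
  have hT3 := term_three q k b w B Λ D hq3 hk hB hw hΛ1 hD hΛ G4 hG4
  rw [← hΓ] at hT1 hT2 hT3
  have hL : (49 / 25 : ℝ) ^ B * Γ ≤ (2 * σ) ^ B := by
    have h1 : (49 / 25 : ℝ) ^ B * Γ = (2 * (49 / 50 * gp q (zz w) ^ (w ^ 2))) ^ B := by
      rw [hΓ, mul_comm B (w ^ 2), pow_mul, ← mul_pow]
      congr 1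
      ring
    rw [h1]
    refine pow_le_pow_left₀ (by positivity) ?_ _
    linarith
  have hfin : (49 / 25 : ℝ) ^ B * Γ ≤ ((1 / 10) ^ B + N * ((G2 + G4) * (43 / 25) ^ B)) * Γ := by
    refine hL.trans (hmain.trans ?_)
    calc _ ≤ (1 / 10) ^ B * Γ + N * (G2 * (43 / 25) ^ B * Γ + G4 * (43 / 25) ^ B * Γ) :=
          add_le_add hT1 (mul_le_mul_of_nonneg_left (add_le_add hT2 hT3) hN)
      _ = _ := by ring
  exact le_of_mul_le_mul_right hfin hΓ0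

end Vale.P346.FQ
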