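import Vale.Agent.Lib.P346.FQ.Star
import Vale.Agent.Lib.P346.FQ.Numer
import Vale.Agent.Lib.P346.FQ.GenIneq
import Vale.Agent.Lib.P346.FQ.Cheb

/-! The lower bound for given parameters. -/

namespace Vale.P346.FQ

open MvPolynomial Finset

lemma compl_winSet_card {K : Type} [Field K] [Fintype K] (q : ℕ) (hqc : Fintype.card K = q)
    (u p w : ℕ) (hup : u * p = w ^ 2) (hw0 : 0 < w) :
    (q ^ (u * p) - (winSet K u p (p * (q - 1) / q - w * ch q) (2 * (w * ch q) + 1)).card)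
      * ch q ^ 2 ≤ q ^ (w ^ 2) := by
  classical
  have h1 := window_card_union (K := K) u p (w * ch q)
  rw [hqc] at h1
  have h2 : (univ.filter (fun x : Fin u × Fin p → K => ∃ π : Fin u,
      ¬ (p * (q - 1) / q - w * ch q ≤ nz (fun j : Fin p => x (π, j)) ∧
        nz (fun j : Fin p => x (π, j))
          ≤ (p * (q - 1) / q - w * ch q) + (2 * (w * ch q) + 1)))).card
      = q ^ (u * p) - (winSet K u p (p * (q - 1) / q - w * ch q) (2 * (w * ch q) + 1)).card := by
    have h3 : (univ.filter (fun x : Fin u × Fin p → K => ∃ π : Fin u,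
      ¬ (p * (q - 1) / q - w * ch q ≤ nz (fun j : Fin p => x (π, j)) ∧
        nz (fun j : Fin p => x (π, j))
          ≤ (p * (q - 1) / q - w * ch q) + (2 * (w * ch q) + 1))))
        = (winSet K u p (p * (q - 1) / q - w * ch q) (2 * (w * ch q) + 1))ᶜ := by
      ext x
      rw [Finset.mem_filter, Finset.mem_compl, mem_winSet, not_forall]
      simp only [Finset.mem_univ, true_and]
    rw [h3, Finset.card_compl]
    congr 1
    simp [hqc]
  rw [h2, hup] at h1
  have h4 : 0 < w ^ 2 := by positivity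
  rw [hup]
  refine Nat.le_of_mul_le_mul_left ?_ h4
  calc w ^ 2 * ((q ^ w ^ 2 - (winSet K u p (p * (q - 1) / q - w * ch q)
        (2 * (w * ch q) + 1)).card) * ch q ^ 2)
      = (q ^ w ^ 2 - (winSet K u p (p * (q - 1) / q - w * ch q)
        (2 * (w * ch q) + 1)).card) * (w * ch q) ^ 2 := by ring
    _ ≤ w ^ 2 * q ^ w ^ 2 := h1

theorem lower_core_fq {K : Type} [Field K] [Fintype K] (q : ℕ) (hqc : Fintype.card K = q)
    (hq3 : 3 ≤ q) {n k b u p w : ℕ} (hk : 0 < k) (hb : 0 < b) (hw : w = c1 q * k)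
    (hup : u * p = w ^ 2) (hwidth : 2 ^ b * (p + 2) ≤ n)
    (hlen : k * (2 + b * (u * (2 + ((2 * (w * ch q) + 1) + 1) * (q - 1)))) ≤ n)
    (Λ : ℕ) (hΛ1 : 1 ≤ Λ) (hD : n / ((q - 1) * (ct q * (k * b))) + 1 ≤ Λ * k)
    (hΛ : Real.exp 1 * Λ ≤ (17 / 10 : ℝ) ^ b)
    (C : Circuit K (Var n n)) (hC : C.Homogeneous) (hout : C.out = IMM K n n) :
    (49 / 25 : ℝ) ^ (k * b) ≤ (1 / 10) ^ (k * b) +
      (((q - 1) * (k * b * w ^ 2) + 1 : ℕ) : ℝ) *
        (((Fintype.card C.G2 : ℝ) + Fintype.card C.G4) * (43 / 25) ^ (k * b)) := by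
  classical
  have hw0 : 0 < w := by
    rw [hw]
    exact Nat.mul_pos (c1_pos hq3) hk
  obtain ⟨lam, hlam0, hlam1⟩ : ∃ lam : K, lam ≠ 0 ∧ lam ≠ 1 := by
    by_contra hcon
    push Not at hcon
    have h1 : (univ : Finset K) ⊆ {0, 1} := by
      intro x _
      rw [Finset.mem_insert, Finset.mem_singleton]
      by_cases hx : x = 0
      · left; exact hx
      · right; exact hcon x hx
    have h2 := Finset.card_le_card h1
    rw [Finset.card_univ] at h2
    have h4 : ({0, 1} : Finset K).card ≤ 2 := Finset.card_le_two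
    omega
  set τ := ct q * (k * b) with hτ
  have hτ0 : 0 < τ := Nat.mul_pos (ct_pos hq3) (Nat.mul_pos hk hb)
  obtain ⟨S, hgood, hScard, hstar⟩ := star q hqc hq3 lam hlam0 hlam1 C hC hout hwidth hlen hτ0
    (s0 := p * (q - 1) / q - w * ch q)
  have hcompl := compl_winSet_card (K := K) q hqc u p w hup hw0
  have hcardκ : Fintype.card (Fin u × Fin p) = w ^ 2 := by simp [hup]
  -- the mass of S
  have hmass := mass (κ := Fin u × Fin p) q hq3 w (ch q) hcardκ
    (by
      rw [hw]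
      unfold c1
      calc 800 * (q - 1) = 800 * (q - 1) * 1 * 1 := by ring
        _ ≤ 800 * (q - 1) * ct q * k :=
          Nat.mul_le_mul (Nat.mul_le_mul le_rfl (ct_pos hq3)) hk)
    le_rfl S hgood
    ((Nat.mul_le_mul_right _ (by omega)).trans hcompl)
  -- the star inequality in real form
  set D := n / ((q - 1) * τ) + 1 with hDdef
  set G2 : ℝ := (Fintype.card C.G2 : ℝ) with hG2
  set G4 : ℝ := (Fintype.card C.G4 : ℝ) with hG4
  set e0 : ℝ := G2 * 2 ^ k * ((2 * q - 1) / (2 * q) : ℝ) ^ τ * (q : ℝ) ^ (k * b * w ^ 2) with he0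
  have hqR : (3 : ℝ) ≤ q := by exact_mod_cast hq3
  have he00 : 0 ≤ e0 := by
    have : (0 : ℝ) ≤ (2 * q - 1) / (2 * q) := by apply div_nonneg <;> linarith
    positivity
  have hstar' : ∀ ℓ : ℕ, ((univ.filter (fun a : Fin k × Fin b → Bool × S =>
      ∑ t, dg (a t).2.1 ≤ ℓ)).card : ℝ) ≤ e0 + (G4 * subLe D k) *
        cntLe ((Fin k × Fin b) × (Fin u × Fin p)) q (ℓ + k * (2 * ((q - 1) * τ))) := by
    intro ℓ
    obtain ⟨e, he, hcnt⟩ := hstar ℓ
    have h1 : (e : ℝ) ≤ e0 := by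
      have h2 : ((2 * q : ℝ)) ^ τ * e ≤ G2 * (2 ^ k * (2 * q - 1) ^ τ * (q : ℝ) ^ (k * b * w ^ 2)) := by
        rw [hup] at he
        have h3 : (((2 * q) ^ τ * e : ℕ) : ℝ) ≤ ((Fintype.card C.G2 *
          (2 ^ k * (2 * q - 1) ^ τ * q ^ (k * b * w ^ 2)) : ℕ) : ℝ) := by exact_mod_cast he
        push_cast at h3
        rw [Nat.cast_sub (by omega)] at h3
        push_cast at h3
        exact h3
      have h4 : (0 : ℝ) < (2 * q : ℝ) ^ τ := by positivity
      rw [mul_comm] at h2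
      have h5 := (le_div_iff₀ h4).mpr h2
      refine h5.trans (le_of_eq ?_)
      rw [he0, div_pow]
      field_simp
    have h6 : ((univ.filter (fun a : Fin k × Fin b → Bool × S =>
      ∑ t, dg (a t).2.1 ≤ ℓ)).card : ℝ) ≤ (e : ℝ) + (G4 * subLe D k) *
        cntLe ((Fin k × Fin b) × (Fin u × Fin p)) q (ℓ + k * (2 * ((q - 1) * τ))) := by
      have h7 : (((univ.filter (fun a : Fin k × Fin b → Bool × S =>
        ∑ t, dg (a t).2.1 ≤ ℓ)).card : ℕ) : ℝ) ≤ ((e + Fintype.card C.G4 * (subLe D k *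
            cntLe ((Fin k × Fin b) × (Fin u × Fin p)) q (ℓ + k * (2 * ((q - 1) * τ)))) : ℕ) : ℝ) := by
        exact_mod_cast hcnt
      push_cast at h7
      rw [← mul_assoc] at h7
      exact h7
    linarith
  have hgen := gen_ineq (κ := Fin u × Fin p) (T := Fin k × Fin b) q (by omega) S (zz w) (zz_pos w)
    (zz_le_one w) (L0 q (k * b) w) (k * (2 * ((q - 1) * τ))) e0 (G4 * subLe D k) he00
    (by positivity) hstar'
  rw [hcardκ] at hgen
  have hcardT : Fintype.card (Fin k × Fin b) = k * b := by simp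
  rw [hcardT] at hgen
  exact final_real q k b w (k * b) Λ D hq3 hk hb rfl hw hΛ1 hD hΛ G2 G4 (by positivity)
    (by positivity) _ _ (by positivity) hmass hgen

end Vale.P346.FQ
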