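import Vale.Agent.Lib.P346.FQ.GenFun

/-! The mass of the selected good exponent vectors. -/

namespace Vale.P346.FQ

open Finset

lemma gp_pos (q : ℕ) (hq : 1 ≤ q) (z : ℝ) (hz : 0 < z) : 0 < gp q z := by
  unfold gp
  exact Finset.sum_pos (fun j _ => pow_pos hz j) ⟨0, Finset.mem_range.mpr (by omega)⟩

lemma gp_le (q : ℕ) (z : ℝ) (hz : 0 ≤ z) (hz1 : z ≤ 1) : gp q z ≤ q := by
  unfold gp
  calc ∑ j ∈ range q, z ^ j ≤ ∑ _j ∈ range q, (1 : ℝ) :=
        Finset.sum_le_sum (fun j _ => pow_le_one₀ hz hz1)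
    _ = q := by simp

/-- `q · gp(z²) ≤ gp(z)² e^{s²(q-1)²/2}` for `z = e^{-s}` -/
lemma gp_sq (q : ℕ) (hq : 1 ≤ q) (s : ℝ) :
    (q : ℝ) * gp q (Real.exp (-s) ^ 2)
      ≤ gp q (Real.exp (-s)) ^ 2 * Real.exp (s ^ 2 * ((q : ℝ) - 1) ^ 2 / 2) := by
  have h1 := gp_upper q hq (2 * s)
  have h2 := gp_lower q hq s
  have hq0 : (0 : ℝ) < q := by exact_mod_cast hq
  have e1 : Real.exp (-(2 * s)) = Real.exp (-s) ^ 2 := by
    rw [← Real.exp_nat_mul]
    congr 1
    push_cast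
    ring
  rw [e1] at h1
  have h3 : ((q : ℝ) * Real.exp (-(s * ((q : ℝ) - 1) / 2))) ^ 2 ≤ gp q (Real.exp (-s)) ^ 2 :=
    pow_le_pow_left₀ (by positivity) h2 2
  have e2 : ((q : ℝ) * Real.exp (-(s * ((q : ℝ) - 1) / 2))) ^ 2
      = (q : ℝ) ^ 2 * Real.exp (-(2 * s * ((q : ℝ) - 1) / 2)) := by
    rw [mul_pow, ← Real.exp_nat_mul]
    congr 2
    push_cast
    ring
  have e3 : (2 * s) ^ 2 * ((q : ℝ) - 1) ^ 2 / 8 = s ^ 2 * ((q : ℝ) - 1) ^ 2 / 2 := by ring
  rw [e3] at h1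
  calc (q : ℝ) * gp q (Real.exp (-s) ^ 2)
      ≤ (q : ℝ) * ((q : ℝ) * Real.exp (-(2 * s * ((q : ℝ) - 1) / 2)) *
        Real.exp (s ^ 2 * ((q : ℝ) - 1) ^ 2 / 2)) := mul_le_mul_of_nonneg_left h1 hq0.le
    _ = ((q : ℝ) * Real.exp (-(s * ((q : ℝ) - 1) / 2))) ^ 2 *
        Real.exp (s ^ 2 * ((q : ℝ) - 1) ^ 2 / 2) := by rw [e2]; ring
    _ ≤ _ := mul_le_mul_of_nonneg_right h3 (Real.exp_pos _).le

theorem mass {κ : Type} [Fintype κ] [DecidableEq κ] (q : ℕ) (hq : 3 ≤ q) (w h : ℕ)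
    (hw : Fintype.card κ = w ^ 2) (hw' : 800 * (q - 1) ≤ w)
    (hh : 100 * 3 ^ (4 * (q - 1) ^ 2) ≤ h) (S : Finset (κ → Fin q)) (hS : ∀ J ∈ S, Good J)
    (hcard : ((univ.filter (fun J : κ → Fin q => Good J)).card - S.card) * h ^ 2 ≤ q ^ (w ^ 2)) :
    (49 / 50 : ℝ) * gp q (Real.exp (-(4 / w))) ^ (w ^ 2)
      ≤ ∑ J ∈ S, Real.exp (-(4 / w)) ^ dg J := by
  classical
  set z := Real.exp (-(4 / (w : ℝ))) with hz
  have hz0 : 0 < z := Real.exp_pos _
  have hwpos : 0 < w := lt_of_lt_of_le (by omega) hw'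
  have hwR : (0 : ℝ) < w := by exact_mod_cast hwpos
  have hz1 : z ≤ 1 := by
    rw [hz]
    exact Real.exp_le_one_iff.mpr (by have : 0 ≤ 4 / (w : ℝ) := by positivity
                                      linarith)
  set G := gp q z with hG
  have hG0 : 0 < G := gp_pos q (by omega) z hz0
  have hGq : G ≤ q := gp_le q z hz0.le hz1
  have hqR : (3 : ℝ) ≤ q := by exact_mod_cast hq
  have hq1 : ((q - 1 : ℕ) : ℝ) = (q : ℝ) - 1 := by
    rw [Nat.cast_sub (by omega)]
    simp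
  have hwq : 800 * ((q : ℝ) - 1) ≤ w := by
    have : ((800 * (q - 1) : ℕ) : ℝ) ≤ w := by exact_mod_cast hw'
    push_cast at this
    rw [hq1] at this
    exact this
  set ξ := 2 * ((q : ℝ) - 1) / w with hξ
  have hξ0 : 0 < ξ := by
    rw [hξ]
    apply div_pos _ hwR
    linarith
  have hξ1 : ξ ≤ 1 / 400 := by
    rw [hξ, div_le_iff₀ hwR]
    linarith
  set v := Real.exp (-ξ) with hv
  have hv0 : 0 < v := Real.exp_pos _
  have hv1 : v ≤ 1 := Real.exp_le_one_iff.mpr (by linarith)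
  have hzv : z ^ (q - 1) = v ^ 2 := by
    rw [hz, hv, ← Real.exp_nat_mul, ← Real.exp_nat_mul]
    congr 1
    rw [hq1, hξ]
    push_cast
    field_simp
    ring
  -- the exponents that are not good
  have hnot : ∑ J ∈ univ.filter (fun J : κ → Fin q => ¬ Good J), z ^ dg J
      ≤ G ^ (w ^ 2) * (1 / 100) := by
    have h1 := mass_not_good (κ := κ) q hq v hv0 hv1 z hz0 hzv
    rw [hw] at h1
    refine h1.trans ?_
    have h2 : ξ * (400 / 401) ≤ 1 - v := by
      have h3 : v * Real.exp ξ = 1 := by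
        rw [hv, ← Real.exp_add]
        simp
      have h4 : ξ + 1 ≤ Real.exp ξ := Real.add_one_le_exp ξ
      have h5 : v * (ξ + 1) ≤ 1 :=
        (mul_le_mul_of_nonneg_left h4 hv0.le).trans h3.le
      have h6 : v ≤ 1 / (ξ + 1) := by
        rw [le_div_iff₀ (by linarith)]
        exact h5
      have h7 : 1 - 1 / (ξ + 1) = ξ / (ξ + 1) := by
        field_simp
        ring
      have h8 : ξ * (400 / 401) ≤ ξ / (ξ + 1) := by
        rw [le_div_iff₀ (by linarith)]
        nlinarith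
      linarith
    have h3 : (5 : ℝ) ≤ (w : ℝ) ^ 2 * (1 - v) ^ 2 / q := by
      have h4 : (ξ * (400 / 401)) ^ 2 ≤ (1 - v) ^ 2 := pow_le_pow_left₀ (by positivity) h2 2
      have h5 : (w : ℝ) ^ 2 * (ξ * (400 / 401)) ^ 2 = 4 * ((q : ℝ) - 1) ^ 2 * (400 / 401) ^ 2 := by
        rw [hξ]
        field_simp
        ring
      rw [le_div_iff₀ (by linarith)]
      calc (5 : ℝ) * q ≤ 4 * ((q : ℝ) - 1) ^ 2 * (400 / 401) ^ 2 := by nlinarith
        _ = (w : ℝ) ^ 2 * (ξ * (400 / 401)) ^ 2 := h5.symm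
        _ ≤ _ := mul_le_mul_of_nonneg_left h4 (by positivity)
    have h4 : G - (1 - v) ^ 2 ≤ G * Real.exp (-((1 - v) ^ 2 / q)) := by
      have h5 : 1 - (1 - v) ^ 2 / q ≤ Real.exp (-((1 - v) ^ 2 / q)) := by
        have := Real.add_one_le_exp (-((1 - v) ^ 2 / q))
        linarith
      have h6 : G * ((1 - v) ^ 2 / q) ≤ (1 - v) ^ 2 := by
        rw [mul_div_assoc', div_le_iff₀ (by linarith)]
        rw [mul_comm]
        exact mul_le_mul_of_nonneg_left hGq (by positivity)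
      calc G - (1 - v) ^ 2 ≤ G - G * ((1 - v) ^ 2 / q) := by linarith
        _ = G * (1 - (1 - v) ^ 2 / q) := by ring
        _ ≤ _ := mul_le_mul_of_nonneg_left h5 hG0.le
    have h0 : 0 ≤ G - (1 - v) ^ 2 := by
      have h7 : 1 + z ^ (q - 1) ≤ G := by
        rw [hG]
        unfold gp
        have h8 : ∑ j ∈ ({0, q - 1} : Finset ℕ), z ^ j ≤ ∑ j ∈ range q, z ^ j := by
          refine Finset.sum_le_sum_of_subset_of_nonneg ?_ (fun j _ _ => (pow_pos hz0 j).le)
          intro j hj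
          simp only [Finset.mem_insert, Finset.mem_singleton] at hj
          rw [Finset.mem_range]
          omega
        rw [Finset.sum_pair (by omega)] at h8
        simpa using h8
      rw [hzv] at h7
      nlinarith
    calc (G - (1 - v) ^ 2) ^ (w ^ 2) ≤ (G * Real.exp (-((1 - v) ^ 2 / q))) ^ (w ^ 2) :=
          pow_le_pow_left₀ h0 h4 _
      _ = G ^ (w ^ 2) * Real.exp (-((w : ℝ) ^ 2 * (1 - v) ^ 2 / q)) := by
          rw [mul_pow, ← Real.exp_nat_mul]
          congr 2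
          push_cast
          ring
      _ ≤ G ^ (w ^ 2) * Real.exp (-5) := by
          refine mul_le_mul_of_nonneg_left (Real.exp_le_exp.mpr (by linarith)) (by positivity)
      _ ≤ G ^ (w ^ 2) * (1 / 100) := by
          refine mul_le_mul_of_nonneg_left ?_ (by positivity)
          have h9 : (100 : ℝ) ≤ Real.exp 5 := by
            have h10 : (2.7 : ℝ) ≤ Real.exp 1 := by linarith [Real.exp_one_gt_d9]
            have h11 : Real.exp 5 = Real.exp 1 ^ 5 := by
              rw [← Real.exp_nat_mul]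
              norm_num
            rw [h11]
            calc (100 : ℝ) ≤ 2.7 ^ 5 := by norm_num
              _ ≤ _ := pow_le_pow_left₀ (by norm_num) h10 5
          rw [Real.exp_neg, inv_eq_one_div]
          exact one_div_le_one_div_of_le (by norm_num) h9
  -- the good exponents outside `S`
  set B := (univ.filter (fun J : κ → Fin q => Good J)) \ S with hB
  have hSsub : S ⊆ univ.filter (fun J : κ → Fin q => Good J) := fun J hJ =>
    Finset.mem_filter.mpr ⟨Finset.mem_univ _, hS J hJ⟩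
  have hBcard : B.card * h ^ 2 ≤ q ^ (w ^ 2) := by
    rw [hB, Finset.card_sdiff_of_subset hSsub]
    exact hcard
  have hmid : ∑ J ∈ B, z ^ dg J ≤ G ^ (w ^ 2) * (1 / 100) := by
    have h1 := mass_le q z hz0 B
    rw [hw] at h1
    have h2 := gp_sq q (by omega) (4 / (w : ℝ))
    have h3 : (0 : ℝ) < h := by
      have : 0 < h := lt_of_lt_of_le (by positivity) hh
      exact_mod_cast this
    have h4 : ((q : ℝ) * gp q (z ^ 2)) ^ (w ^ 2)
        ≤ (G ^ (w ^ 2)) ^ 2 * Real.exp (8 * ((q : ℝ) - 1) ^ 2) := by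
      refine (pow_le_pow_left₀ ?_ h2 (w ^ 2)).trans (le_of_eq ?_)
      · exact mul_nonneg (by linarith) (gp_pos q (by omega) _ (by positivity)).le
      · rw [mul_pow, ← Real.exp_nat_mul]
        congr 1
        · rw [← pow_mul, ← pow_mul, mul_comm]
        · congr 1
          push_cast
          field_simp
          ring
    have h5 : (B.card : ℝ) * (h : ℝ) ^ 2 ≤ (q : ℝ) ^ (w ^ 2) := by exact_mod_cast hBcard
    have h6 : Real.exp (8 * ((q : ℝ) - 1) ^ 2) ≤ ((h : ℝ) / 100) ^ 2 := by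
      have h7 : Real.exp (4 * ((q : ℝ) - 1) ^ 2) ≤ (h : ℝ) / 100 := by
        rw [le_div_iff₀ (by norm_num)]
        have h8 : Real.exp (4 * ((q : ℝ) - 1) ^ 2) = Real.exp 1 ^ (4 * (q - 1) ^ 2) := by
          rw [← Real.exp_nat_mul]
          congr 1
          push_cast
          rw [hq1]
          ring
        have h9 : ((100 * 3 ^ (4 * (q - 1) ^ 2) : ℕ) : ℝ) ≤ h := by exact_mod_cast hh
        push_cast at h9
        rw [h8]
        calc Real.exp 1 ^ (4 * (q - 1) ^ 2) * 100 ≤ 3 ^ (4 * (q - 1) ^ 2) * 100 := by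
              refine mul_le_mul_of_nonneg_right (pow_le_pow_left₀ (Real.exp_pos 1).le ?_ _)
                (by norm_num)
              linarith [Real.exp_one_lt_d9]
          _ ≤ (h : ℝ) := by linarith
      calc Real.exp (8 * ((q : ℝ) - 1) ^ 2) = Real.exp (4 * ((q : ℝ) - 1) ^ 2) ^ 2 := by
            rw [← Real.exp_nat_mul]
            congr 1
            push_cast
            ring
        _ ≤ _ := pow_le_pow_left₀ (Real.exp_pos _).le h7 2
    have h7 : (∑ J ∈ B, z ^ dg J) ^ 2 * (h : ℝ) ^ 2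
        ≤ (G ^ (w ^ 2) * (1 / 100)) ^ 2 * (h : ℝ) ^ 2 := by
      calc (∑ J ∈ B, z ^ dg J) ^ 2 * (h : ℝ) ^ 2
          ≤ ((B.card : ℝ) * gp q (z ^ 2) ^ (w ^ 2)) * (h : ℝ) ^ 2 :=
            mul_le_mul_of_nonneg_right h1 (by positivity)
        _ = ((B.card : ℝ) * (h : ℝ) ^ 2) * gp q (z ^ 2) ^ (w ^ 2) := by ring
        _ ≤ (q : ℝ) ^ (w ^ 2) * gp q (z ^ 2) ^ (w ^ 2) :=
            mul_le_mul_of_nonneg_right h5
              (pow_nonneg (gp_pos q (by omega) _ (by positivity)).le _)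
        _ = ((q : ℝ) * gp q (z ^ 2)) ^ (w ^ 2) := by rw [mul_pow]
        _ ≤ (G ^ (w ^ 2)) ^ 2 * Real.exp (8 * ((q : ℝ) - 1) ^ 2) := h4
        _ ≤ (G ^ (w ^ 2)) ^ 2 * ((h : ℝ) / 100) ^ 2 :=
            mul_le_mul_of_nonneg_left h6 (by positivity)
        _ = _ := by ring
    have h8 := le_of_mul_le_mul_right h7 (by positivity)
    exact le_of_sq_le_sq h8 (by positivity)
  -- total
  have htot : ∑ J : κ → Fin q, z ^ dg J = G ^ (w ^ 2) := by
    rw [sum_all, hw]
  have hsplit : ∑ J : κ → Fin q, z ^ dg J = ∑ J ∈ S, z ^ dg J + ∑ J ∈ B, z ^ dg J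
      + ∑ J ∈ univ.filter (fun J : κ → Fin q => ¬ Good J), z ^ dg J := by
    rw [← Finset.sum_filter_add_sum_filter_not univ (fun J : κ → Fin q => Good J)]
    congr 1
    rw [add_comm, hB]
    exact (Finset.sum_sdiff hSsub).symm
  rw [htot] at hsplit
  linarith

end Vale.P346.FQ
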