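import Vale.Agent.Lib.P346.FQ.VBasic

/-! Coefficients of low degree of a product of many polynomials. -/

namespace Vale.P346.FQ

open MvPolynomial Finset

/-- a product of `s` polynomials without constant term has no terms of degree `< s` -/
lemma coeff_prod_eq_zero {R Y α : Type} [CommRing R] (s : Finset α) (H : α → MvPolynomial Y R)
    (hH : ∀ a ∈ s, (H a).coeff 0 = 0) :
    ∀ β : Y →₀ ℕ, β.degree < s.card → (∏ a ∈ s, H a).coeff β = 0 := by
  classical
  induction s using Finset.induction_on with
  | empty => intro β hβ; simp at hβ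
  | insert a s ha ih =>
    intro β hβ
    rw [Finset.card_insert_of_notMem ha] at hβ
    rw [Finset.prod_insert ha, coeff_mul]
    refine Finset.sum_eq_zero fun x hx => ?_
    have hx' := Finset.HasAntidiagonal.mem_antidiagonal.mp hx
    have hdeg : x.1.degree + x.2.degree = β.degree := by
      rw [← hx', map_add]
    by_cases h0 : x.1 = 0
    · rw [h0, hH a (Finset.mem_insert_self a s), zero_mul]
    · have h1 : x.1.degree ≠ 0 := fun h => h0 ((Finsupp.degree_eq_zero_iff _).mp h)
      rw [ih (fun b hb => hH b (Finset.mem_insert_of_mem hb)) x.2 (by omega), mul_zero]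

lemma finrank_finset_sup_le {K W α : Type} [Field K] [AddCommGroup W] [Module K W]
    [FiniteDimensional K W] (s : Finset α) (U : α → Submodule K W) (r : ℕ)
    (hU : ∀ a ∈ s, Module.finrank K (U a) ≤ r) :
    Module.finrank K (s.sup U : Submodule K W) ≤ s.card * r := by
  classical
  induction s using Finset.induction_on with
  | empty => simp
  | insert a s ha ih =>
    rw [Finset.sup_insert, Finset.card_insert_of_notMem ha, Nat.succ_mul]
    have h1 := Submodule.finrank_add_le_finrank_add_finrank (U a) (s.sup U)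
    have h2 := ih (fun b hb => hU b (Finset.mem_insert_of_mem hb))
    have h3 := hU a (Finset.mem_insert_self a s)
    omega

theorem product_rule {K ι Y : Type} [Field K] [Fintype K] [Fintype ι] {D T : ℕ} (k ℓ : ℕ)
    (G : Fin D → MvPolynomial Y ((ι → K) → K)) (hG : ∀ i, XDeg T (G i)) :
    ∃ U : Submodule K ((ι → K) → K),
      Module.finrank K U ≤ subLe D k * Module.finrank K (V K ι (ℓ + k * T)) ∧
      ∀ α : Y →₀ ℕ, α.degree ≤ k → ∀ h ∈ V K ι ℓ, (∏ i, G i).coeff α * h ∈ U := by
  classical
  set c : Fin D → (ι → K) → K := fun i => (G i).coeff 0 with hc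
  set H : Fin D → MvPolynomial Y ((ι → K) → K) := fun i => G i - C (c i) with hH
  have hHX : ∀ i, XDeg T (H i) := by
    intro i α
    rw [hH]
    dsimp only
    rw [coeff_sub]
    exact (V K ι T).sub_mem (hG i α) (XDeg_C (hG i 0) α)
  have hH0 : ∀ i, (H i).coeff 0 = 0 := by
    intro i
    rw [hH]
    dsimp only
    rw [coeff_sub, coeff_C, if_pos rfl, sub_self]
  set P : Finset (Finset (Fin D)) := univ.filter (fun S => S.card ≤ k) with hP
  set W : Finset (Fin D) → Submodule K ((ι → K) → K) := fun S =>
    (V K ι (ℓ + k * T)).map (LinearMap.mulLeft K (∏ i ∈ Sᶜ, c i)) with hW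
  have hcardP : P.card = subLe D k := by
    have h1 : P = (range (k + 1)).biUnion (fun i => (univ : Finset (Fin D)).powersetCard i) := by
      ext S
      simp [hP, Finset.mem_powersetCard]
    rw [h1, Finset.card_biUnion, subLe]
    · refine Finset.sum_congr rfl (fun i _ => ?_)
      rw [Finset.card_powersetCard, Finset.card_univ, Fintype.card_fin]
    · intro i _ j _ hij
      rw [Function.onFun, Finset.disjoint_left]
      intro S hS hS'
      rw [Finset.mem_powersetCard] at hS hS'
      exact hij (hS.2.symm.trans hS'.2)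
  refine ⟨P.sup W, ?_, ?_⟩
  · rw [← hcardP]
    exact finrank_finset_sup_le P W _ fun S _ => Submodule.finrank_map_le _ _
  · intro α hα h hh
    have hprod : ∏ i, G i = ∑ S ∈ (univ : Finset (Fin D)).powerset,
        (∏ i ∈ S, H i) * ∏ i ∈ univ \ S, C (c i) := by
      rw [← Finset.prod_add]
      refine Finset.prod_congr rfl fun i _ => ?_
      rw [hH]; ring
    rw [hprod, coeff_sum, Finset.sum_mul]
    refine Submodule.sum_mem _ fun S _ => ?_
    have hCp : ∏ i ∈ univ \ S, (C (c i) : MvPolynomial Y ((ι → K) → K)) = C (∏ i ∈ Sᶜ, c i) := by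
      rw [← Finset.compl_eq_univ_sdiff, map_prod]
    rw [hCp, mul_comm (∏ i ∈ S, H i) (C (∏ i ∈ Sᶜ, c i)), coeff_C_mul]
    by_cases hS : S.card ≤ k
    · have hle : W S ≤ P.sup W := Finset.le_sup (f := W) (by
        rw [hP, Finset.mem_filter]; exact ⟨Finset.mem_univ _, hS⟩)
      apply hle
      rw [hW]
      refine Submodule.mem_map.mpr ⟨(∏ i ∈ S, H i).coeff α * h, ?_, ?_⟩
      · have h1 : (∏ i ∈ S, H i).coeff α ∈ V K ι (∑ i ∈ S, T) :=
          XDeg_prod S (fun _ => T) H (fun i _ => hHX i) α
        rw [Finset.sum_const, smul_eq_mul] at h1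
        have h2 := V_mul h1 hh
        refine V_mono ?_ h2
        have : S.card * T ≤ k * T := Nat.mul_le_mul_right T hS
        omega
      · rw [LinearMap.mulLeft_apply]
        ring
    · rw [coeff_prod_eq_zero S H (fun i _ => hH0 i) α (by omega), mul_zero, zero_mul]
      exact Submodule.zero_mem _

end Vale.P346.FQ
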