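import Vale.Agent.Lib.P346.FQ.Bottom
import Vale.Agent.Lib.P346.FQ.Group
import Vale.Agent.Lib.P346.FQ.ProductRule

/-! The space of coefficients of a homogeneous depth-five circuit. -/

namespace Vale.P346.FQ

open MvPolynomial Finset

section

variable {K ι Y W : Type} [Field K] [Fintype K] [Fintype ι] [Fintype Y]

omit [Fintype K] [Fintype ι] [Fintype Y] in
lemma algebraMap_C (c : K) :
    algebraMap K (MvPolynomial Y ((ι → K) → K)) c = C (fun _ => c) := rfl

/-- the images of the gates -/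
noncomputable def im1 (C : Circuit K W) (v : W → MvPolynomial Y ((ι → K) → K)) (g : C.G1) :
    MvPolynomial Y ((ι → K) → K) :=
  eval₂ (algebraMap K (MvPolynomial Y ((ι → K) → K))) v (C.val1 g)

omit [Fintype K] [Fintype ι] in
lemma affLin_im1 (C : Circuit K W) (v : W → MvPolynomial Y ((ι → K) → K))
    (hv : ∀ a, AffLin (v a)) (g : C.G1) : AffLin (im1 C v g) := by
  unfold im1 Circuit.val1
  rw [eval₂_sum]
  refine AffLin_sum _ _ (fun i _ => ?_)
  rw [eval₂_mul, eval₂_C, algebraMap_C]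
  refine AffLin.smul _ ?_
  unfold Circuit.val0
  rcases C.leaf i with a | r
  · simpa using hv a
  · simp only [Sum.elim_inr, eval₂_C, algebraMap_C]
    exact AffLin_C (V_const 1 r)

omit [Fintype K] [Fintype ι] in
lemma xdeg_im1 (C : Circuit K W) (v : W → MvPolynomial Y ((ι → K) → K))
    (hv : ∀ a, AffLin (v a)) (d1 : C.G1 → ℕ)
    (h1 : ∀ g, ∀ i ∈ C.in1 g, C.deg0 i = d1 g) (g : C.G1) : XDeg (d1 g) (im1 C v g) := by
  rcases Nat.eq_zero_or_pos (d1 g) with h0 | hpos
  · unfold im1 Circuit.val1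
    rw [eval₂_sum]
    refine XDeg_sum _ _ (fun i hi => ?_)
    rw [eval₂_mul, eval₂_C, algebraMap_C]
    have hd := h1 g i hi
    rw [h0] at hd ⊢
    have h2 := (XDeg_C (Y := Y) (V_const (ι := ι) 0 (C.c1 g i)))
    unfold Circuit.deg0 at hd
    unfold Circuit.val0
    rcases h : C.leaf i with a | r
    · rw [h] at hd
      simp at hd
    · simp only [Sum.elim_inr, eval₂_C, algebraMap_C]
      simpa using h2.mul (XDeg_C (Y := Y) (V_const (ι := ι) 0 r))
  · exact (affLin_im1 C v hv g).xdeg.mono hpos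

/-- The space of coefficients. -/
theorem circuit_space [DecidableEq ι] (C : Circuit K W) (n : ℕ) (d1 : C.G1 → ℕ) (d3 : C.G3 → ℕ)
    (h1 : ∀ g, ∀ i ∈ C.in1 g, C.deg0 i = d1 g)
    (h3 : ∀ g, ∀ i ∈ C.in3 g, ∑ j, C.m2 i j * d1 j = d3 g)
    (h5 : ∀ i ∈ C.in5, ∑ j, C.m4 i j * d3 j = n)
    (v : W → MvPolynomial Y ((ι → K) → K)) (hv : ∀ a, AffLin (v a)) (τ k ℓ : ℕ) (hτ : 0 < τ)
    (hq : 2 ≤ Fintype.card K) :
    ∃ (E : Finset (ι → K)) (U : Submodule K ((ι → K) → K)),
      (2 * Fintype.card K) ^ τ * E.card ≤ Fintype.card C.G2 *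
        (2 ^ k * (2 * Fintype.card K - 1) ^ τ * Fintype.card K ^ Fintype.card ι) ∧
      Module.finrank K U ≤ Fintype.card C.G4 *
        (subLe (n / ((Fintype.card K - 1) * τ) + 1) k *
          Module.finrank K (V K ι (ℓ + k * (2 * ((Fintype.card K - 1) * τ))))) ∧
      ∀ α : Y →₀ ℕ, α.degree ≤ k → ∀ h ∈ V K ι ℓ, ∃ u ∈ U, ∀ x, x ∉ E →
        u x = (eval₂ (algebraMap K (MvPolynomial Y ((ι → K) → K))) v C.out).coeff α x * h x := by
  classical
  set q := Fintype.card K with hqdef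
  set T := (q - 1) * τ with hT
  have hTpos : 0 < T := Nat.mul_pos (by omega) hτ
  -- bottom products
  set P2 : C.G2 → MvPolynomial Y ((ι → K) → K) := fun i => ∏ j, im1 C v j ^ C.m2 i j with hP2
  have hP2deg : ∀ i, XDeg (∑ j, C.m2 i j * d1 j) (P2 i) := fun i =>
    XDeg_prod univ _ _ (fun j _ => (xdeg_im1 C v hv d1 h1 j).pow (C.m2 i j))
  -- their approximations
  have happ : ∀ i : C.G2, ∃ (Q : MvPolynomial Y ((ι → K) → K)) (E : Finset (ι → K)),
      XDeg T Q ∧ (∑ j, C.m2 i j * d1 j ≤ T → Q = P2 i) ∧ (∀ x, x ∉ E → AgreeAt k x (P2 i) Q) ∧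
      (2 * q) ^ τ * E.card ≤ 2 ^ k * (2 * q - 1) ^ τ * q ^ Fintype.card ι := by
    intro i
    by_cases hle : ∑ j, C.m2 i j * d1 j ≤ T
    · exact ⟨P2 i, ∅, (hP2deg i).mono hle, fun _ => rfl, fun x _ => AgreeAt.refl _ _ _, by simp⟩
    · rcases bottom (C.m2 i) (im1 C v) (affLin_im1 C v hv) τ k with h | ⟨E, hE1, hE2⟩
      · exact ⟨P2 i, ∅, h, fun _ => rfl, fun x _ => AgreeAt.refl _ _ _, by simp⟩
      · exact ⟨0, E, XDeg_zero T, fun h => absurd h hle, hE1, hE2⟩
  choose Q2 E2 hQ2deg hQ2eq hQ2agree hE2 using happ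
  -- middle sums
  set P3 : C.G3 → MvPolynomial Y ((ι → K) → K) := fun g => ∑ i ∈ C.in3 g, MvPolynomial.C (fun _ => C.c3 g i) * P2 i with hP3
  set Q3 : C.G3 → MvPolynomial Y ((ι → K) → K) := fun g => ∑ i ∈ C.in3 g, MvPolynomial.C (fun _ => C.c3 g i) * Q2 i with hQ3
  have hQ3deg : ∀ g, XDeg (min (d3 g) T) (Q3 g) := by
    intro g
    refine XDeg_sum _ _ (fun i hi => ?_)
    have h2 : XDeg (min (d3 g) T) (Q2 i) := by
      rcases le_total (d3 g) T with h | h
      · rw [min_eq_left h, hQ2eq i (by rw [h3 g i hi]; exact h), ← h3 g i hi]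
        exact hP2deg i
      · rw [min_eq_right h]
        exact hQ2deg i
    have h4 := (XDeg_C (Y := Y) (V_const (ι := ι) 0 (C.c3 g i))).mul h2
    simpa using h4
  -- top products
  set P4 : C.G4 → MvPolynomial Y ((ι → K) → K) := fun i => ∏ g, P3 g ^ C.m4 i g with hP4
  set Q4 : C.G4 → MvPolynomial Y ((ι → K) → K) := fun i => ∏ g, Q3 g ^ C.m4 i g with hQ4
  have hU : ∀ i : C.G4, ∃ U : Submodule K ((ι → K) → K),
      Module.finrank K U ≤ subLe (n / T + 1) k * Module.finrank K (V K ι (ℓ + k * (2 * T))) ∧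
      (i ∈ C.in5 → ∀ α : Y →₀ ℕ, α.degree ≤ k → ∀ h ∈ V K ι ℓ, (Q4 i).coeff α * h ∈ U) := by
    intro i
    by_cases hi : i ∈ C.in5
    · have hsum : ∑ g, C.m4 i g * min (d3 g) T ≤ n := by
        rw [← h5 i hi]
        exact Finset.sum_le_sum (fun g _ => Nat.mul_le_mul_left _ (min_le_left _ _))
      obtain ⟨G, hG1, hG2⟩ := group T n hTpos (C.m4 i) (fun g => min (d3 g) T) Q3 hQ3deg
        (fun g => min_le_right _ _) hsum
      obtain ⟨U, hU1, hU2⟩ := product_rule k ℓ G hG1
      refine ⟨U, hU1, fun _ α hα h hh => ?_⟩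
      have : Q4 i = ∏ i, G i := hG2
      rw [this]
      exact hU2 α hα h hh
    · exact ⟨⊥, by simp, fun h => absurd h hi⟩
  choose U hU1 hU2 using hU
  -- the exceptional set and the space
  refine ⟨univ.biUnion E2, ∑ i, U i, ?_, ?_, ?_⟩
  · calc (2 * q) ^ τ * (univ.biUnion E2).card ≤ (2 * q) ^ τ * ∑ i, (E2 i).card :=
          Nat.mul_le_mul_left _ Finset.card_biUnion_le
      _ = ∑ i, (2 * q) ^ τ * (E2 i).card := Finset.mul_sum _ _ _
      _ ≤ ∑ _i : C.G2, 2 ^ k * (2 * q - 1) ^ τ * q ^ Fintype.card ι :=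
          Finset.sum_le_sum (fun i _ => hE2 i)
      _ = _ := by simp
  · have hfin : ∀ s : Finset C.G4, Module.finrank K ↥(∑ i ∈ s, U i)
        ≤ ∑ i ∈ s, Module.finrank K (U i) := by
      intro s
      induction s using Finset.induction_on with
      | empty =>
        rw [Finset.sum_empty, Finset.sum_empty]
        exact (finrank_bot K ((ι → K) → K)).le
      | insert a s ha ih =>
        rw [Finset.sum_insert ha, Finset.sum_insert ha]
        exact (Submodule.finrank_add_le_finrank_add_finrank _ _).trans (by omega)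
    refine (hfin univ).trans ?_
    calc ∑ i, Module.finrank K (U i)
        ≤ ∑ _i : C.G4, subLe (n / T + 1) k * Module.finrank K (V K ι (ℓ + k * (2 * T))) :=
          Finset.sum_le_sum (fun i _ => hU1 i)
      _ = _ := by simp
  · intro α hα h hh
    refine ⟨(∑ i ∈ C.in5, MvPolynomial.C (fun _ => C.c5 i) * Q4 i).coeff α * h, ?_, ?_⟩
    · rw [coeff_sum, Finset.sum_mul]
      refine Submodule.sum_mem _ (fun i hi => ?_)
      rw [coeff_C_mul]
      have h6 : (fun _ : ι → K => C.c5 i) * coeff α (Q4 i) * h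
          = (C.c5 i) • (coeff α (Q4 i) * h) := by
        funext x
        simp [mul_assoc]
      rw [h6]
      refine Submodule.smul_mem _ _ ?_
      have h7 : U i ≤ ∑ i, U i :=
        Finset.single_le_sum_of_canonicallyOrdered (Finset.mem_univ i)
      exact h7 (hU2 i hi α hα h hh)
    · intro x hx
      rw [Finset.mem_biUnion, not_exists] at hx
      have hx2 : ∀ i, AgreeAt k x (P2 i) (Q2 i) := fun i =>
        hQ2agree i x (fun hxi => hx i ⟨Finset.mem_univ i, hxi⟩)
      have hx3 : ∀ g, AgreeAt k x (P3 g) (Q3 g) := fun g =>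
        AgreeAt_sum _ _ _ (fun i _ => (AgreeAt.refl k x _).mul (hx2 i))
      have hx4 : ∀ i, AgreeAt k x (P4 i) (Q4 i) := fun i =>
        AgreeAt_prod _ _ _ (fun g _ => (hx3 g).pow _)
      have hx5 : AgreeAt k x (∑ i ∈ C.in5, MvPolynomial.C (fun _ => C.c5 i) * P4 i)
          (∑ i ∈ C.in5, MvPolynomial.C (fun _ => C.c5 i) * Q4 i) :=
        AgreeAt_sum _ _ _ (fun i _ => (AgreeAt.refl k x _).mul (hx4 i))
      have hout : eval₂ (algebraMap K (MvPolynomial Y ((ι → K) → K))) v C.out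
          = ∑ i ∈ C.in5, MvPolynomial.C (fun _ => C.c5 i) * P4 i := by
        unfold Circuit.out
        rw [eval₂_sum]
        refine Finset.sum_congr rfl (fun i _ => ?_)
        rw [eval₂_mul, eval₂_C, algebraMap_C]
        congr 1
        unfold Circuit.val4
        rw [eval₂_prod]
        refine Finset.prod_congr rfl (fun g _ => ?_)
        rw [eval₂_pow]
        congr 1
        unfold Circuit.val3
        rw [eval₂_sum]
        refine Finset.sum_congr rfl (fun j _ => ?_)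
        rw [eval₂_mul, eval₂_C, algebraMap_C]
        congr 1
        unfold Circuit.val2
        rw [eval₂_prod]
        refine Finset.prod_congr rfl (fun l _ => ?_)
        rw [eval₂_pow]
        rfl
      rw [hout, Pi.mul_apply, hx5 α hα]

end

end Vale.P346.FQ
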