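import Vale.Agent.Lib.P346.FQ.AbpFQ
import Vale.Agent.Lib.P346.Embed

/-! The substitution into `IMM_{n,n}`. -/

namespace Vale.P346.FQ

open Finset MvPolynomial

/-! ### Evaluating `IMM` and padding -/

lemma eval_IMM' {R A : Type} [CommRing R] [CommRing A] (φ : R →+* A) {w d : ℕ} (hw : 0 < w)
    (v : Var w d → A) :
    eval₂ φ v (IMM R w d) = (List.ofFn (fun t : Fin d =>
      (Matrix.of fun i j => v (t, i, j) : Matrix (Fin w) (Fin w) A))).prod
        ⟨0, hw⟩ ⟨0, hw⟩ := by
  rw [prod_ofFn_apply, IMM, eval₂_sum, Finset.sum_filter]
  refine Finset.sum_congr rfl (fun i _ => ?_)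
  by_cases h : (i 0 : ℕ) = 0 ∧ (i (Fin.last d) : ℕ) = 0
  · rw [if_pos h, if_pos ⟨Fin.ext h.1, Fin.ext h.2⟩, eval₂_prod]
    refine Finset.prod_congr rfl (fun t _ => ?_)
    rw [eval₂_X]
    rfl
  · rw [if_neg h, if_neg]
    rintro ⟨h1, h2⟩
    exact h ⟨by rw [h1], by rw [h2]⟩

lemma prod_ofFn_getD' {M : Type} [Monoid M] : ∀ (n : ℕ) (L : List M), L.length ≤ n →
    (List.ofFn (fun t : Fin n => L.getD t.val 1)).prod = L.prod := by
  intro n
  induction n with
  | zero =>
    intro L hL
    have : L = [] := List.eq_nil_of_length_eq_zero (by omega)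
    subst this
    simp
  | succ n ih =>
    intro L hL
    rw [List.ofFn_succ, List.prod_cons]
    cases L with
    | nil => simp
    | cons a L' =>
      have := ih L' (by simpa using hL)
      simp only [List.prod_cons]
      rw [← this]
      rfl

section embed

variable {S R : Type} [Fintype S] [DecidableEq S] [CommRing R] {n m : ℕ}

/-- the embedding of matrices indexed by `S` into `n × n` matrices -/
def embS (e : S ⊕ Fin m ≃ Fin n) (M : Matrix S S R) : Matrix (Fin n) (Fin n) R :=
  Matrix.reindex e e (Matrix.fromBlocks M 0 0 1)

lemma embS_one (e : S ⊕ Fin m ≃ Fin n) : embS e (1 : Matrix S S R) = 1 := by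
  rw [embS, Matrix.fromBlocks_one]
  simp

lemma embS_mul (e : S ⊕ Fin m ≃ Fin n) (M N : Matrix S S R) :
    embS e (M * N) = embS e M * embS e N := by
  rw [embS, embS, embS]
  simp only [Matrix.reindex_apply]
  rw [Matrix.submatrix_mul_equiv, Matrix.fromBlocks_multiply]
  simp

lemma embS_prod (e : S ⊕ Fin m ≃ Fin n) (L : List (Matrix S S R)) :
    embS e L.prod = (L.map (embS e)).prod := by
  induction L with
  | nil => simp [embS_one]
  | cons M L ih => rw [List.prod_cons, embS_mul, ih, List.map_cons, List.prod_cons]

lemma embS_hub (e : S ⊕ Fin m ≃ Fin n) (M : Matrix S S R) (s s' : S) :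
    embS e M (e (Sum.inl s)) (e (Sum.inl s')) = M s s' := by
  simp [embS]

lemma exists_equivS (s : S) (h : Fintype.card S + m = n) (hn : 0 < n) :
    ∃ e : S ⊕ Fin m ≃ Fin n, e (Sum.inl s) = ⟨0, hn⟩ := by
  have hcard : Fintype.card (S ⊕ Fin m) = Fintype.card (Fin n) := by
    simp only [Fintype.card_sum, Fintype.card_fin]
    exact h
  let e0 := Fintype.equivOfCardEq hcard
  exact ⟨e0.trans (Equiv.swap (e0 (Sum.inl s)) ⟨0, hn⟩), by simp⟩

end embed

lemma embS_aff {S K ι Y : Type} [Fintype S] [DecidableEq S] [Field K] [Fintype Y]
    {n m : ℕ} (e : S ⊕ Fin m ≃ Fin n) (M : Matrix S S (MvPolynomial Y ((ι → K) → K)))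
    (hM : ∀ s s', AffLin (M s s')) (i j : Fin n) : AffLin (embS e M i j) := by
  rw [embS, Matrix.reindex_apply, Matrix.submatrix_apply]
  rcases e.symm i with s | a <;> rcases e.symm j with s' | a'
  · exact hM s s'
  · exact AffLin_zero
  · exact AffLin_zero
  · rw [Matrix.fromBlocks_apply₂₂, Matrix.one_apply]
    split_ifs
    · exact AffLin_one
    · exact AffLin_zero

/-! ### The matrices of the substitution -/

section mats

variable {p : ℕ} {B A R : Type} [Fintype B] [DecidableEq B] [CommRing A] [CommRing R]

/-- block diagonal extension: in the blocks where `c` is true we use `M`, otherwise the identity -/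
def lft (c : B → Bool) (σ : A →+* R) (M : Matrix (St p) (St p) A) :
    Matrix (St p × B) (St p × B) R :=
  Matrix.blockDiagonal (fun a : B => if c a then M.map σ else 1)

lemma lft_one (c : B → Bool) (σ : A →+* R) :
    lft c σ (1 : Matrix (St p) (St p) A) = 1 := by
  have h : (fun a : B => if c a then (1 : Matrix (St p) (St p) A).map σ
      else (1 : Matrix (St p) (St p) R)) = 1 := by
    funext a
    rw [Matrix.map_one σ (map_zero σ) (map_one σ), ite_self]
    rfl
  rw [lft, h, Matrix.blockDiagonal_one]

lemma lft_mul (c : B → Bool) (σ : A →+* R) (M N : Matrix (St p) (St p) A) :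
    lft c σ (M * N) = lft c σ M * lft c σ N := by
  rw [lft, lft, lft, ← Matrix.blockDiagonal_mul]
  congr 1
  funext a
  split_ifs
  · exact Matrix.map_mul
  · rw [one_mul]

lemma lft_prod (c : B → Bool) (σ : A →+* R) (L : List (Matrix (St p) (St p) A)) :
    lft c σ L.prod = (L.map (lft c σ)).prod := by
  induction L with
  | nil => simp [lft_one]
  | cons M L ih => rw [List.prod_cons, lft_mul, ih, List.map_cons, List.prod_cons]

/-- the rows of the hubs are concentrated on the diagonal -/
def RegRow (M : Matrix (St p × B) (St p × B) R) (w : B → R) : Prop :=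
  ∀ (a : B) (s' : St p × B), M (none, a) s' = if s' = (none, a) then w a else 0

lemma RegRow.mul {M N : Matrix (St p × B) (St p × B) R} {w v : B → R} (hM : RegRow M w)
    (hN : RegRow N v) : RegRow (M * N) (fun a => w a * v a) := by
  intro a s'
  rw [Matrix.mul_apply, Finset.sum_eq_single ((none : St p), a)]
  · rw [hM, if_pos rfl, hN]
    split_ifs
    · rfl
    · rw [mul_zero]
  · intro s _ hs
    rw [hM, if_neg hs, zero_mul]
  · intro h
    exact absurd (Finset.mem_univ _) h

lemma regRow_one : RegRow (1 : Matrix (St p × B) (St p × B) R) (fun _ => 1) := by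
  intro a s'
  rw [Matrix.one_apply]
  by_cases h : s' = ((none : St p), a)
  · rw [if_pos h.symm, if_pos h]
  · rw [if_neg (fun h' => h h'.symm), if_neg h]

lemma regRow_lft (c : B → Bool) (σ : A →+* R) {M : Matrix (St p) (St p) A} {w : A}
    (hM : HubRow M w) : RegRow (lft c σ M) (fun a => if c a then σ w else 1) := by
  rintro a ⟨s', a'⟩
  rw [lft, Matrix.blockDiagonal_apply]
  by_cases ha : a = a'
  · subst ha
    rw [if_pos rfl]
    rcases s' with _ | q
    · rw [if_pos rfl]
      by_cases hc : c a = true
      · simp only [hc, if_true]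
        rw [Matrix.map_apply, hM.1]
      · simp only [hc]
        exact Matrix.one_apply_eq _
    · have hne : ((some q : St p), a) ≠ (none, a) := by
        intro h
        have := congrArg Prod.fst h
        simp at this
      rw [if_neg hne]
      by_cases hc : c a = true
      · simp only [hc, if_true]
        rw [Matrix.map_apply, hM.2, map_zero]
      · simp only [hc]
        exact Matrix.one_apply_ne (by simp)
  · rw [if_neg ha, if_neg]
    intro h
    exact ha (congrArg Prod.snd h).symm

lemma regRow_flatMap {α : Type} (l : List α) (f : α → List (Matrix (St p × B) (St p × B) R))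
    (w : α → B → R) (h : ∀ x ∈ l, RegRow (f x).prod (w x)) :
    RegRow ((l.flatMap f).prod) (fun a => (l.map (fun x => w x a)).prod) := by
  induction l with
  | nil =>
    simp only [List.flatMap_nil, List.prod_nil, List.map_nil]
    exact regRow_one
  | cons x l ih =>
    rw [List.flatMap_cons, List.prod_append]
    simp only [List.map_cons, List.prod_cons]
    exact (h x (List.mem_cons_self)).mul (ih (fun y hy => h y (List.mem_cons_of_mem _ hy)))

/-- the row of the main hub is concentrated -/
def TopRow (a0 : B) (M : Matrix (St p × B) (St p × B) R) (w : R) : Prop :=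
  ∀ s' : St p × B, M (none, a0) s' = if s' = (none, a0) then w else 0

lemma TopRow.mul {a0 : B} {M N : Matrix (St p × B) (St p × B) R} {w v : R}
    (hM : TopRow a0 M w) (hN : TopRow a0 N v) : TopRow a0 (M * N) (w * v) := by
  intro s'
  rw [Matrix.mul_apply, Finset.sum_eq_single ((none : St p), a0)]
  · rw [hM, if_pos rfl, hN]
    split_ifs
    · rfl
    · rw [mul_zero]
  · intro s _ hs
    rw [hM, if_neg hs, zero_mul]
  · intro h
    exact absurd (Finset.mem_univ _) h

lemma topRow_one (a0 : B) : TopRow a0 (1 : Matrix (St p × B) (St p × B) R) 1 := by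
  intro s'
  rw [Matrix.one_apply]
  by_cases h : s' = ((none : St p), a0)
  · rw [if_pos h.symm, if_pos h]
  · rw [if_neg (fun h' => h h'.symm), if_neg h]

lemma topRow_flatMap {α : Type} (a0 : B) (l : List α)
    (f : α → List (Matrix (St p × B) (St p × B) R))
    (w : α → R) (h : ∀ x ∈ l, TopRow a0 (f x).prod (w x)) :
    TopRow a0 ((l.flatMap f).prod) ((l.map w).prod) := by
  induction l with
  | nil =>
    simp only [List.flatMap_nil, List.prod_nil, List.map_nil]
    exact topRow_one a0
  | cons x l ih =>
    rw [List.flatMap_cons, List.prod_append, List.map_cons, List.prod_cons]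
    exact (h x (List.mem_cons_self)).mul (ih (fun y hy => h y (List.mem_cons_of_mem _ hy)))

/-- from the main hub to all hubs, with weights `y` -/
def spread (a0 : B) (y : B → R) : Matrix (St p × B) (St p × B) R :=
  Matrix.of fun s s' => if s = (none, a0) ∧ s'.1 = none then y s'.2 else 0

/-- from all hubs to the main hub -/
def collect (a0 : B) : Matrix (St p × B) (St p × B) R :=
  Matrix.of fun s s' => if s.1 = none ∧ s' = (none, a0) then 1 else 0

lemma topRow_group (a0 : B) (y : B → R) {M : Matrix (St p × B) (St p × B) R} {w : B → R}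
    (hM : RegRow M w) : TopRow a0 (spread a0 y * M * collect a0) (∑ a, y a * w a) := by
  have h1 : ∀ s' : St p × B, (spread a0 y * M : Matrix (St p × B) (St p × B) R) (none, a0) s'
      = if s'.1 = none then y s'.2 * w s'.2 else 0 := by
    intro s'
    rw [Matrix.mul_apply, Fintype.sum_prod_type, Finset.sum_eq_single (none : St p)]
    · have h2 : ∀ a : B, (spread (p := p) a0 y) (none, a0) (none, a) * M (none, a) s'
          = if s' = (none, a) then y a * w a else 0 := by
        intro a
        rw [hM]
        simp [spread]
      rw [Finset.sum_congr rfl (fun a _ => h2 a)]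
      obtain ⟨s1, s2⟩ := s'
      rcases s1 with _ | q
      · rw [Finset.sum_eq_single s2]
        · simp
        · intro a _ ha
          rw [if_neg]
          intro h
          exact ha (congrArg Prod.snd h).symm
        · intro h
          exact absurd (Finset.mem_univ _) h
      · rw [Finset.sum_eq_zero]
        · simp
        · intro a _
          rw [if_neg]
          intro h
          have := congrArg Prod.fst h
          simp at this
    · intro s _ hs
      refine Finset.sum_eq_zero (fun a _ => ?_)
      simp [spread, hs]
    · intro h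
      exact absurd (Finset.mem_univ _) h
  intro s'
  rw [Matrix.mul_apply]
  have h3 : ∀ s : St p × B, (spread a0 y * M : Matrix (St p × B) (St p × B) R) (none, a0) s * (collect a0 : Matrix (St p × B) (St p × B) R) s s'
      = if s.1 = none then (if s' = (none, a0) then y s.2 * w s.2 else 0) else 0 := by
    intro s
    rw [h1]
    by_cases hs : s.1 = none
    · by_cases hs' : s' = (none, a0)
      · simp [collect, hs, hs']
      · simp [collect, hs, hs']
    · simp [hs]
  rw [Finset.sum_congr rfl (fun s _ => h3 s), Fintype.sum_prod_type,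
    Finset.sum_eq_single (none : St p)]
  · simp only [if_true]
    by_cases hs' : s' = ((none : St p), a0)
    · simp [hs']
    · simp [hs']
  · intro s _ hs
    refine Finset.sum_eq_zero (fun a _ => ?_)
    rw [if_neg hs]
  · intro h
    exact absurd (Finset.mem_univ _) h

end mats

/-! ### The list of matrices -/

section lists

variable {K : Type} [Field K] {k b u p : ℕ}

/-- the coefficient ring -/
abbrev AA (K : Type) (k b u p : ℕ) : Type := ((Fin k × Fin b) × (Fin u × Fin p) → K) → K

/-- the polynomial ring -/
abbrev RR (K : Type) [Field K] (k b u p : ℕ) : Type :=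
  MvPolynomial (Fin k × (Fin b → Bool)) (AA K k b u p)

/-- functions of a block as constants -/
noncomputable def sg (i : Fin k) (β : Fin b) (π : Fin u) : ((Fin p → K) → K) →+* RR K k b u p where
  toFun g := C (fun x => g (fun j => x ((i, β), (π, j))))
  map_one' := by
    rw [← C_1]
    rfl
  map_mul' g h := by
    rw [← C_mul]
    rfl
  map_zero' := by
    rw [← C_0]
    rfl
  map_add' g h := by
    rw [← C_add]
    rfl

/-- the middle list of the group `i` -/
noncomputable def midL (L : List (Matrix (St p) (St p) ((Fin p → K) → K))) (i : Fin k) :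
    List (Matrix (St p × (Fin b → Bool)) (St p × (Fin b → Bool)) (RR K k b u p)) :=
  (List.finRange b).flatMap (fun β => (List.finRange u).flatMap (fun π =>
    L.map (lft (fun a : Fin b → Bool => a β) (sg i β π))))

/-- the list of the group `i` -/
noncomputable def groupL (L : List (Matrix (St p) (St p) ((Fin p → K) → K))) (i : Fin k) :
    List (Matrix (St p × (Fin b → Bool)) (St p × (Fin b → Bool)) (RR K k b u p)) :=
  spread (fun _ => false) (fun a => X (i, a)) :: (midL L i ++ [collect (fun _ => false)])

/-- the full list -/
noncomputable def allL (K : Type) [Field K] (k b u p : ℕ)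
    (L : List (Matrix (St p) (St p) ((Fin p → K) → K))) :
    List (Matrix (St p × (Fin b → Bool)) (St p × (Fin b → Bool)) (RR K k b u p)) :=
  (List.finRange k).flatMap (groupL L)

lemma length_allL (L : List (Matrix (St p) (St p) ((Fin p → K) → K))) :
    (allL K k b u p L).length = k * (2 + b * (u * L.length)) := by
  simp only [allL, groupL, midL, List.length_flatMap, List.length_cons, List.length_append,
    List.length_map, List.map_const', List.sum_replicate, List.length_finRange, smul_eq_mul,
    List.length_nil]
  congr 1
  ring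

lemma topRow_allL (L : List (Matrix (St p) (St p) ((Fin p → K) → K))) (f : (Fin p → K) → K)
    (hL : HubRow L.prod f) :
    TopRow (fun _ => false) (allL K k b u p L).prod
      (∏ i : Fin k, ∑ a : Fin b → Bool, X (i, a) *
        C (fun x => ∏ β : Fin b, if a β then
          ∏ π : Fin u, f (fun j => x ((i, β), (π, j))) else 1)) := by
  rw [Fin.prod_univ_def, allL]
  refine topRow_flatMap _ _ _ _ (fun i _ => ?_)
  have h1 : (groupL (k := k) (b := b) (u := u) L i).prod
      = spread (fun _ => false) (fun a => X (i, a)) * (midL L i).prod *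
        collect (fun _ => false) := by
    rw [groupL, List.prod_cons, List.prod_append, mul_assoc]
    simp
  rw [h1]
  have h2 : RegRow (midL (k := k) (b := b) (u := u) L i).prod (fun a =>
      C (fun x => ∏ β : Fin b, if a β then
          ∏ π : Fin u, f (fun j => x ((i, β), (π, j))) else 1)) := by
    have h3 : RegRow (midL (k := k) (b := b) (u := u) L i).prod (fun a =>
        ((List.finRange b).map (fun β => ((List.finRange u).map
          (fun π => if a β then sg i β π f else 1)).prod)).prod) := by
      refine regRow_flatMap _ _ _ (fun β _ => ?_)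
      refine regRow_flatMap _ _ _ (fun π _ => ?_)
      rw [← lft_prod]
      exact regRow_lft _ _ hL
    convert h3 using 2 with a
    rw [← Fin.prod_univ_def]
    have h4 : ∀ β : Fin b, ((List.finRange u).map (fun π => if a β then sg i β π f else 1)).prod
        = (C (fun x : (Fin k × Fin b) × (Fin u × Fin p) → K => if a β then
          ∏ π : Fin u, f (fun j => x ((i, β), (π, j))) else 1) : RR K k b u p) := by
      intro β
      rw [← Fin.prod_univ_def]
      by_cases ha : a β = true
      · simp only [ha, if_true]
        have h5 : (fun x : (Fin k × Fin b) × (Fin u × Fin p) → K =>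
            ∏ π : Fin u, f (fun j => x ((i, β), (π, j))))
            = ∏ π : Fin u, (fun x : (Fin k × Fin b) × (Fin u × Fin p) → K =>
              f (fun j => x ((i, β), (π, j)))) := by
          funext x
          rw [Finset.prod_apply]
        rw [h5, map_prod]
        rfl
      · simp only [ha]
        simp only [Bool.false_eq_true, if_false, Finset.prod_const_one]
        rw [← C_1]
        rfl
    rw [Finset.prod_congr rfl (fun β _ => h4 β)]
    have h6 : (fun x : (Fin k × Fin b) × (Fin u × Fin p) → K => ∏ β : Fin b, if a β then
          ∏ π : Fin u, f (fun j => x ((i, β), (π, j))) else 1)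
          = ∏ β : Fin b, (fun x : (Fin k × Fin b) × (Fin u × Fin p) → K => if a β then
          ∏ π : Fin u, f (fun j => x ((i, β), (π, j))) else 1) := by
      funext x
      rw [Finset.prod_apply]
    rw [h6, map_prod]
  exact topRow_group _ _ h2

lemma aff_allL (L : List (Matrix (St p) (St p) ((Fin p → K) → K)))
    (hL : ∀ M ∈ L, ∀ s s', M s s' ∈ V K (Fin p) 1) :
    ∀ N ∈ allL K k b u p L, ∀ s s', AffLin (N s s') := by
  intro N hN s s'
  simp only [allL, groupL, midL, List.mem_append, List.mem_flatMap, List.mem_cons, List.mem_map,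
    List.not_mem_nil, or_false] at hN
  rcases hN with ⟨i, _, rfl | ⟨β, _, π, _, M, hM, rfl⟩ | rfl⟩
  · rw [spread, Matrix.of_apply]
    split_ifs
    · exact AffLin_X _
    · exact AffLin_zero
  · rw [lft, Matrix.blockDiagonal_apply]
    split_ifs
    · rw [Matrix.map_apply]
      exact AffLin_C (V_comp (hL M hM _ _) (fun j => ((i, β), (π, j))))
    · rw [Matrix.one_apply]
      split_ifs
      · exact AffLin_one
      · exact AffLin_zero
    · exact AffLin_zero
  · rw [collect, Matrix.of_apply]
    split_ifs
    · exact AffLin_one
    · exact AffLin_zero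

end lists

theorem subst {K : Type} [Field K] [Fintype K] (hq : 2 ≤ Fintype.card K) (F : ℕ → K)
    (n k b u p s0 r : ℕ) (hw : 2 ^ b * (p + 2) ≤ n)
    (hl : k * (2 + b * (u * (2 + (r + 1) * (Fintype.card K - 1)))) ≤ n) :
    ∃ (f : (Fin p → K) → K)
      (v : Var n n → MvPolynomial (Fin k × (Fin b → Bool))
        (((Fin k × Fin b) × (Fin u × Fin p) → K) → K)),
      (∀ x, s0 ≤ nz x → nz x ≤ s0 + r → f x = F (nz x)) ∧ (∀ a, AffLin (v a)) ∧
      eval₂ (algebraMap K (MvPolynomial (Fin k × (Fin b → Bool))
        (((Fin k × Fin b) × (Fin u × Fin p) → K) → K))) v (IMM K n n)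
        = ∏ i : Fin k, ∑ a : Fin b → Bool, X (i, a) *
            C (fun x => ∏ β : Fin b, if a β then
              ∏ π : Fin u, f (fun j => x ((i, β), (π, j))) else 1) := by
  obtain ⟨f, hf, L, hlen, haff, hhub⟩ := exists_block hq F p s0 r
  have hn : 0 < n := by
    have : 0 < 2 ^ b * (p + 2) := by positivity
    omega
  have hcard : Fintype.card (St p × (Fin b → Bool)) ≤ n := by
    simp only [Fintype.card_prod, Fintype.card_option, Fintype.card_fin, Fintype.card_fun,
      Fintype.card_bool]
    rw [mul_comm]
    exact hw
  obtain ⟨m, hm⟩ : ∃ m, Fintype.card (St p × (Fin b → Bool)) + m = n :=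
    ⟨n - Fintype.card (St p × (Fin b → Bool)), by omega⟩
  obtain ⟨e, he⟩ := exists_equivS ((none : St p), (fun _ => false : Fin b → Bool)) hm hn
  refine ⟨f, fun a => embS e ((allL K k b u p L).getD a.1.val 1) a.2.1 a.2.2, hf, ?_, ?_⟩
  · rintro ⟨t, i, j⟩
    refine embS_aff e _ ?_ i j
    by_cases ht : t.val < (allL K k b u p L).length
    · rw [List.getD_eq_getElem _ _ ht]
      exact aff_allL L haff _ (List.getElem_mem ht)
    · rw [List.getD_eq_default _ _ (not_lt.mp ht)]
      intro s s'
      rw [Matrix.one_apply]
      split_ifs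
      · exact AffLin_one
      · exact AffLin_zero
  · rw [eval_IMM' _ hn]
    have h1 : (fun t : Fin n => (Matrix.of fun i j =>
        embS e ((allL K k b u p L).getD t.val 1) i j :
        Matrix (Fin n) (Fin n) (RR K k b u p)))
        = fun t : Fin n => (((allL K k b u p L).map (embS e)).getD t.val 1) := by
      funext t
      have h2 : (Matrix.of fun i j => embS e ((allL K k b u p L).getD t.val 1) i j :
          Matrix (Fin n) (Fin n) (RR K k b u p)) = embS e ((allL K k b u p L).getD t.val 1) := rfl
      rw [h2]
      by_cases ht : t.val < (allL K k b u p L).length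
      · rw [List.getD_eq_getElem _ _ ht, List.getD_eq_getElem _ _ (by rwa [List.length_map]),
          List.getElem_map]
      · rw [List.getD_eq_default _ _ (by omega),
          List.getD_eq_default _ _ (by rw [List.length_map]; omega), embS_one]
    have h3 : (List.ofFn (fun t : Fin n => (Matrix.of fun i j =>
        embS e ((allL K k b u p L).getD t.val 1) i j :
        Matrix (Fin n) (Fin n) (RR K k b u p)))).prod = embS e (allL K k b u p L).prod := by
      rw [h1, prod_ofFn_getD' n _ (by rw [List.length_map, length_allL, hlen]; exact hl),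
        embS_prod]
    rw [h3, ← he, embS_hub]
    have h4 := topRow_allL (k := k) (b := b) (u := u) L f hhub
    rw [h4, if_pos rfl]

end Vale.P346.FQ
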