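import Vale.Agent.Lib.P346.FQ.UnitDir
import Vale.Agent.Lib.P346.FQ.Elim

/-! The family of functions on a block. -/

namespace Vale.P346.FQ

open Finset

/-- the polynomial function with coefficients `c` -/
noncomputable def goodFun {K κ : Type} [Field K] [Fintype κ] [DecidableEq κ] (q : ℕ) :
    ({J : κ → Fin q // Good J} → K) →ₗ[K] ((κ → K) → K) where
  toFun c x := ∑ J : {J : κ → Fin q // Good J}, c J * ∏ i, x i ^ (J.1 i : ℕ)
  map_add' c c' := by
    funext x
    simp [add_mul, Finset.sum_add_distrib]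
  map_smul' a c := by
    funext x
    simp [Finset.mul_sum, mul_assoc]

lemma goodFun_apply {K κ : Type} [Field K] [Fintype κ] [DecidableEq κ] {q : ℕ}
    (c : {J : κ → Fin q // Good J} → K) (x : κ → K) :
    goodFun q c x = ∑ J : {J : κ → Fin q // Good J}, c J * ∏ i, x i ^ (J.1 i : ℕ) := rfl

lemma V_monomial {K κ : Type} [Field K] [Fintype κ] [DecidableEq κ] {q : ℕ} (J : κ → Fin q) :
    (fun x : κ → K => ∏ i, x i ^ (J i : ℕ)) ∈ V K κ (dg J) := by
  have h1 := V_prod (univ : Finset κ) (fun i => (J i : ℕ) * 1)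
    (fun i => (fun x : κ → K => x i) ^ (J i : ℕ)) (fun i _ => V_pow (J i : ℕ) (V_coord i))
  have h2 : (fun x : κ → K => ∏ i, x i ^ (J i : ℕ)) =
      ∏ i, (fun x : κ → K => x i) ^ (J i : ℕ) := by
    funext x
    rw [Finset.prod_apply]
    rfl
  have h3 : dg J = ∑ i, (J i : ℕ) * 1 := by
    unfold dg
    simp
  rw [h2, h3]
  exact h1

lemma goodFun_extend {K κ : Type} [Field K] [Fintype κ] [DecidableEq κ] {q : ℕ}
    (c : {J : κ → Fin q // Good J} → K) (x : κ → K) :
    ∑ J : κ → Fin q, (if h : Good J then c ⟨J, h⟩ else 0) * ∏ i, x i ^ (J i : ℕ) =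
      goodFun q c x := by
  classical
  rw [goodFun_apply]
  have h1 : ∑ J ∈ univ.filter (fun J : κ → Fin q => Good J),
      (if h : Good J then c ⟨J, h⟩ else 0) * ∏ i, x i ^ (J i : ℕ) =
      ∑ J : κ → Fin q, (if h : Good J then c ⟨J, h⟩ else 0) * ∏ i, x i ^ (J i : ℕ) := by
    refine sum_subset (filter_subset _ _) ?_
    intro J _ hJ
    rw [mem_filter] at hJ
    have h2 : ¬ Good J := fun h => hJ ⟨mem_univ _, h⟩
    rw [dif_neg h2, zero_mul]
  rw [← h1, Finset.sum_subtype (univ.filter (fun J : κ → Fin q => Good J))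
    (p := fun J => Good J) (fun J => by simp)]
  refine sum_congr rfl fun J _ => ?_
  rw [dif_pos J.2]

theorem unit_family {K κ : Type} [Field K] [Fintype K] [DecidableEq K] [Fintype κ]
    [DecidableEq κ] (q : ℕ) (hq : Fintype.card K = q) (hq3 : 3 ≤ q) (lam : K) (h0 : lam ≠ 0)
    (h1 : lam ≠ 1) (Ω : Finset (κ → K)) :
    ∃ (S : Finset (κ → Fin q)) (g : (κ → Fin q) → (κ → K) → K),
      (∀ J ∈ S, Good J) ∧
      (univ.filter (fun J : κ → Fin q => Good J)).card ≤ S.card + Ωᶜ.card ∧
      (∀ J ∈ S, g J ∈ V K κ (dg J)) ∧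
      (∀ J ∈ S, ∀ x, x ∉ Ω → g J x = 0) ∧
      LinearIndependent K (fun (p : Bool × S) (x : κ → K) =>
        (if p.1 then lam ^ nz x else 1) * g p.2 x) := by
  classical
  let ρ : ({J : κ → Fin q // Good J} → K) →ₗ[K] ((Ωᶜ : Finset (κ → K)) → K) :=
    LinearMap.pi (fun x => (LinearMap.proj x.1) ∘ₗ (goodFun q))
  obtain ⟨S0, v, hcard, hW, hdeg, hind⟩ := elim
    (fun J : {J : κ → Fin q // Good J} => dg J.1) (LinearMap.ker ρ)
  have hfin : Fintype.card {J : κ → Fin q // Good J} ≤ S0.card + Ωᶜ.card := by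
    have h2 := LinearMap.finrank_range_add_finrank_ker ρ
    rw [Module.finrank_fintype_fun_eq_card] at h2
    have h3 : Module.finrank K (LinearMap.range ρ) ≤ Ωᶜ.card := by
      refine (Submodule.finrank_le _).trans ?_
      rw [Module.finrank_fintype_fun_eq_card, Fintype.card_coe]
    omega
  have hgood : ∀ J ∈ S0.map (Function.Embedding.subtype _), Good J := by
    intro J hJ
    rw [mem_map] at hJ
    obtain ⟨J', _, rfl⟩ := hJ
    exact J'.2
  have hmem : ∀ (J : κ → Fin q) (hJ : J ∈ S0.map (Function.Embedding.subtype _)),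
      (⟨J, hgood J hJ⟩ : {J : κ → Fin q // Good J}) ∈ S0 := by
    intro J hJ
    have hJ2 := hJ
    rw [mem_map] at hJ2
    obtain ⟨J', h2, h3⟩ := hJ2
    have h4 : (⟨J, hgood J hJ⟩ : {J : κ → Fin q // Good J}) = J' := Subtype.ext h3.symm
    rw [h4]
    exact h2
  let g : (κ → Fin q) → (κ → K) → K := fun J =>
    if h : Good J then goodFun q (v ⟨J, h⟩) else 0
  have hg : ∀ (J : κ → Fin q) (h : Good J), g J = goodFun q (v ⟨J, h⟩) := fun J h =>
    dif_pos h
  refine ⟨S0.map (Function.Embedding.subtype _), g, hgood, ?_, ?_, ?_, ?_⟩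
  · rw [card_map]
    refine le_trans (le_of_eq ?_) hfin
    rw [Fintype.card_subtype]
  · intro J hJ
    rw [hg J (hgood J hJ)]
    have h2 : goodFun q (v ⟨J, hgood J hJ⟩) = ∑ J' : {J : κ → Fin q // Good J},
        (fun x : κ → K => v ⟨J, hgood J hJ⟩ J' * ∏ i, x i ^ (J'.1 i : ℕ)) := by
      funext x
      rw [goodFun_apply, Finset.sum_apply]
    rw [h2]
    refine Submodule.sum_mem _ fun J' _ => ?_
    by_cases h3 : v ⟨J, hgood J hJ⟩ J' = 0
    · rw [h3]
      have h4 : (fun x : κ → K => (0 : K) * ∏ i, x i ^ (J'.1 i : ℕ)) = 0 := by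
        funext x
        simp
      rw [h4]
      exact Submodule.zero_mem _
    · exact V_smul _ (V_mono (hdeg _ (hmem J hJ) J' h3) (V_monomial J'.1))
  · intro J hJ x hx
    rw [hg J (hgood J hJ)]
    have h2 := LinearMap.mem_ker.1 (hW _ (hmem J hJ))
    exact congrFun h2 ⟨x, mem_compl.2 hx⟩
  · let φ : (S0.map (Function.Embedding.subtype _)) → S0 := fun s =>
      ⟨⟨s.1, hgood s.1 s.2⟩, hmem s.1 s.2⟩
    have hφ : Function.Injective φ := by
      intro s t hst
      apply Subtype.ext
      have h2 := congrArg (fun z : S0 => (z.1.1 : κ → Fin q)) hst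
      exact h2
    have hind' : LinearIndependent K
        (fun s : (S0.map (Function.Embedding.subtype _)) => v (φ s).1) := hind.comp φ hφ
    rw [Fintype.linearIndependent_iff] at hind' ⊢
    intro u hu
    have hx : ∀ x : κ → K,
        goodFun q (∑ s, u (false, s) • v (φ s).1) x +
          lam ^ nz x * goodFun q (∑ s, u (true, s) • v (φ s).1) x = 0 := by
      intro x
      have h2 := congrFun hu x
      rw [Finset.sum_apply, Fintype.sum_prod_type, Fintype.sum_bool] at h2
      rw [map_sum, map_sum, Finset.sum_apply, Finset.sum_apply, mul_sum]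
      rw [Pi.zero_apply] at h2
      rw [add_comm, ← h2]
      congr 1
      · refine sum_congr rfl fun s _ => ?_
        rw [map_smul, Pi.smul_apply, Pi.smul_apply, smul_eq_mul, smul_eq_mul, if_pos rfl,
          hg s.1 (hgood s.1 s.2)]
        ring
      · refine sum_congr rfl fun s _ => ?_
        rw [map_smul, Pi.smul_apply, Pi.smul_apply, smul_eq_mul, smul_eq_mul,
          if_neg (by simp), one_mul, hg s.1 (hgood s.1 s.2)]
    have hz := unit_direct q hq hq3 lam h0 h1
      (fun J => if h : Good J then (∑ s, u (false, s) • v (φ s).1) ⟨J, h⟩ else 0)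
      (fun J => if h : Good J then (∑ s, u (true, s) • v (φ s).1) ⟨J, h⟩ else 0)
      (fun J hJ => by
        by_contra h
        exact hJ (dif_neg h))
      (fun J hJ => by
        by_contra h
        exact hJ (dif_neg h))
      (fun x => by
        rw [goodFun_extend, goodFun_extend]
        exact hx x)
    have hf : ∑ s, u (false, s) • v (φ s).1 = 0 := by
      funext J
      have h2 := hz.1 J.1
      rw [dif_pos J.2] at h2
      exact h2
    have ht : ∑ s, u (true, s) • v (φ s).1 = 0 := by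
      funext J
      have h2 := hz.2 J.1
      rw [dif_pos J.2] at h2
      exact h2
    have hf' := hind' (fun s => u (false, s)) hf
    have ht' := hind' (fun s => u (true, s)) ht
    rintro ⟨b, s⟩
    cases b
    · exact hf' s
    · exact ht' s

end Vale.P346.FQ
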