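import Vale.Agent.Lib.P346.FQ.Space
import Vale.Agent.Lib.P346.FQ.FormalDeg
import Vale.Agent.Lib.P346.FQ.Subst
import Vale.Agent.Lib.P346.FQ.Coeff
import Vale.Agent.Lib.P346.FQ.Unit
import Vale.Agent.Lib.P346.FQ.VDim

/-! The star inequality. -/

namespace Vale.P346.FQ

open MvPolynomial Finset

/-- the window set of a block -/
noncomputable def winSet (K : Type) [Field K] [Fintype K] (u p s0 r : ℕ) :
    Finset (Fin u × Fin p → K) := by
  classical
  exact univ.filter (fun x => ∀ π : Fin u,
    s0 ≤ nz (fun j : Fin p => x (π, j)) ∧ nz (fun j : Fin p => x (π, j)) ≤ s0 + r)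

lemma mem_winSet {K : Type} [Field K] [Fintype K] {u p s0 r : ℕ} (x : Fin u × Fin p → K) :
    x ∈ winSet K u p s0 r ↔ ∀ π : Fin u,
      s0 ≤ nz (fun j : Fin p => x (π, j)) ∧ nz (fun j : Fin p => x (π, j)) ≤ s0 + r := by
  classical
  unfold winSet
  rw [Finset.mem_filter]
  simp

lemma nz_eq_sum_star {K ι : Type} [Field K] [Fintype ι] (x : ι → K) [DecidableEq K] :
    nz x = ∑ i, if x i ≠ 0 then 1 else 0 := by
  classical
  unfold nz
  rw [Finset.card_filter]
  exact Finset.sum_congr rfl (fun i _ => by split_ifs <;> rfl)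

lemma nz_prod {K : Type} [Field K] {u p : ℕ} (x : Fin u × Fin p → K) :
    nz x = ∑ π : Fin u, nz (fun j : Fin p => x (π, j)) := by
  classical
  rw [nz_eq_sum_star, Fintype.sum_prod_type]
  exact Finset.sum_congr rfl (fun π _ => by rw [nz_eq_sum_star])

/-- extension by zero -/
noncomputable def extZero (K : Type) [Field K] {X : Type} (E : Finset X) :
    (E → K) →ₗ[K] (X → K) := by
  classical
  exact
  { toFun := fun c x => if h : x ∈ E then c ⟨x, h⟩ else 0
    map_add' := by
      intro c c'
      funext x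
      simp only [Pi.add_apply]
      split_ifs <;> simp
    map_smul' := by
      intro a c
      funext x
      simp only [Pi.smul_apply, RingHom.id_apply]
      split_ifs <;> simp }

lemma mem_range_extZero {K X : Type} [Field K] (E : Finset X) (f : X → K)
    (hf : ∀ x, x ∉ E → f x = 0) : f ∈ LinearMap.range (extZero K E) := by
  classical
  refine ⟨fun x => f x.1, ?_⟩
  funext x
  change (if h : x ∈ E then f x else 0) = f x
  split_ifs with h
  · rfl
  · exact (hf x h).symm

/-- A linearly independent family, each of whose members agrees off `E` with a member of `U`. -/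
lemma card_le_of_agree {K X I : Type} [Field K] [Fintype X] [Fintype I] (H : I → X → K)
    (hH : LinearIndependent K H) (E : Finset X) (U : Submodule K (X → K))
    (hU : ∀ i, ∃ u ∈ U, ∀ x, x ∉ E → u x = H i x) :
    Fintype.card I ≤ E.card + Module.finrank K U := by
  classical
  have hmem : ∀ i, H i ∈ U ⊔ LinearMap.range (extZero K E) := by
    intro i
    obtain ⟨u, hu, hux⟩ := hU i
    have h1 : H i = u + (H i - u) := by ring
    rw [h1]
    refine Submodule.add_mem_sup hu (mem_range_extZero E _ (fun x hx => ?_))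
    rw [Pi.sub_apply, hux x hx, sub_self]
  have h2 : LinearIndependent K (fun i => (⟨H i, hmem i⟩ : ↥(U ⊔ LinearMap.range (extZero K E)))) := by
    refine LinearIndependent.of_comp (Submodule.subtype _) ?_
    exact hH
  have h3 := h2.fintype_card_le_finrank
  have h4 := Submodule.finrank_add_le_finrank_add_finrank U (LinearMap.range (extZero K E))
  have h5 : Module.finrank K (LinearMap.range (extZero K E)) ≤ E.card := by
    refine (LinearMap.finrank_range_le _).trans ?_
    rw [Module.finrank_fintype_fun_eq_card]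
    simp
  omega

theorem star {K : Type} [Field K] [Fintype K] (q : ℕ) (hqc : Fintype.card K = q) (hq3 : 3 ≤ q)
    (lam : K) (h0 : lam ≠ 0) (h1 : lam ≠ 1) {n k b u p s0 r τ : ℕ}
    (C : Circuit K (Var n n)) (hC : C.Homogeneous) (hout : C.out = IMM K n n)
    (hw : 2 ^ b * (p + 2) ≤ n) (hl : k * (2 + b * (u * (2 + (r + 1) * (q - 1)))) ≤ n)
    (hτ : 0 < τ) :
    ∃ S : Finset (Fin u × Fin p → Fin q), (∀ J ∈ S, Good J) ∧
      (univ.filter (fun J : Fin u × Fin p → Fin q => Good J)).card
        ≤ S.card + (q ^ (u * p) - (winSet K u p s0 r).card) ∧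
      ∀ ℓ : ℕ, ∃ e : ℕ,
        (2 * q) ^ τ * e ≤ Fintype.card C.G2 *
          (2 ^ k * (2 * q - 1) ^ τ * q ^ (k * b * (u * p))) ∧
        (univ.filter (fun a : Fin k × Fin b → Bool × S => ∑ t, dg (a t).2.1 ≤ ℓ)).card
          ≤ e + Fintype.card C.G4 * (subLe (n / ((q - 1) * τ) + 1) k *
            cntLe ((Fin k × Fin b) × (Fin u × Fin p)) q (ℓ + k * (2 * ((q - 1) * τ)))) := by
  classical
  have hn : 0 < n := lt_of_lt_of_le (by positivity) hw
  obtain ⟨S, g, hgood, hcard, hdeg, hvan, hli⟩ :=
    unit_family (κ := Fin u × Fin p) q hqc hq3 lam h0 h1 (winSet K u p s0 r)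
  obtain ⟨f, v, hf, hv, heval⟩ := subst (K := K) (by omega) (fun s => lam ^ s) n k b u p s0 r hw
    (by rw [hqc]; exact hl)
  obtain ⟨d1, d3, hh1, hh3, hh5⟩ := formal_deg hn C hC hout
  refine ⟨S, hgood, ?_, ?_⟩
  · rw [Finset.card_compl] at hcard
    simpa [hqc] using hcard
  intro ℓ
  obtain ⟨E, U, hE, hU, hcoef⟩ := circuit_space C n d1 d3 hh1 hh3 hh5 v hv τ k ℓ hτ (by omega)
  refine ⟨E.card, ?_, ?_⟩
  · rw [hqc] at hE
    simpa using hE
  -- the tensor family
  have hT := tensor_li (T := Fin k × Fin b) _ hli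
  let eq : ((Fin k × Fin b) × (Fin u × Fin p) → K) ≃ (Fin k × Fin b → (Fin u × Fin p → K)) :=
    Equiv.curry _ _ _
  have hT2 : LinearIndependent K (fun (a : Fin k × Fin b → Bool × S)
      (x : (Fin k × Fin b) × (Fin u × Fin p) → K) =>
      ∏ t, (if (a t).1 then lam ^ nz (fun j => x (t, j)) else 1) *
        g (a t).2 (fun j => x (t, j))) := by
    have h2 := hT.map' (LinearEquiv.funCongrLeft K K eq).toLinearMap
      (LinearEquiv.ker _)
    exact h2
  have hT3 := hT2.comp (fun a : {a : Fin k × Fin b → Bool × S // ∑ t, dg (a t).2.1 ≤ ℓ} => a.1)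
    Subtype.val_injective
  have hmain := card_le_of_agree _ hT3 E U ?_
  · rw [Fintype.card_subtype] at hmain
    refine hmain.trans (Nat.add_le_add_left (hU.trans (Nat.mul_le_mul_left _ ?_)) _)
    rw [hqc]
    refine Nat.mul_le_mul_left _ ?_
    have := finrank_V_le K ((Fin k × Fin b) × (Fin u × Fin p)) (ℓ + k * (2 * ((q - 1) * τ)))
    rw [hqc] at this
    exact this
  · rintro ⟨a, ha⟩
    set h : ((Fin k × Fin b) × (Fin u × Fin p) → K) → K :=
      ∏ t, fun x => g (a t).2 (fun j => x (t, j)) with hh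
    have hhV : h ∈ V K _ ℓ := by
      refine V_mono ha (V_prod univ (fun t => dg (a t).2.1) _ (fun t _ => ?_))
      exact V_comp (hdeg _ (a t).2.2) (fun j => (t, j))
    set α : Fin k × (Fin b → Bool) →₀ ℕ :=
      ∑ i : Fin k, Finsupp.single (i, fun β => (a (i, β)).1) 1 with hα
    have hαdeg : α.degree ≤ k := (degree_sum_single _).le
    obtain ⟨w, hwU, hwx⟩ := hcoef α hαdeg h hhV
    refine ⟨w, hwU, fun x hx => ?_⟩
    rw [hwx x hx, hout, heval, hα,
      coeff_prod_forms (fun (i : Fin k) (c : Fin b → Bool)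
        (x : (Fin k × Fin b) × (Fin u × Fin p) → K) => ∏ β : Fin b, if c β then
              ∏ π : Fin u, f (fun j => x ((i, β), (π, j))) else 1)]
    change _ = ∏ t, (if (a t).1 then lam ^ nz (fun j => x (t, j)) else 1) *
        g (a t).2 (fun j => x (t, j))
    rw [Finset.prod_mul_distrib, hh, Finset.prod_apply, Finset.prod_apply]
    by_cases hz : ∏ t, g (a t).2.1 (fun j => x (t, j)) = 0
    · rw [hz, mul_zero, mul_zero]
    · congr 1
      rw [Fintype.prod_prod_type]
      refine Finset.prod_congr rfl (fun i _ => Finset.prod_congr rfl (fun β _ => ?_))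
      have hne := Finset.prod_ne_zero_iff.mp hz (i, β) (Finset.mem_univ _)
      have hwin : (fun j => x ((i, β), j)) ∈ winSet K u p s0 r := by
        by_contra hcon
        exact hne (hvan _ (a (i, β)).2.2 _ hcon)
      rw [mem_winSet] at hwin
      by_cases hb : (a (i, β)).1 = true
      · rw [if_pos hb, if_pos hb, nz_prod, ← Finset.prod_pow_eq_pow_sum]
        refine Finset.prod_congr rfl (fun π _ => ?_)
        exact hf _ (hwin π).1 (hwin π).2
      · rw [if_neg hb, if_neg hb]

end Vale.P346.FQ
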