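import Mathlib

/-! Tensor products of linearly independent families of functions. -/

namespace Vale.P346.FQ

open Finset

theorem tensor_li {K X A T : Type} [Field K] [Fintype X] [Fintype A] [Fintype T]
    (h : A → X → K) (hli : LinearIndependent K h) :
    LinearIndependent K (fun (a : T → A) (x : T → X) => ∏ t, h (a t) (x t)) := by
  classical
  -- the dual family
  have hdual : ∃ c : A → X → K, ∀ a b, ∑ x, c a x * h b x = if a = b then 1 else 0 := by
    have hinj : Function.Injective (Fintype.linearCombination K h) :=
      linearIndependent_iff_injective_fintypeLinearCombination.1 hli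
    obtain ⟨φ, hφ⟩ := LinearMap.exists_leftInverse_of_injective (Fintype.linearCombination K h)
      (LinearMap.ker_eq_bot.2 hinj)
    refine ⟨fun a x => φ (Pi.single x 1) a, fun a b => ?_⟩
    have h1 : φ (h b) a = if a = b then 1 else 0 := by
      have h2 : Fintype.linearCombination K h (Pi.single b 1) = h b := by
        rw [Fintype.linearCombination_apply_single, one_smul]
      have h3 := LinearMap.congr_fun hφ (Pi.single b 1)
      rw [LinearMap.comp_apply, h2, LinearMap.id_apply] at h3
      rw [h3, Pi.single_apply]
    have h4 : h b = ∑ x, h b x • (Pi.single x 1 : X → K) := by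
      ext y
      rw [Finset.sum_apply]
      simp [Pi.single_apply]
    rw [← h1]
    conv_rhs => rw [h4, map_sum, Finset.sum_apply]
    refine Finset.sum_congr rfl fun x _ => ?_
    rw [map_smul, Pi.smul_apply, smul_eq_mul, mul_comm]
  obtain ⟨c, hc⟩ := hdual
  rw [Fintype.linearIndependent_iff]
  intro g hg b
  have h1 : ∑ x : T → X, (∏ t, c (b t) (x t)) * ∑ a : T → A, g a * ∏ t, h (a t) (x t) = 0 := by
    refine Finset.sum_eq_zero fun x _ => ?_
    have h2 := congrFun hg x
    rw [Finset.sum_apply] at h2
    simp only [Pi.smul_apply, smul_eq_mul, Pi.zero_apply] at h2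
    rw [h2, mul_zero]
  have h3 : ∑ x : T → X, (∏ t, c (b t) (x t)) * ∑ a : T → A, g a * ∏ t, h (a t) (x t) =
      ∑ a : T → A, g a * if b = a then 1 else 0 := by
    simp only [Finset.mul_sum]
    rw [Finset.sum_comm]
    refine Finset.sum_congr rfl fun a _ => ?_
    have h4 : ∀ x : T → X, (∏ t, c (b t) (x t)) * (g a * ∏ t, h (a t) (x t)) =
        g a * ∏ t, (c (b t) (x t) * h (a t) (x t)) := by
      intro x
      rw [Finset.prod_mul_distrib]
      ring
    simp only [h4]
    rw [← Finset.mul_sum]
    congr 1
    have h5 := Finset.prod_univ_sum (fun _ : T => (Finset.univ : Finset X))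
      (fun t y => c (b t) y * h (a t) y)
    rw [Fintype.piFinset_univ] at h5
    rw [← h5]
    simp only [hc]
    by_cases hab : b = a
    · rw [if_pos hab]
      refine Finset.prod_eq_one fun t _ => ?_
      rw [if_pos (congrFun hab t)]
    · rw [if_neg hab]
      obtain ⟨t, ht⟩ := Function.ne_iff.1 hab
      exact Finset.prod_eq_zero (Finset.mem_univ t) (if_neg ht)
  rw [h3] at h1
  simpa using h1

end Vale.P346.FQ
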