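import Vale.Agent.Lib.P346.FQ.VBasic
import Vale.Agent.Lib.P346.FQ.Tensor

/-! The monomials `x^J` with `J` good and their multiples by `λ^{nz x}` are independent. -/

namespace Vale.P346.FQ

open Finset

/-- the monomial functions `x^j`, `j < q`, are linearly independent on a field with `q` elements -/
theorem unitDir_mono_li {K : Type} [Field K] [Fintype K] (q : ℕ) (hq : Fintype.card K = q) :
    LinearIndependent K (fun (j : Fin q) (x : K) => x ^ (j : ℕ)) := by
  rw [Fintype.linearIndependent_iff]
  intro g hg
  have hp : (∑ j : Fin q, Polynomial.C (g j) * Polynomial.X ^ (j : ℕ)) = 0 := by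
    apply Polynomial.eq_zero_of_natDegree_lt_card_of_eval_eq_zero (f := id) _ Function.injective_id
    · intro x
      have := congrFun hg x
      simp only [Finset.sum_apply, Pi.smul_apply, smul_eq_mul, Pi.zero_apply] at this
      simp [Polynomial.eval_finsetSum, this]
    · have hq0 : 0 < q := hq ▸ Fintype.card_pos
      rw [hq]
      have : (∑ j : Fin q, Polynomial.C (g j) * Polynomial.X ^ (j : ℕ)).natDegree ≤ q - 1 := by
        apply Polynomial.natDegree_sum_le_of_forall_le
        intro j _
        refine (Polynomial.natDegree_C_mul_X_pow_le _ _).trans ?_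
        have := j.2
        omega
      omega
  intro j
  have := congrArg (fun p => p.coeff (j : ℕ)) hp
  simp only [Polynomial.finsetSum_coeff, Polynomial.coeff_C_mul_X_pow, Polynomial.coeff_zero]
    at this
  rw [Finset.sum_eq_single j] at this
  · simpa using this
  · intro b _ hb
    rw [if_neg]
    intro h
    exact hb (Fin.ext h.symm)
  · intro h
    exact absurd (Finset.mem_univ j) h

section

variable {K : Type} [Field K] {q : ℕ}

/-- change of basis in a sum over exponent vectors -/
theorem unitDir_expand {κ : Type} [Fintype κ] [DecidableEq κ] (B F : Fin q → K → K)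
    (P : Fin q → Fin q → K) (hF : ∀ j x, F j x = ∑ l, P j l * B l x) (c : (κ → Fin q) → K)
    (x : κ → K) :
    ∑ J, c J * ∏ i, F (J i) (x i) =
      ∑ J' : κ → Fin q, (∑ J, c J * ∏ i, P (J i) (J' i)) * ∏ i, B (J' i) (x i) := by
  have h1 : ∀ J : κ → Fin q, ∏ i, F (J i) (x i) =
      ∑ J' : κ → Fin q, (∏ i, P (J i) (J' i)) * ∏ i, B (J' i) (x i) := by
    intro J
    have h5 := Finset.prod_univ_sum (fun _ : κ => (Finset.univ : Finset (Fin q)))
      (fun i l => P (J i) l * B l (x i))
    rw [Fintype.piFinset_univ] at h5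
    simp only [hF]
    rw [h5]
    exact Finset.sum_congr rfl fun J' _ => Finset.prod_mul_distrib
  simp only [h1, Finset.mul_sum, Finset.sum_mul]
  rw [Finset.sum_comm]
  exact Finset.sum_congr rfl fun J' _ => Finset.sum_congr rfl fun J _ => by ring

end

theorem unit_direct {K κ : Type} [Field K] [Fintype K] [Fintype κ] [DecidableEq κ] (q : ℕ)
    (hq : Fintype.card K = q) (hq3 : 3 ≤ q) (lam : K) (h0 : lam ≠ 0) (h1 : lam ≠ 1)
    (c d : (κ → Fin q) → K) (hc : ∀ J, c J ≠ 0 → Good J) (hd : ∀ J, d J ≠ 0 → Good J)
    (h : ∀ x : κ → K, (∑ J, c J * ∏ i, x i ^ (J i : ℕ))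
      + lam ^ nz x * (∑ J, d J * ∏ i, x i ^ (J i : ℕ)) = 0) :
    (∀ J, c J = 0) ∧ (∀ J, d J = 0) := by
  classical
  have hmono := unitDir_mono_li q hq
  -- the functions
  obtain ⟨z, hz⟩ : ∃ z : Fin q, (z : ℕ) = 0 := ⟨⟨0, by omega⟩, rfl⟩
  obtain ⟨t, ht⟩ : ∃ t : Fin q, (t : ℕ) = q - 1 := ⟨⟨q - 1, by omega⟩, rfl⟩
  have hzt : z ≠ t := by
    intro h
    have := congrArg Fin.val h
    omega
  let mu : K → K := fun x => if x = 0 then 1 else lam
  let B : Fin q → K → K := fun j x => if j = t then mu x else x ^ (j : ℕ)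
  have hlam : lam - 1 ≠ 0 := sub_ne_zero.2 h1
  have hmu : ∀ x, mu x = 1 + (lam - 1) * x ^ (q - 1) := by
    intro x
    by_cases hx : x = 0
    · have : q - 1 ≠ 0 := by omega
      simp [mu, hx, this]
    · have : x ^ (q - 1) = 1 := by
        rw [← hq]
        exact FiniteField.pow_card_sub_one_eq_one x hx
      simp [mu, hx, this]
  have hBz : ∀ x, B z x = 1 := by
    intro x
    simp [B, hzt, hz]
  have hBt : ∀ x, B t x = mu x := fun x => by simp [B]
  have hBn : ∀ (j : Fin q) (x : K), j ≠ t → B j x = x ^ (j : ℕ) := fun j x hj => by simp [B, hj]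
  -- independence of `B`
  have hB : LinearIndependent K B := by
    rw [Fintype.linearIndependent_iff] at hmono ⊢
    intro g hg
    have hg' := hmono (fun j => if j = z then g z + g t else if j = t then (lam - 1) * g t else g j)
      (by
        ext x
        have e := congrFun hg x
        simp only [Finset.sum_apply, Pi.smul_apply, smul_eq_mul, Pi.zero_apply] at e ⊢
        rw [← e]
        have key : ∀ j : Fin q, (if j = z then g z + g t else if j = t then (lam - 1) * g t
            else g j) * x ^ (j : ℕ) = g j * B j x + (if j = z then g t else 0) -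
            (if j = t then g t else 0) := by
          intro j
          by_cases hj : j = z
          · subst hj
            rw [if_pos rfl, if_pos rfl, if_neg hzt, hBz, hz]
            ring
          · by_cases hj' : j = t
            · subst hj'
              rw [if_neg hj, if_pos rfl, if_neg hj, if_pos rfl, hBt, hmu, ht]
              ring
            · rw [if_neg hj, if_neg hj', if_neg hj, if_neg hj', hBn j x hj']
              ring
        rw [Finset.sum_congr rfl fun j _ => key j, Finset.sum_sub_distrib,
          Finset.sum_add_distrib]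
        simp)
    have ht0 : g t = 0 := by
      have := hg' t
      simp only [if_neg hzt.symm, if_true] at this
      exact (mul_eq_zero.1 this).resolve_left hlam
    intro j
    have e := hg' j
    by_cases hj : j = z
    · subst hj
      simpa [ht0] using e
    · by_cases hj' : j = t
      · rw [hj', ht0]
      · simpa [hj, hj'] using e
  have hBJ := tensor_li (T := κ) B hB
  have hmJ := tensor_li (T := κ) _ hmono
  rw [Fintype.linearIndependent_iff] at hBJ hmJ
  -- coefficient arrays
  let P : Fin q → Fin q → K := fun j l =>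
    if j = t then ((if l = t then 1 else 0) - (if l = z then 1 else 0)) * (lam - 1)⁻¹
    else if l = j then 1 else 0
  let P' : Fin q → Fin q → K := fun j l =>
    if j = z then (if l = t then 1 else 0) else lam * P j l
  have hP : ∀ (j : Fin q) (x : K), x ^ (j : ℕ) = ∑ l, P j l * B l x := by
    intro j x
    by_cases hj : j = t
    · subst hj
      have key : ∀ l, P j l * B l x = (if l = j then (lam - 1)⁻¹ * B l x else 0) -
          (if l = z then (lam - 1)⁻¹ * B l x else 0) := by
        intro l
        simp only [P, if_true]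
        split_ifs <;> ring
      rw [Finset.sum_congr rfl fun l _ => key l, Finset.sum_sub_distrib,
        Finset.sum_ite_eq' , Finset.sum_ite_eq', if_pos (Finset.mem_univ _),
        if_pos (Finset.mem_univ _), hBt, hBz, hmu, ht]
      field_simp
      ring
    · have key : ∀ l, P j l * B l x = if l = j then B l x else 0 := by
        intro l
        simp only [P, if_neg hj]
        split_ifs <;> ring
      rw [Finset.sum_congr rfl fun l _ => key l, Finset.sum_ite_eq', if_pos (Finset.mem_univ _),
        hBn j x hj]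
  have hP' : ∀ (j : Fin q) (x : K), mu x * x ^ (j : ℕ) = ∑ l, P' j l * B l x := by
    intro j x
    by_cases hj : j = z
    · subst hj
      have key : ∀ l, P' j l * B l x = if l = t then B l x else 0 := by
        intro l
        simp only [P', if_true]
        split_ifs <;> ring
      rw [Finset.sum_congr rfl fun l _ => key l, Finset.sum_ite_eq', if_pos (Finset.mem_univ _),
        hBt, hz, pow_zero, mul_one]
    · have key : ∀ l, P' j l * B l x = lam * (P j l * B l x) := by
        intro l
        simp only [P', if_neg hj]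
        ring
      rw [Finset.sum_congr rfl fun l _ => key l, ← Finset.mul_sum, ← hP]
      by_cases hx : x = 0
      · have : (j : ℕ) ≠ 0 := fun e => hj (Fin.ext (by omega))
        simp [hx, this]
      · simp [mu, hx]
  have hPs : ∀ j l, P j l ≠ 0 → (j = t ∧ (l = t ∨ l = z)) ∨ (j ≠ t ∧ l = j) := by
    intro j l hjl
    by_cases hj : j = t
    · left
      refine ⟨hj, ?_⟩
      by_contra hcon
      rw [not_or] at hcon
      apply hjl
      simp [P, hj, hcon.1, hcon.2]
    · right
      refine ⟨hj, ?_⟩
      by_contra hcon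
      apply hjl
      simp [P, hj, hcon]
  have hPs' : ∀ j l, P' j l ≠ 0 → (j = z ∧ l = t) ∨ (j ≠ z ∧ P j l ≠ 0) := by
    intro j l hjl
    by_cases hj : j = z
    · left
      refine ⟨hj, ?_⟩
      by_contra hcon
      apply hjl
      simp [P', hj, hcon]
    · right
      refine ⟨hj, ?_⟩
      intro hcon
      apply hjl
      simp [P', hj, hcon]
  -- expansions
  have hcx : ∀ x : κ → K, (∑ J, c J * ∏ i, x i ^ (J i : ℕ)) =
      ∑ J' : κ → Fin q, (∑ J, c J * ∏ i, P (J i) (J' i)) * ∏ i, B (J' i) (x i) := fun x =>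
    unitDir_expand B (fun j y => y ^ (j : ℕ)) P hP c x
  have hnz : ∀ x : κ → K, lam ^ nz x = ∏ i, mu (x i) := by
    intro x
    simp only [mu]
    rw [Finset.prod_ite, Finset.prod_const_one, one_mul, Finset.prod_const]
    unfold nz
    congr!
  have hdx : ∀ x : κ → K, lam ^ nz x * (∑ J, d J * ∏ i, x i ^ (J i : ℕ)) =
      ∑ J' : κ → Fin q, (∑ J, d J * ∏ i, P' (J i) (J' i)) * ∏ i, B (J' i) (x i) := by
    intro x
    rw [← unitDir_expand B (fun j y => mu y * y ^ (j : ℕ)) P' hP' d x, hnz, Finset.mul_sum]
    refine Finset.sum_congr rfl fun J _ => ?_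
    rw [Finset.prod_mul_distrib]
    ring
  have hCD : ∀ J' : κ → Fin q, (∑ J, c J * ∏ i, P (J i) (J' i)) + (∑ J, d J * ∏ i, P' (J i) (J' i)) = 0 := by
    apply hBJ
    ext x
    have := h x
    rw [hcx, hdx, ← Finset.sum_add_distrib] at this
    simp only [Finset.sum_apply, Pi.smul_apply, smul_eq_mul, Pi.zero_apply]
    rw [← this]
    exact Finset.sum_congr rfl fun J _ => by ring
  have hCgood : ∀ J' : κ → Fin q, (∑ J, c J * ∏ i, P (J i) (J' i)) ≠ 0 →
      (univ.filter (fun i => (J' i : ℕ) = q - 1)).card <
        (univ.filter (fun i => (J' i : ℕ) = 0)).card := by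
    intro J' hne
    obtain ⟨J, -, hJ⟩ := Finset.exists_ne_zero_of_sum_ne_zero hne
    have hg := hc J (left_ne_zero_of_mul hJ)
    have hPi : ∀ i, P (J i) (J' i) ≠ 0 := fun i =>
      (Finset.prod_ne_zero_iff.1 (right_ne_zero_of_mul hJ)) i (Finset.mem_univ i)
    unfold Good at hg
    refine (Finset.card_le_card ?_).trans_lt (hg.trans_le (Finset.card_le_card ?_))
    · intro i hi
      rw [Finset.mem_filter] at hi ⊢
      refine ⟨Finset.mem_univ _, ?_⟩
      have hi' : J' i = t := Fin.ext (by omega)
      rcases hPs _ _ (hPi i) with ⟨e1, -⟩ | ⟨e1, e2⟩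
      · rw [e1, ht]
      · exact absurd (e2.symm.trans hi') e1
    · intro i hi
      rw [Finset.mem_filter] at hi ⊢
      refine ⟨Finset.mem_univ _, ?_⟩
      have hi' : J i = z := Fin.ext (by omega)
      rcases hPs _ _ (hPi i) with ⟨e1, -⟩ | ⟨e1, e2⟩
      · exact absurd (hi'.symm.trans e1) hzt
      · rw [e2, hi', hz]
  have hDbad : ∀ J' : κ → Fin q, (∑ J, d J * ∏ i, P' (J i) (J' i)) ≠ 0 →
      (univ.filter (fun i => (J' i : ℕ) = 0)).card <
        (univ.filter (fun i => (J' i : ℕ) = q - 1)).card := by
    intro J' hne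
    obtain ⟨J, -, hJ⟩ := Finset.exists_ne_zero_of_sum_ne_zero hne
    have hg := hd J (left_ne_zero_of_mul hJ)
    have hPi : ∀ i, P' (J i) (J' i) ≠ 0 := fun i =>
      (Finset.prod_ne_zero_iff.1 (right_ne_zero_of_mul hJ)) i (Finset.mem_univ i)
    unfold Good at hg
    refine (Finset.card_le_card ?_).trans_lt (hg.trans_le (Finset.card_le_card ?_))
    · intro i hi
      rw [Finset.mem_filter] at hi ⊢
      refine ⟨Finset.mem_univ _, ?_⟩
      have hi' : J' i = z := Fin.ext (by omega)
      rcases hPs' _ _ (hPi i) with ⟨-, e2⟩ | ⟨e0, e⟩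
      · exact absurd (hi'.symm.trans e2) hzt
      · rcases hPs _ _ e with ⟨e1, -⟩ | ⟨e1, e2⟩
        · rw [e1, ht]
        · exact absurd (e2.symm.trans hi') e0
    · intro i hi
      rw [Finset.mem_filter] at hi ⊢
      refine ⟨Finset.mem_univ _, ?_⟩
      have hi' : J i = z := Fin.ext (by omega)
      rcases hPs' _ _ (hPi i) with ⟨-, e2⟩ | ⟨e0, -⟩
      · rw [e2, ht]
      · exact absurd hi' e0
  have hC0 : ∀ J' : κ → Fin q, (∑ J, c J * ∏ i, P (J i) (J' i)) = 0 := by
    intro J'
    by_contra hne
    have h2 := hCD J'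
    have hne' : (∑ J, d J * ∏ i, P' (J i) (J' i)) ≠ 0 := by
      intro e
      rw [e, add_zero] at h2
      exact hne h2
    exact absurd (hCgood J' hne) (hDbad J' hne').not_gt
  have hD0 : ∀ J' : κ → Fin q, (∑ J, d J * ∏ i, P' (J i) (J' i)) = 0 := by
    intro J'
    have h2 := hCD J'
    rwa [hC0, zero_add] at h2
  constructor
  · apply hmJ
    ext x
    simp only [Finset.sum_apply, Pi.smul_apply, smul_eq_mul, Pi.zero_apply]
    rw [hcx x]
    exact Finset.sum_eq_zero fun J' _ => by rw [hC0, zero_mul]
  · apply hmJ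
    ext x
    simp only [Finset.sum_apply, Pi.smul_apply, smul_eq_mul, Pi.zero_apply]
    have e := hdx x
    have e2 : ∑ J' : κ → Fin q, (∑ J, d J * ∏ i, P' (J i) (J' i)) * ∏ i, B (J' i) (x i) = 0 :=
      Finset.sum_eq_zero fun J' _ => by rw [hD0, zero_mul]
    rw [e2] at e
    exact (mul_eq_zero.1 e).resolve_left (pow_ne_zero _ h0)

end Vale.P346.FQ
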