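import Vale.Agent.Lib.P346.FQ.Defs

/-! Basic properties of the spaces `V K ι d` and of the predicates `XDeg`, `AffLin`, `AgreeAt`. -/

namespace Vale.P346.FQ

open MvPolynomial Finset

variable {K ι Y : Type} [Field K]

/-! ### The spaces `V` -/

lemma mem_V {d : ℕ} {f : (ι → K) → K} :
    f ∈ V K ι d ↔ ∃ p : MvPolynomial ι K, p.totalDegree ≤ d ∧ ∀ x, eval x p = f x := Iff.rfl

lemma V_mono {d e : ℕ} (h : d ≤ e) : V K ι d ≤ V K ι e := by
  rintro f ⟨p, hp, hf⟩
  exact ⟨p, hp.trans h, hf⟩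

lemma V_mul {d e : ℕ} {f g : (ι → K) → K} (hf : f ∈ V K ι d) (hg : g ∈ V K ι e) :
    f * g ∈ V K ι (d + e) := by
  obtain ⟨p, hp, hf⟩ := hf
  obtain ⟨r, hr, hg⟩ := hg
  exact ⟨p * r, (totalDegree_mul p r).trans (add_le_add hp hr), fun x => by simp [hf, hg]⟩

lemma V_const (d : ℕ) (c : K) : (fun _ : ι → K => c) ∈ V K ι d :=
  ⟨C c, by simp, fun x => by simp⟩

lemma V_one (d : ℕ) : (1 : (ι → K) → K) ∈ V K ι d := V_const d 1

lemma V_coord (i : ι) : (fun x : ι → K => x i) ∈ V K ι 1 :=
  ⟨X i, by simp, fun x => by simp⟩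

lemma V_smul {d : ℕ} (c : K) {f : (ι → K) → K} (hf : f ∈ V K ι d) :
    (fun x => c * f x) ∈ V K ι d := (V K ι d).smul_mem c hf

lemma V_prod {α : Type} (s : Finset α) (d : α → ℕ) (f : α → (ι → K) → K)
    (hf : ∀ a ∈ s, f a ∈ V K ι (d a)) : ∏ a ∈ s, f a ∈ V K ι (∑ a ∈ s, d a) := by
  classical
  induction s using Finset.induction_on with
  | empty => simpa using V_one 0
  | insert a s ha ih =>
    rw [Finset.sum_insert ha, Finset.prod_insert ha]
    exact V_mul (hf a (Finset.mem_insert_self a s))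
      (ih (fun b hb => hf b (Finset.mem_insert_of_mem hb)))

lemma V_pow {d : ℕ} (m : ℕ) {f : (ι → K) → K} (hf : f ∈ V K ι d) : f ^ m ∈ V K ι (m * d) := by
  induction m with
  | zero => simpa using V_one 0
  | succ m ih =>
    rw [pow_succ, Nat.succ_mul]
    exact V_mul ih hf

lemma V_comp {κ : Type} {d : ℕ} {f : (κ → K) → K} (h : f ∈ V K κ d) (e : κ → ι) :
    (fun x : ι → K => f (fun i => x (e i))) ∈ V K ι d := by
  obtain ⟨p, hp, hf⟩ := h
  refine ⟨rename e p, (totalDegree_rename_le e p).trans hp, fun x => ?_⟩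
  rw [eval_rename]
  exact hf (fun i => x (e i))

/-- a function of degree at most one is affine -/
lemma V_affine [Fintype ι] {a : (ι → K) → K} (ha : a ∈ V K ι 1) :
    ∃ (c : K) (l : ι → K), ∀ x, a x = c + ∑ i, l i * x i := by
  classical
  obtain ⟨p, hp, hf⟩ := ha
  refine ⟨p.coeff 0, fun i => p.coeff (Finsupp.single i 1), fun x => ?_⟩
  rw [← hf x]
  have hsub : p.support ⊆ insert 0 (univ.image (fun i : ι => Finsupp.single i 1)) := by
    intro s hs
    have hdeg : (s.sum fun _ e => e) ≤ 1 := (le_totalDegree hs).trans hp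
    rw [Finsupp.sum_fintype _ _ (by simp)] at hdeg
    rw [Finset.mem_insert, Finset.mem_image]
    by_cases h0 : s = 0
    · left; exact h0
    · right
      obtain ⟨i, hi⟩ := Finsupp.ne_iff.mp h0
      rw [Finsupp.coe_zero, Pi.zero_apply] at hi
      refine ⟨i, Finset.mem_univ i, ?_⟩
      ext j
      by_cases hij : i = j
      · subst hij
        have h1 : s i ≤ ∑ i, s i := Finset.single_le_sum (fun _ _ => Nat.zero_le _)
          (Finset.mem_univ i)
        rw [Finsupp.single_eq_same]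
        omega
      · rw [Finsupp.single_eq_of_ne' hij]
        have h1 : s i + s j ≤ ∑ i, s i := by
          rw [← Finset.sum_pair hij]
          exact Finset.sum_le_sum_of_subset (Finset.subset_univ _)
        omega
  rw [eval_eq', Finset.sum_subset hsub (fun s _ hs => by
    rw [notMem_support_iff.mp hs, zero_mul])]
  have hnot : (0 : ι →₀ ℕ) ∉ univ.image (fun i : ι => Finsupp.single i 1) := by
    rw [Finset.mem_image]
    rintro ⟨i, _, hi⟩
    have := DFunLike.congr_fun hi i
    simp at this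
  rw [Finset.sum_insert hnot, Finset.sum_image]
  · congr 1
    · simp
    · refine Finset.sum_congr rfl (fun i _ => ?_)
      congr 1
      rw [Finset.prod_eq_single i]
      · simp
      · intro j _ hj
        rw [Finsupp.single_eq_of_ne hj, pow_zero]
      · intro h
        exact absurd (Finset.mem_univ i) h
  · intro i _ j _ hij
    exact (Finsupp.single_left_injective one_ne_zero) hij

/-! ### `XDeg` -/

lemma XDeg.mono {d e : ℕ} {P : MvPolynomial Y ((ι → K) → K)} (h : XDeg d P) (hde : d ≤ e) :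
    XDeg e P := fun α => V_mono hde (h α)

lemma XDeg_zero (d : ℕ) : XDeg d (0 : MvPolynomial Y ((ι → K) → K)) := by
  intro α
  rw [coeff_zero]
  exact (V K ι d).zero_mem

lemma XDeg_C {d : ℕ} {a : (ι → K) → K} (ha : a ∈ V K ι d) :
    XDeg d (C a : MvPolynomial Y ((ι → K) → K)) := by
  classical
  intro α
  rw [coeff_C]
  split_ifs
  · exact ha
  · exact (V K ι d).zero_mem

lemma XDeg_X (d : ℕ) (y : Y) : XDeg d (X y : MvPolynomial Y ((ι → K) → K)) := by
  classical
  intro α
  rw [coeff_X]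
  split_ifs
  · exact V_one d
  · exact (V K ι d).zero_mem

lemma XDeg_one (d : ℕ) : XDeg d (1 : MvPolynomial Y ((ι → K) → K)) := by
  rw [← C_1]
  exact XDeg_C (V_one d)

lemma XDeg.add {d : ℕ} {P Q : MvPolynomial Y ((ι → K) → K)} (hP : XDeg d P) (hQ : XDeg d Q) :
    XDeg d (P + Q) := by
  intro α
  rw [coeff_add]
  exact (V K ι d).add_mem (hP α) (hQ α)

lemma XDeg.mul {d e : ℕ} {P Q : MvPolynomial Y ((ι → K) → K)} (hP : XDeg d P) (hQ : XDeg e Q) :
    XDeg (d + e) (P * Q) := by
  classical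
  intro α
  rw [coeff_mul]
  exact Submodule.sum_mem _ (fun β _ => V_mul (hP β.1) (hQ β.2))

lemma XDeg_sum {α : Type} (s : Finset α) {d : ℕ} (P : α → MvPolynomial Y ((ι → K) → K))
    (hP : ∀ a ∈ s, XDeg d (P a)) : XDeg d (∑ a ∈ s, P a) := by
  classical
  induction s using Finset.induction_on with
  | empty => simpa using XDeg_zero d
  | insert a s ha ih =>
    rw [Finset.sum_insert ha]
    exact (hP a (Finset.mem_insert_self a s)).add
      (ih (fun b hb => hP b (Finset.mem_insert_of_mem hb)))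

lemma XDeg_prod {α : Type} (s : Finset α) (d : α → ℕ) (P : α → MvPolynomial Y ((ι → K) → K))
    (hP : ∀ a ∈ s, XDeg (d a) (P a)) : XDeg (∑ a ∈ s, d a) (∏ a ∈ s, P a) := by
  classical
  induction s using Finset.induction_on with
  | empty => simpa using XDeg_one 0
  | insert a s ha ih =>
    rw [Finset.sum_insert ha, Finset.prod_insert ha]
    exact (hP a (Finset.mem_insert_self a s)).mul
      (ih (fun b hb => hP b (Finset.mem_insert_of_mem hb)))

lemma XDeg.pow {d : ℕ} (m : ℕ) {P : MvPolynomial Y ((ι → K) → K)} (hP : XDeg d P) :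
    XDeg (m * d) (P ^ m) := by
  induction m with
  | zero => simpa using XDeg_one 0
  | succ m ih =>
    rw [pow_succ, Nat.succ_mul]
    exact ih.mul hP

/-! ### `AffLin` -/

section afflin

variable [Fintype Y]

lemma AffLin_C {a : (ι → K) → K} (ha : a ∈ V K ι 1) :
    AffLin (C a : MvPolynomial Y ((ι → K) → K)) :=
  ⟨a, fun _ => 0, ha, by
    have h0 : (fun _ : ι → K => (0 : K)) = 0 := rfl
    simp [h0]⟩

lemma AffLin_zero : AffLin (0 : MvPolynomial Y ((ι → K) → K)) := by
  rw [← C_0]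
  exact AffLin_C (V K ι 1).zero_mem

lemma AffLin_one : AffLin (1 : MvPolynomial Y ((ι → K) → K)) := by
  rw [← C_1]
  exact AffLin_C (V_one 1)

lemma AffLin_X [DecidableEq Y] (y : Y) : AffLin (X y : MvPolynomial Y ((ι → K) → K)) := by
  refine ⟨0, fun y' => if y' = y then 1 else 0, (V K ι 1).zero_mem, ?_⟩
  rw [Finset.sum_eq_single y]
  · have h1 : (fun _ : ι → K => if y = y then (1 : K) else 0) = 1 := by
      funext x
      simp
    rw [h1]
    simp
  · intro y' _ hy'
    have h0 : (fun _ : ι → K => if y' = y then (1 : K) else 0) = 0 := by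
      funext x
      simp [hy']
    rw [h0]
    simp
  · intro h
    exact absurd (Finset.mem_univ y) h

lemma AffLin.add {P Q : MvPolynomial Y ((ι → K) → K)} (hP : AffLin P) (hQ : AffLin Q) :
    AffLin (P + Q) := by
  obtain ⟨a, b, ha, rfl⟩ := hP
  obtain ⟨a', b', ha', rfl⟩ := hQ
  refine ⟨a + a', fun y => b y + b' y, (V K ι 1).add_mem ha ha', ?_⟩
  have h1 : ∀ y, (fun _ : ι → K => b y + b' y) = (fun _ => b y) + (fun _ => b' y) :=
    fun y => rfl
  simp_rw [h1, C_add, add_mul, Finset.sum_add_distrib]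
  ring

lemma AffLin.smul {P : MvPolynomial Y ((ι → K) → K)} (c : K) (hP : AffLin P) :
    AffLin (C (fun _ => c) * P) := by
  obtain ⟨a, b, ha, rfl⟩ := hP
  refine ⟨fun x => c * a x, fun y => c * b y, V_smul c ha, ?_⟩
  rw [mul_add, Finset.mul_sum]
  congr 1
  · rw [← C_mul]
    rfl
  · refine Finset.sum_congr rfl (fun y _ => ?_)
    rw [← mul_assoc, ← C_mul]
    rfl

lemma AffLin_sum {α : Type} (s : Finset α) (P : α → MvPolynomial Y ((ι → K) → K))
    (hP : ∀ a ∈ s, AffLin (P a)) : AffLin (∑ a ∈ s, P a) := by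
  classical
  induction s using Finset.induction_on with
  | empty => simpa using AffLin_zero
  | insert a s ha ih =>
    rw [Finset.sum_insert ha]
    exact (hP a (Finset.mem_insert_self a s)).add
      (ih (fun b hb => hP b (Finset.mem_insert_of_mem hb)))

lemma AffLin.xdeg {P : MvPolynomial Y ((ι → K) → K)} (hP : AffLin P) : XDeg 1 P := by
  obtain ⟨a, b, ha, rfl⟩ := hP
  refine (XDeg_C ha).add (XDeg_sum _ _ (fun y _ => ?_))
  simpa using (XDeg_C (Y := Y) (V_const (ι := ι) 1 (b y))).mul (XDeg_X 0 y)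

end afflin

/-! ### `AgreeAt` -/

lemma AgreeAt.refl (k : ℕ) (x : ι → K) (P : MvPolynomial Y ((ι → K) → K)) : AgreeAt k x P P :=
  fun _ _ => rfl

lemma AgreeAt.symm {k : ℕ} {x : ι → K} {P Q : MvPolynomial Y ((ι → K) → K)}
    (h : AgreeAt k x P Q) : AgreeAt k x Q P := fun α hα => (h α hα).symm

lemma AgreeAt.add {k : ℕ} {x : ι → K} {P Q P' Q' : MvPolynomial Y ((ι → K) → K)}
    (h : AgreeAt k x P Q) (h' : AgreeAt k x P' Q') : AgreeAt k x (P + P') (Q + Q') := by
  intro α hα
  rw [coeff_add, coeff_add, Pi.add_apply, Pi.add_apply, h α hα, h' α hα]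

lemma AgreeAt.mul {k : ℕ} {x : ι → K} {P Q P' Q' : MvPolynomial Y ((ι → K) → K)}
    (h : AgreeAt k x P Q) (h' : AgreeAt k x P' Q') : AgreeAt k x (P * P') (Q * Q') := by
  classical
  intro α hα
  rw [coeff_mul, coeff_mul, Finset.sum_apply, Finset.sum_apply]
  refine Finset.sum_congr rfl (fun β hβ => ?_)
  have hβ' := Finset.HasAntidiagonal.mem_antidiagonal.mp hβ
  have hdeg : β.1.degree + β.2.degree = α.degree := by
    rw [← hβ', map_add]
  rw [Pi.mul_apply, Pi.mul_apply, h β.1 (by omega), h' β.2 (by omega)]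

lemma AgreeAt_sum {α : Type} (s : Finset α) {k : ℕ} {x : ι → K}
    (P Q : α → MvPolynomial Y ((ι → K) → K)) (h : ∀ a ∈ s, AgreeAt k x (P a) (Q a)) :
    AgreeAt k x (∑ a ∈ s, P a) (∑ a ∈ s, Q a) := by
  classical
  induction s using Finset.induction_on with
  | empty => exact AgreeAt.refl k x _
  | insert a s ha ih =>
    rw [Finset.sum_insert ha, Finset.sum_insert ha]
    exact (h a (Finset.mem_insert_self a s)).add
      (ih (fun b hb => h b (Finset.mem_insert_of_mem hb)))

lemma AgreeAt_prod {α : Type} (s : Finset α) {k : ℕ} {x : ι → K}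
    (P Q : α → MvPolynomial Y ((ι → K) → K)) (h : ∀ a ∈ s, AgreeAt k x (P a) (Q a)) :
    AgreeAt k x (∏ a ∈ s, P a) (∏ a ∈ s, Q a) := by
  classical
  induction s using Finset.induction_on with
  | empty => exact AgreeAt.refl k x _
  | insert a s ha ih =>
    rw [Finset.prod_insert ha, Finset.prod_insert ha]
    exact (h a (Finset.mem_insert_self a s)).mul
      (ih (fun b hb => h b (Finset.mem_insert_of_mem hb)))

lemma AgreeAt.pow {k : ℕ} {x : ι → K} {P Q : MvPolynomial Y ((ι → K) → K)}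
    (h : AgreeAt k x P Q) (m : ℕ) : AgreeAt k x (P ^ m) (Q ^ m) := by
  induction m with
  | zero => exact AgreeAt.refl k x _
  | succ m ih =>
    rw [pow_succ, pow_succ]
    exact ih.mul h

end Vale.P346.FQ
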